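import Crest.Agent.R118.CoreDefs_324
import Mathlib
import Crest.Agent.R118.A2_321

-- ▼ part R118/A0_785
section

/-!
# Row 118 (S0158), section A0 of `CoreStmts_324`: general facts on kernel norms

All statements are those of `CoreStmts_324` (task 143), in the namespace
`Crest.Agent.R118.A0_785`.
-/

namespace Crest.Agent.R118.A0_785

open Finset Base324 KNorm324 Core324

/-- the map to a point is measure preserving -/
lemma MP_unit {A : Type} [Fintype A] [Nonempty A] : MP (fun _ : A => ()) := by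
  intro g
  rw [avg_const]
  simp [avg]


section General

variable {β a as : ℝ} {L M : ℕ} (K : KNorm β a as L M)
variable {A B A' B' : Type} [Fintype A] [Fintype B] [Fintype A'] [Fintype B']

include K in
theorem β_nonneg : 0 ≤ β := (K.nonneg _).trans K.walsh

/-- a constant kernel `1` has norm `≤ 1` -/
theorem ν_one [Nonempty A] [Nonempty B] : K.ν (fun (_ : A) (_ : B) => (1 : ℝ)) ≤ 1 :=
  (K.pull (MP_unit (A := A)) (MP_unit (A := B)) (fun _ _ => (1 : ℝ))).trans K.one

/-- products over `Fin n` rows -/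
theorem ν_prod_fin {P Q : Type} [Fintype P] [Fintype Q] : ∀ (n : ℕ) (κ : Fin n → P → Q → ℝ),
    K.ν (fun (x : Fin n → P) (y : Fin n → Q) => ∏ l, κ l (x l) (y l)) ≤ ∏ l, K.ν (κ l) := by
  intro n
  induction n with
  | zero =>
    intro κ
    simp only [Finset.univ_eq_empty, Finset.prod_empty]
    exact ν_one K
  | succ n ih =>
    intro κ
    have h1 := K.pull (MP.equiv (Fin.consEquiv (fun _ : Fin (n + 1) => P)).symm)
      (MP.equiv (Fin.consEquiv (fun _ : Fin (n + 1) => Q)).symm)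
      (fun (x : P × (Fin n → P)) (y : Q × (Fin n → Q)) =>
        κ 0 x.1 y.1 * ∏ l, κ l.succ (x.2 l) (y.2 l))
    have h2 := K.tensor (κ 0) (fun (x : Fin n → P) (y : Fin n → Q) => ∏ l, κ l.succ (x l) (y l))
    have h3 := ih (fun l => κ l.succ)
    have h4 : (fun (x : Fin (n + 1) → P) (y : Fin (n + 1) → Q) => ∏ l, κ l (x l) (y l)) =
        fun x y => (fun (x : P × (Fin n → P)) (y : Q × (Fin n → Q)) =>
          κ 0 x.1 y.1 * ∏ l, κ l.succ (x.2 l) (y.2 l))
          ((Fin.consEquiv (fun _ : Fin (n + 1) => P)).symm x)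
          ((Fin.consEquiv (fun _ : Fin (n + 1) => Q)).symm y) := by
      funext x y
      simp only [Fin.prod_univ_succ, Fin.consEquiv_symm_apply]
      rfl
    rw [h4]
    refine h1.trans (h2.trans ?_)
    rw [Fin.prod_univ_succ]
    exact mul_le_mul_of_nonneg_left h3 (K.nonneg _)

/-- A0.1 products over rows -/
theorem ν_prod_pi {P Q : Type} [Fintype P] [Fintype Q] (ι : Type) [Fintype ι] [DecidableEq ι]
    (κ : ι → P → Q → ℝ) :
    K.ν (fun (x : ι → P) (y : ι → Q) => ∏ l, κ l (x l) (y l)) ≤ ∏ l, K.ν (κ l) := by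
  let e : ι ≃ Fin (Fintype.card ι) := Fintype.equivFin ι
  have h1 := ν_prod_fin K (Fintype.card ι) (fun l => κ (e.symm l))
  have h2 := K.pull (MP.equiv (Equiv.arrowCongr e (Equiv.refl P)))
      (MP.equiv (Equiv.arrowCongr e (Equiv.refl Q)))
      (fun (x : Fin (Fintype.card ι) → P) (y : Fin (Fintype.card ι) → Q) =>
        ∏ l, κ (e.symm l) (x l) (y l))
  have h3 : (fun (x : ι → P) (y : ι → Q) => ∏ l, κ l (x l) (y l)) =
      fun x y => (fun (x : Fin (Fintype.card ι) → P) (y : Fin (Fintype.card ι) → Q) =>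
        ∏ l, κ (e.symm l) (x l) (y l))
        (Equiv.arrowCongr e (Equiv.refl P) x) (Equiv.arrowCongr e (Equiv.refl Q) y) := by
    funext x y
    simp only [Equiv.arrowCongr_apply, Equiv.coe_refl, Function.comp_apply, id_eq]
    exact (Equiv.prod_comp e.symm (fun l => κ l (x l) (y l))).symm
  rw [h3]
  refine h2.trans (h1.trans (le_of_eq ?_))
  exact Equiv.prod_comp e.symm (fun l => K.ν (κ l))

/-- A0.1' uniform version -/
theorem ν_prod_pi_le {P Q : Type} [Fintype P] [Fintype Q] (ι : Type) [Fintype ι] [DecidableEq ι]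
    (κ : ι → P → Q → ℝ) (c : ℝ) (h : ∀ l, K.ν (κ l) ≤ c) :
    K.ν (fun (x : ι → P) (y : ι → Q) => ∏ l, κ l (x l) (y l)) ≤ c ^ Fintype.card ι := by
  refine (ν_prod_pi K ι κ).trans ?_
  calc ∏ l, K.ν (κ l) ≤ ∏ _l : ι, c :=
        Finset.prod_le_prod (fun l _ => K.nonneg _) (fun l _ => h l)
    _ = c ^ Fintype.card ι := by simp

/-- A0.2 -/
theorem ν_chi_pi (ι : Type) [Fintype ι] [DecidableEq ι] :
    K.ν (fun x y : ι → ZMod 2 => χ x y) ≤ β ^ Fintype.card ι :=
  ν_prod_pi_le K ι (fun _ x y => χ x y) β (fun _ => K.walsh)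

/-- A0.3 -/
theorem ν_chi_Ro (I : ℕ) : K.ν (fun x y : Ro L I => χ x y) ≤ β ^ (L + I) := by
  have h1 := K.tensor (fun x y : Fin L → ZMod 2 => χ x y) (fun x y : Fin I → ZMod 2 => χ x y)
  have h2 := ν_chi_pi K (Fin L)
  have h3 := ν_chi_pi K (Fin I)
  rw [Fintype.card_fin] at h2 h3
  refine h1.trans ?_
  rw [pow_add]
  exact mul_le_mul h2 h3 (K.nonneg _) (pow_nonneg (β_nonneg K) _)

/-- A0.4 -/
theorem ν_chi_R (I : ℕ) : K.ν (fun x y : R L I => χ x y) ≤ β ^ (1 + L + I) := by
  have h1 := K.tensor (fun x y : ZMod 2 => χ x y) (fun x y : Ro L I => χ x y)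
  refine h1.trans ?_
  rw [add_assoc, pow_add, pow_one]
  exact mul_le_mul K.walsh (ν_chi_Ro K I) (K.nonneg _) (β_nonneg K)

/-- A0.5 -/
theorem ν_k0 (I : ℕ) : K.ν (k0 : Pf L I → R L I → ℝ) ≤ β ^ (1 + L + I) :=
  (K.pull (φ := fun x : Pf L I => x.1) MP.fst MP.id (fun x y : R L I => χ x y)).trans
    (ν_chi_R K I)



end General

end Crest.Agent.R118.A0_785
end

-- ▼ part R118/A3_253
section

/-!
Row 118 (S0158), Theorem A, step (A3): the resonance kernel bound.
-/

namespace Crest.Agent.R118.A3_253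

open Finset Base324 KNorm324 Core324 A0_785

/-! ### Tools -/

lemma avg_pi_prod {ι P : Type} [Fintype ι] [DecidableEq ι] [Fintype P] (f : ι → P → ℝ) :
    avg (fun x : ι → P => ∏ l, f l (x l)) = ∏ l, avg (f l) := by
  simp only [avg, smul_eq_mul]
  rw [Finset.prod_mul_distrib, Finset.prod_const, Finset.card_univ]
  congr 1
  · rw [Fintype.card_fun]; push_cast; rw [inv_pow]
  · rw [Finset.prod_univ_sum, Fintype.piFinset_univ]

/-- logarithm of a sign -/
noncomputable def lg (x : ℝ) : ZMod 2 := if x = 1 then 0 else 1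

lemma sg_lg {x : ℝ} (h : x * x = 1) : sg (lg x) = x := by
  rcases mul_self_eq_one_iff.mp h with rfl | rfl
  · simp [lg]
  · norm_num [lg]

/-- `p • d` for `p : ZMod 2` -/
def sm {V : Type} [AddCommGroup V] (p : ZMod 2) (d : V) : V := if p = 0 then 0 else d

lemma χ_sm {V : Type} [BiChar V] (p : ZMod 2) (d t : V) :
    χ (sm p d) t = sg (p * lg (χ d t)) := by
  rcases zmod2_cases p with rfl | rfl
  · simp [sm, χ_zero_left]
  · simp [sm, sg_lg (χ_mul_self d t)]

lemma χ_sm_right {V : Type} [BiChar V] (p : ZMod 2) (d t : V) :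
    χ t (sm p d) = sg (p * lg (χ t d)) := by
  rw [χ_symm, χ_sm, χ_symm]

lemma avg_one_add_sg (s : ℝ) (x : ZMod 2) : avg (fun y : ZMod 2 => 1 + s * sg (y + x)) = 1 := by
  rw [avg_zmod2, sg_add, sg_add]
  simp
  ring

lemma avg_one_add_sg' (s : ℝ) (x : ZMod 2) : avg (fun y : ZMod 2 => 1 + s * sg (x + y)) = 1 := by
  simp only [add_comm x]
  exact avg_one_add_sg s x


variable {L I : ℕ}

lemma χ_single (b : Fin L → ZMod 2) (j : Fin L) :
    χ b (Pi.single j (1 : ZMod 2)) = sg (b j) := by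
  rw [χ_pi, Finset.prod_eq_single j]
  · simp [χ_zmod2]
  · intro i _ hi
    rw [Pi.single_eq_of_ne hi, χ_zmod2]; simp
  · intro h; exact absurd (Finset.mem_univ j) h

/-! ### eta-solve, abstract form -/

section EtaSolve

variable {β a as : ℝ} {L' M : ℕ} (K : KNorm β a as L' M)

/-- shear of the first coordinate by a function of the second -/
def shearEquiv {V W : Type} [AddCommGroup V] (h : W → V) : V × W ≃ V × W where
  toFun x := (x.1 + h x.2, x.2)
  invFun x := (x.1 - h x.2, x.2)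
  left_inv x := by simp
  right_inv x := by simp

/-- abstract eta-solve on `(Fin L → ZMod 2) × W` -/
theorem ν_eta_abs {W : Type} [BiChar W] [Fintype W] (E : Fin L → W) (c : Fin L → ZMod 2) :
    K.ν (fun (u : (Fin L → ZMod 2) × W) (y : (Fin L → ZMod 2) × ((Fin L → ZMod 2) × W)) =>
      χ u.1 y.2.1 * χ u.2 y.2.2 * ∏ j, (1 + sg (y.1 j + c j) * (sg (u.1 j) * χ u.2 (E j))))
      ≤ K.ν (fun x y : W => χ x y) := by
  classical
  -- the Schur form
  have hS := K.schur (D := Fin L → ZMod 2) (E := (Fin L → ZMod 2) × (Fin L → ZMod 2))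
    (A := W) (B := W) (fun d e => ∏ j, (1 + 1 * sg (e.1 j + d j)))
    (by
      intro d e
      refine Finset.prod_nonneg fun j _ => ?_
      rcases zmod2_cases (e.1 j + d j) with h | h <;> simp [h])
    (by
      intro e
      have := avg_pi_prod (P := ZMod 2) (fun (j : Fin L) (x : ZMod 2) => 1 + 1 * sg (e.1 j + x))
      rw [this]
      exact Finset.prod_eq_one fun j _ => avg_one_add_sg' 1 (e.1 j))
    (by
      intro d
      rw [avg_prod (fun (e1 : Fin L → ZMod 2) (_ : Fin L → ZMod 2) =>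
        ∏ j, (1 + 1 * sg (e1 j + d j)))]
      simp only [avg_const]
      have := avg_pi_prod (P := ZMod 2) (fun (j : Fin L) (x : ZMod 2) => 1 + 1 * sg (x + d j))
      rw [this]
      exact Finset.prod_eq_one fun j _ => avg_one_add_sg 1 (d j))
    (fun d e x y => (∏ j, sg (d j * e.2 j)) * (∏ j, sg (c j * e.2 j)) *
        χ x (y + ∑ j, sm (e.2 j) (E j)))
    (K.ν (fun x y : W => χ x y)) (K.nonneg _)
    (by
      intro d e
      refine (K.smul_le _ _).trans ?_
      have h1 : |(∏ j, sg (d j * e.2 j)) * (∏ j, sg (c j * e.2 j))| = 1 := by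
        rw [abs_mul, Finset.abs_prod, Finset.abs_prod]
        simp
      rw [h1, one_mul]
      exact K.pull MP.id (MP.add_const _) (fun x y : W => χ x y))
  -- pull back
  have hφ : MP (fun u : (Fin L → ZMod 2) × W =>
      shearEquiv (fun w : W => fun j => c j + lg (χ w (E j))) u) := MP.equiv _
  have hψ : MP (fun y : (Fin L → ZMod 2) × ((Fin L → ZMod 2) × W) =>
      (Equiv.prodAssoc _ _ _).symm y) := MP.equiv _
  refine le_trans (le_of_eq ?_) ((K.pull hφ hψ _).trans hS)
  congr 1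
  funext u y
  obtain ⟨b, w⟩ := u
  obtain ⟨η, b', w'⟩ := y
  simp only [shearEquiv, Equiv.coe_fn_mk, Equiv.prodAssoc_symm_apply, Pi.add_apply]
  -- product identity
  have e1 : ∀ j, (1 + 1 * sg (η j + (b j + (c j + lg (χ w (E j))))))
      = (1 + sg (η j + c j) * (sg (b j) * χ w (E j))) := by
    intro j
    rw [sg_add, sg_add, sg_add, sg_add, sg_lg (χ_mul_self _ _)]
    ring
  simp only [e1]
  have e2 : χ w (w' + ∑ j, sm (b' j) (E j))
      = χ w w' * ∏ j, sg (b' j * lg (χ w (E j))) := by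
    rw [χ_add_right, χ_sum_right]
    simp only [χ_sm_right]
  rw [e2]
  have e3 : (∏ j, sg ((b j + (c j + lg (χ w (E j)))) * b' j)) * (∏ j, sg (c j * b' j)) *
      (χ w w' * ∏ j, sg (b' j * lg (χ w (E j)))) = χ b b' * χ w w' := by
    have e4 : (∏ j, sg ((b j + (c j + lg (χ w (E j)))) * b' j)) * (∏ j, sg (c j * b' j)) *
        (∏ j, sg (b' j * lg (χ w (E j)))) = χ b b' := by
      rw [← Finset.prod_mul_distrib, ← Finset.prod_mul_distrib, χ_pi]
      refine Finset.prod_congr rfl fun j _ => ?_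
      rw [← sg_add, ← sg_add, χ_zmod2]
      congr 1
      have h2 : ∀ x : ZMod 2, x + x = 0 := by decide
      have : (b j + (c j + lg (χ w (E j)))) * b' j + c j * b' j + b' j * lg (χ w (E j))
          = b j * b' j + (c j * b' j + c j * b' j) +
            (b' j * lg (χ w (E j)) + b' j * lg (χ w (E j))) := by ring
      rw [this, h2, h2, add_zero, add_zero]
    rw [← e4]; ring
  rw [e3]
  ring

include K in
lemma β_nonneg : 0 ≤ β := (K.nonneg _).trans K.walsh

lemma χ_split {ι : Type} [Fintype ι] [DecidableEq ι] (l0 : ι) {V : Type} [BiChar V]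
    (u t : ι → V) :
    χ u t = χ (u l0) (t l0) *
      χ (fun l : {l // l ≠ l0} => u l) (fun l : {l // l ≠ l0} => t l) := by
  rw [χ_pi, Fintype.prod_eq_mul_prod_subtype_ne _ l0]
  rfl

end EtaSolve

section

variable {β a as : ℝ} {L M : ℕ} (K : KNorm β a as L M)

/-- A3.1 eta-solve: kernel on the `(q,Ω)` parts -/
theorem ν_etaSolve (I : ℕ) (ι : Type) [Fintype ι] [DecidableEq ι] [Nonempty ι]
    (e : Fin L → ι → (Fin I → ZMod 2)) (c : Fin L → ZMod 2) :
    K.ν (fun (u : ι → Ro L I) (y : (Fin L → ZMod 2) × (ι → Ro L I)) =>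
      χ u y.2 * ∏ j, (1 + sg (y.1 j + c j) * ∏ l, χ (u l) ((Pi.single j 1, e j l) : Ro L I)))
      ≤ β ^ ((L + I) * (Fintype.card ι - 1) + I) := by
  classical
  obtain ⟨l0⟩ := (inferInstance : Nonempty ι)
  -- the remaining space
  let W : Type := (Fin I → ZMod 2) × ({l : ι // l ≠ l0} → Ro L I)
  let E : Fin L → W := fun j => (e j l0, fun l => (Pi.single j 1, e j l))
  have hW : K.ν (fun x y : W => χ x y) ≤ β ^ ((L + I) * (Fintype.card ι - 1) + I) := by
    have h1 := K.tensor (fun x y : Fin I → ZMod 2 => χ x y)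
      (fun x y : {l : ι // l ≠ l0} → Ro L I => χ x y)
    have h2 : K.ν (fun x y : Fin I → ZMod 2 => χ x y) ≤ β ^ I := by
      simpa using ν_chi_pi K (Fin I)
    have h3 : K.ν (fun x y : {l : ι // l ≠ l0} → Ro L I => χ x y)
        ≤ β ^ ((L + I) * (Fintype.card ι - 1)) := by
      have h4 := ν_prod_pi K {l : ι // l ≠ l0}
        (fun _ (x y : Ro L I) => χ x y)
      refine h4.trans ?_
      rw [Finset.prod_const, Finset.card_univ, pow_mul]
      have h5 : Fintype.card {l : ι // l ≠ l0} = Fintype.card ι - 1 := by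
        simp
      rw [h5]
      exact pow_le_pow_left₀ (K.nonneg _) (ν_chi_Ro K I) _
    calc K.ν (fun x y : W => χ x y) ≤ _ := h1
      _ ≤ β ^ I * β ^ ((L + I) * (Fintype.card ι - 1)) :=
          mul_le_mul h2 h3 (K.nonneg _) (pow_nonneg (β_nonneg K) _)
      _ = _ := by rw [← pow_add, add_comm]
  refine le_trans ?_ ((ν_eta_abs K E c).trans hW)
  -- change of variables
  let g : (ι → Ro L I) ≃ (Fin L → ZMod 2) × W :=
    (Equiv.funSplitAt l0 (Ro L I)).trans (Equiv.prodAssoc _ _ _)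
  have hφ : MP (fun u : ι → Ro L I => g u) := MP.equiv g
  have hψ : MP (fun y : (Fin L → ZMod 2) × (ι → Ro L I) => (y.1, g y.2)) :=
    MP.prodMap MP.id (MP.equiv g)
  refine le_trans (le_of_eq ?_) (K.pull hφ hψ _)
  congr 1
  funext u y
  have g1 : ∀ u : ι → Ro L I, (g u).1 = (u l0).1 := fun _ => rfl
  have g2 : ∀ u : ι → Ro L I, (g u).2 = ((u l0).2, fun l : {l // l ≠ l0} => u l) :=
    fun _ => rfl
  have e1 : χ (g u).1 (g y.2).1 * χ (g u).2 (g y.2).2 = χ u y.2 := by
    rw [χ_split l0 u y.2, χ_prod (u l0), g1, g1, g2, g2]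
    have h2 : χ (((u l0).2, fun l : {l // l ≠ l0} => u l) : W)
        (((y.2 l0).2, fun l : {l // l ≠ l0} => y.2 l) : W)
        = χ (u l0).2 (y.2 l0).2 * χ (fun l : {l // l ≠ l0} => u l)
          (fun l : {l // l ≠ l0} => y.2 l) := rfl
    rw [h2]
    ring
  have e2 : ∀ j, sg ((g u).1 j) * χ (g u).2 (E j)
      = ∏ l, χ (u l) ((Pi.single j 1, e j l) : Ro L I) := by
    intro j
    rw [g1, g2, Fintype.prod_eq_mul_prod_subtype_ne _ l0, χ_prod (u l0), χ_single]
    have h2 : χ (((u l0).2, fun l : {l // l ≠ l0} => u l) : W) (E j)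
        = χ (u l0).2 (e j l0) * ∏ l : {l // l ≠ l0}, χ (u l) ((Pi.single j 1, e j l) : Ro L I) :=
      rfl
    rw [h2]
    ring
  simp only [e1, e2]

/-- input change of variables (eps-solve) -/
noncomputable def phiEquiv {ι : Type} (d : ι → Ro L I) :
    (ι → R L I × ZMod 2) ≃ (ι → ZMod 2 × ZMod 2) × (ι → Ro L I) where
  toFun x := (fun l => ((x l).1.1, (x l).2), fun l => (x l).1.2 + sm (x l).1.1 (d l))
  invFun z := fun l => (((z.1 l).1, z.2 l - sm (z.1 l).1 (d l)), (z.1 l).2)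
  left_inv x := by
    funext l
    simp
  right_inv z := by
    refine Prod.ext ?_ ?_
    · rfl
    · funext l
      simp

/-- output change of variables (eps-solve) -/
noncomputable def psiEquiv {ι : Type} (d : ι → Ro L I) :
    (Fin L → ZMod 2) × (ι → R L I) ≃ (ι → ZMod 2) × ((Fin L → ZMod 2) × (ι → Ro L I)) where
  toFun y := (fun l => (y.2 l).1 + lg (χ (d l) (y.2 l).2), (y.1, fun l => (y.2 l).2))
  invFun z := (z.2.1, fun l => (z.1 l - lg (χ (d l) (z.2.2 l)), z.2.2 l))
  left_inv y := by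
    refine Prod.ext rfl ?_
    funext l
    simp
  right_inv z := by
    refine Prod.ext ?_ rfl
    funext l
    simp

/-- the kernel for fixed `d`, `e` -/
theorem ν_fixed (I : ℕ) (ι : Type) [Fintype ι] [DecidableEq ι] [Nonempty ι]
    (d : ι → Ro L I) (e : ι → (Fin L → ZMod 2 × (Fin I → ZMod 2))) :
    K.ν (fun (x : ι → R L I × ZMod 2) (y : (Fin L → ZMod 2) × (ι → R L I)) =>
      (∏ l, (χ (x l).1 (y.2 l) * (1 + sg (x l).2 * χ (dvec (d l)) (y.2 l)))) *
        ∏ j, (1 + sg (y.1 j) * ∏ l, χ (x l).1 (evec j (e l j))))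
      ≤ β ^ ((L + I) * (Fintype.card ι - 1) + I) := by
  classical
  let cc : (ι → ZMod 2 × ZMod 2) → Fin L → ZMod 2 := fun D j =>
    lg (∏ l, (sg ((D l).1 * (e l j).1) * χ (sm (D l).1 (d l)) ((Pi.single j 1, (e l j).2) : Ro L I)))
  have hcc : ∀ D j, sg (cc D j) = ∏ l, (sg ((D l).1 * (e l j).1) *
      χ (sm (D l).1 (d l)) ((Pi.single j 1, (e l j).2) : Ro L I)) := by
    intro D j
    apply sg_lg
    rw [← Finset.prod_mul_distrib]
    refine Finset.prod_eq_one fun l _ => ?_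
    have h1 := sg_mul_self ((D l).1 * (e l j).1)
    have h2 := χ_mul_self (sm (D l).1 (d l)) ((Pi.single j 1, (e l j).2) : Ro L I)
    calc _ = (sg ((D l).1 * (e l j).1) * sg ((D l).1 * (e l j).1)) *
          (χ (sm (D l).1 (d l)) ((Pi.single j 1, (e l j).2) : Ro L I) *
            χ (sm (D l).1 (d l)) ((Pi.single j 1, (e l j).2) : Ro L I)) := by ring
      _ = 1 := by rw [h1, h2, one_mul]
  have hS := K.schur (D := ι → ZMod 2 × ZMod 2) (E := ι → ZMod 2)
    (A := ι → Ro L I) (B := (Fin L → ZMod 2) × (ι → Ro L I))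
    (fun D E => ∏ l, (1 + 1 * sg ((D l).2 + E l)))
    (by
      intro D E
      refine Finset.prod_nonneg fun j _ => ?_
      rcases zmod2_cases ((D j).2 + E j) with h | h <;> simp [h])
    (by
      intro E
      have := avg_pi_prod (P := ZMod 2 × ZMod 2)
        (fun (l : ι) (x : ZMod 2 × ZMod 2) => 1 + 1 * sg (x.2 + E l))
      rw [this]
      refine Finset.prod_eq_one fun l _ => ?_
      rw [avg_prod (fun (_ : ZMod 2) (x : ZMod 2) => 1 + 1 * sg (x + E l))]
      simp only [avg_one_add_sg, avg_const])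
    (by
      intro D
      have := avg_pi_prod (P := ZMod 2) (fun (l : ι) (x : ZMod 2) => 1 + 1 * sg ((D l).2 + x))
      rw [this]
      exact Finset.prod_eq_one fun l _ => avg_one_add_sg' 1 _)
    (fun D E u y => (∏ l, sg ((D l).1 * E l)) *
        (χ u y.2 * ∏ j, (1 + sg (y.1 j + cc D j) *
          ∏ l, χ (u l) ((Pi.single j 1, (e l j).2) : Ro L I))))
    (β ^ ((L + I) * (Fintype.card ι - 1) + I)) (pow_nonneg (β_nonneg K) _)
    (by
      intro D E
      refine (K.smul_le _ _).trans ?_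
      have h1 : |∏ l, sg ((D l).1 * E l)| = 1 := by
        rw [Finset.abs_prod]
        simp
      rw [h1, one_mul]
      exact ν_etaSolve K I ι (fun j l => (e l j).2) (cc D))
  refine le_trans (le_of_eq ?_) ((K.pull (MP.equiv (phiEquiv d)) (MP.equiv (psiEquiv d)) _).trans hS)
  congr 1
  funext x y
  simp only [phiEquiv, psiEquiv, Equiv.coe_fn_mk]
  have e1 : ∀ l, χ (x l).1 (y.2 l) * (1 + sg (x l).2 * χ (dvec (d l)) (y.2 l))
      = (1 + 1 * sg ((x l).2 + ((y.2 l).1 + lg (χ (d l) (y.2 l).2)))) *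
        (sg ((x l).1.1 * ((y.2 l).1 + lg (χ (d l) (y.2 l).2))) *
          χ ((x l).1.2 + sm (x l).1.1 (d l)) (y.2 l).2) := by
    intro l
    have h1 : χ (dvec (d l)) (y.2 l) = sg (y.2 l).1 * χ (d l) (y.2 l).2 := by
      rw [χ_prod, dvec, χ_zmod2, one_mul]
    have h3 : sg ((x l).1.1 * ((y.2 l).1 + lg (χ (d l) (y.2 l).2)))
        = sg ((x l).1.1 * (y.2 l).1) * sg ((x l).1.1 * lg (χ (d l) (y.2 l).2)) := by
      rw [mul_add, sg_add]
    rw [h1, h3, χ_prod (x l).1 (y.2 l), χ_zmod2, χ_add_left, χ_sm, sg_add, sg_add,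
      sg_lg (χ_mul_self _ _)]
    have h2 := sg_mul_self ((x l).1.1 * lg (χ (d l) (y.2 l).2))
    linear_combination (-(1 + sg (x l).2 * (sg (y.2 l).1 * χ (d l) (y.2 l).2)) *
      sg ((x l).1.1 * (y.2 l).1) * χ (x l).1.2 (y.2 l).2) * h2
  have e2 : ∀ j, ∏ l, χ (x l).1 (evec j (e l j))
      = sg (cc (fun l => ((x l).1.1, (x l).2)) j) *
        ∏ l, χ ((x l).1.2 + sm (x l).1.1 (d l)) ((Pi.single j 1, (e l j).2) : Ro L I) := by
    intro j
    rw [hcc, ← Finset.prod_mul_distrib]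
    refine Finset.prod_congr rfl fun l _ => ?_
    have h1 : χ (x l).1 (evec j (e l j)) = sg ((x l).1.1 * (e l j).1) *
        χ (x l).1.2 ((Pi.single j 1, (e l j).2) : Ro L I) := rfl
    rw [h1, χ_add_left]
    have h2 := χ_mul_self (sm (x l).1.1 (d l)) ((Pi.single j 1, (e l j).2) : Ro L I)
    linear_combination (-(sg ((x l).1.1 * (e l j).1) *
        χ (x l).1.2 ((Pi.single j 1, (e l j).2) : Ro L I))) * h2
  simp only [e1, e2, sg_add (y.1 _), Finset.prod_mul_distrib, χ_pi, mul_assoc]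

/-- first Schur step, input variables -/
def inEquiv (ι : Type) : (ι → Pf L I) ≃ (ι → Ro L I) × (ι → R L I × ZMod 2) where
  toFun x := (fun l => (x l).2.1, fun l => ((x l).1, (x l).2.2))
  invFun z := fun l => ((z.2 l).1, z.1 l, (z.2 l).2)
  left_inv _ := rfl
  right_inv _ := rfl

/-- first Schur step, output variables -/
def outEquiv (ι : Type) : (Fin L → ZMod 2) × (ι → Qg L I) ≃
    (ι → (Fin L → ZMod 2 × (Fin I → ZMod 2))) × ((Fin L → ZMod 2) × (ι → R L I)) where
  toFun y := (fun l => (y.2 l).2, (y.1, fun l => (y.2 l).1))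
  invFun z := (z.2.1, fun l => (z.2.2 l, z.1 l))
  left_inv _ := rfl
  right_inv _ := rfl

lemma χ_dvec_evec (d : Ro L I) (j : Fin L) (b : ZMod 2 × (Fin I → ZMod 2)) :
    χ (dvec d) (evec j b) = sg b.1 * (sg (d.1 j) * χ d.2 b.2) := by
  have h1 : χ (dvec d) (evec j b) = sg (1 * b.1) * (χ d.1 (Pi.single j (1 : ZMod 2)) * χ d.2 b.2) :=
    rfl
  rw [h1, one_mul, χ_single]

/-- average over `d` of the weight -/
lemma avg_weight_d (τ : ℝ) (b : Fin L → ZMod 2 × (Fin I → ZMod 2)) :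
    avg (fun d : Ro L I => ∏ j, (1 + τ * χ (dvec d) (evec j (b j)))) = 1 := by
  classical
  simp only [χ_dvec_evec]
  rw [avg_prod (fun (α : Fin L → ZMod 2) (d' : Fin I → ZMod 2) =>
    ∏ j, (1 + τ * (sg (b j).1 * (sg (α j) * χ d' (b j).2)))), avg_comm]
  have h : ∀ d' : Fin I → ZMod 2, (avg fun α : Fin L → ZMod 2 =>
      ∏ j, (1 + τ * (sg (b j).1 * (sg (α j) * χ d' (b j).2)))) = 1 := by
    intro d'
    rw [avg_pi_prod (P := ZMod 2)
      (fun (j : Fin L) (x : ZMod 2) => 1 + τ * (sg (b j).1 * (sg x * χ d' (b j).2)))]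
    refine Finset.prod_eq_one fun j _ => ?_
    rw [avg_zmod2]
    simp
    ring
  simp [h, avg_const]

/-- average over `e` of the weight -/
lemma avg_weight_e (τ : ℝ) (d : Ro L I) :
    avg (fun b : Fin L → ZMod 2 × (Fin I → ZMod 2) =>
      ∏ j, (1 + τ * χ (dvec d) (evec j (b j)))) = 1 := by
  classical
  simp only [χ_dvec_evec]
  rw [avg_pi_prod (P := ZMod 2 × (Fin I → ZMod 2))
    (fun (j : Fin L) (x : ZMod 2 × (Fin I → ZMod 2)) =>
      1 + τ * (sg x.1 * (sg (d.1 j) * χ d.2 x.2)))]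
  refine Finset.prod_eq_one fun j _ => ?_
  rw [avg_prod (fun (x1 : ZMod 2) (x2 : Fin I → ZMod 2) =>
    1 + τ * (sg x1 * (sg (d.1 j) * χ d.2 x2))), avg_comm]
  have h : ∀ x2 : Fin I → ZMod 2, (avg fun x1 : ZMod 2 =>
      1 + τ * (sg x1 * (sg (d.1 j) * χ d.2 x2))) = 1 := by
    intro x2
    rw [avg_zmod2]
    simp
    ring
  simp [h, avg_const]

/-- A3.2 -/
theorem ν_resK (I : ℕ) (ι : Type) [Fintype ι] [DecidableEq ι] [Nonempty ι] (τ : ℝ)
    (h0 : 0 ≤ τ) (h1 : τ ≤ 1) :
    K.ν (resK (L := L) (I := I) ι τ) ≤ β ^ ((L + I) * (Fintype.card ι - 1) + I) := by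
  classical
  have hS := K.schur (D := ι → Ro L I) (E := ι → (Fin L → ZMod 2 × (Fin I → ZMod 2)))
    (A := ι → R L I × ZMod 2) (B := (Fin L → ZMod 2) × (ι → R L I))
    (fun d e => ∏ l, ∏ j, (1 + τ * χ (dvec (d l)) (evec j (e l j))))
    (by
      intro d e
      refine Finset.prod_nonneg fun l _ => Finset.prod_nonneg fun j _ => ?_
      have h2 := abs_le.mp (abs_χ (dvec (d l)) (evec j (e l j))).le
      nlinarith [h2.1, h2.2])
    (by
      intro e
      rw [avg_pi_prod (P := Ro L I)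
        (fun (l : ι) (x : Ro L I) => ∏ j, (1 + τ * χ (dvec x) (evec j (e l j))))]
      exact Finset.prod_eq_one fun l _ => avg_weight_d τ (e l))
    (by
      intro d
      rw [avg_pi_prod (P := Fin L → ZMod 2 × (Fin I → ZMod 2))
        (fun (l : ι) (x : Fin L → ZMod 2 × (Fin I → ZMod 2)) =>
          ∏ j, (1 + τ * χ (dvec (d l)) (evec j (x j))))]
      exact Finset.prod_eq_one fun l _ => avg_weight_e τ (d l))
    (fun d e x y => (∏ l, (χ (x l).1 (y.2 l) * (1 + sg (x l).2 * χ (dvec (d l)) (y.2 l)))) *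
        ∏ j, (1 + sg (y.1 j) * ∏ l, χ (x l).1 (evec j (e l j))))
    (β ^ ((L + I) * (Fintype.card ι - 1) + I)) (pow_nonneg (β_nonneg K) _)
    (fun d e => ν_fixed K I ι d e)
  refine le_trans (le_of_eq ?_)
    ((K.pull (MP.equiv (inEquiv ι)) (MP.equiv (outEquiv ι)) _).trans hS)
  congr 1
  funext x y
  simp only [inEquiv, outEquiv, Equiv.coe_fn_mk, resK, rowK, Finset.prod_mul_distrib]
  ring

end

end Crest.Agent.R118.A3_253
end

-- ▼ part R118/Esum_523
section

/-!
Row 118 (S0158), piece (A1), algebra: the sums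
`E_i(W) = ∑_{S ⊆ W, |S| = i} ∏_{S} c ∏_{W \ S} a`, their generating function, and the
random-subset identity behind Lemma T of helper324's proof.
-/

namespace Crest.Agent.R118.Esum523

open Finset

section algebra

variable {ι : Type*} [DecidableEq ι]

/-- sum over the `i`-element subsets `S` of `W` of `∏_{l ∈ S} c l * ∏_{l ∈ W \ S} a l` -/
def esum (a c : ι → ℝ) (i : ℕ) (W : Finset ι) : ℝ :=
  ∑ S ∈ W.powersetCard i, (∏ l ∈ S, c l) * ∏ l ∈ W \ S, a l

lemma esum_zero (a c : ι → ℝ) (W : Finset ι) : esum a c 0 W = ∏ l ∈ W, a l := by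
  simp [esum]

@[simp] lemma esum_zero_empty (a c : ι → ℝ) : esum a c 0 ∅ = 1 := by
  simp [esum]

@[simp] lemma esum_succ_empty (a c : ι → ℝ) (i : ℕ) : esum a c (i + 1) ∅ = 0 := by
  unfold esum
  rw [Finset.powersetCard_eq_empty.mpr (by simp), Finset.sum_empty]

@[simp] lemma esum_one_empty (a c : ι → ℝ) : esum a c 1 ∅ = 0 := esum_succ_empty a c 0

lemma esum_zero_insert (a c : ι → ℝ) {l : ι} {W : Finset ι} (h : l ∉ W) :
    esum a c 0 (insert l W) = a l * esum a c 0 W := by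
  rw [esum_zero, esum_zero, Finset.prod_insert h]

lemma esum_succ_insert (a c : ι → ℝ) (i : ℕ) {l : ι} {W : Finset ι} (h : l ∉ W) :
    esum a c (i + 1) (insert l W) = a l * esum a c (i + 1) W + c l * esum a c i W := by
  unfold esum
  rw [Finset.powersetCard_succ_insert h, Finset.sum_union, Finset.sum_image, Finset.mul_sum,
    Finset.mul_sum]
  · congr 1
    · apply Finset.sum_congr rfl
      intro S hS
      have hSW : S ⊆ W := (Finset.mem_powersetCard.mp hS).1
      have hlS : l ∉ S := fun hl => h (hSW hl)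
      rw [Finset.insert_sdiff_of_notMem _ hlS, Finset.prod_insert]
      · ring
      · simp [h]
    · apply Finset.sum_congr rfl
      intro S hS
      have hSW : S ⊆ W := (Finset.mem_powersetCard.mp hS).1
      have hlS : l ∉ S := fun hl => h (hSW hl)
      rw [Finset.insert_sdiff_insert, Finset.prod_insert hlS]
      have : W \ insert l S = W \ S := by
        ext x
        simp only [Finset.mem_sdiff, Finset.mem_insert, not_or]
        constructor
        · rintro ⟨h1, _, h3⟩; exact ⟨h1, h3⟩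
        · rintro ⟨h1, h3⟩; exact ⟨h1, fun hx => h (hx ▸ h1), h3⟩
      rw [this]; ring
  · intro S hS T hT hST
    have hlS : l ∉ S := fun hl => h ((Finset.mem_powersetCard.mp hS).1 hl)
    have hlT : l ∉ T := fun hl => h ((Finset.mem_powersetCard.mp hT).1 hl)
    have := congrArg (fun X => X.erase l) hST
    simpa [Finset.erase_insert hlS, Finset.erase_insert hlT] using this
  · rw [Finset.disjoint_left]
    intro S hS hS'
    obtain ⟨T, _, rfl⟩ := Finset.mem_image.mp hS'
    exact h ((Finset.mem_powersetCard.mp hS).1 (Finset.mem_insert_self l T))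

/-- the weight of a subset `J` of `W` for independent selection with probability `p` -/
def wt (p : ℝ) (W J : Finset ι) : ℝ := p ^ J.card * (1 - p) ^ (W \ J).card

lemma wt_of_subset_insert (p : ℝ) {l : ι} {W J : Finset ι} (h : l ∉ W) (hJ : J ⊆ W) :
    wt p (insert l W) J = (1 - p) * wt p W J := by
  have hlJ : l ∉ J := fun hl => h (hJ hl)
  unfold wt
  rw [Finset.insert_sdiff_of_notMem _ hlJ, Finset.card_insert_of_notMem (by simp [h])]
  ring

lemma sdiff_insert_insert {l : ι} {W J : Finset ι} (h : l ∉ W) :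
    insert l W \ insert l J = W \ J := by
  ext x
  simp only [Finset.mem_sdiff, Finset.mem_insert, not_or]
  constructor
  · rintro ⟨h1 | h1, h2, h3⟩
    · exact absurd h1 h2
    · exact ⟨h1, h3⟩
  · rintro ⟨h1, h3⟩; exact ⟨Or.inr h1, fun hx => h (hx ▸ h1), h3⟩

lemma wt_insert_insert (p : ℝ) {l : ι} {W J : Finset ι} (h : l ∉ W) (hJ : J ⊆ W) :
    wt p (insert l W) (insert l J) = p * wt p W J := by
  have hlJ : l ∉ J := fun hl => h (hJ hl)
  unfold wt
  rw [sdiff_insert_insert h, Finset.card_insert_of_notMem hlJ]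
  ring

lemma sum_powerset_insert' (f : Finset ι → ℝ) {l : ι} {W : Finset ι} (h : l ∉ W) :
    ∑ J ∈ (insert l W).powerset, f J =
      ∑ J ∈ W.powerset, f J + ∑ J ∈ W.powerset, f (insert l J) :=
  Finset.sum_powerset_insert h f

lemma sum_wt_zero (p : ℝ) (a c : ι → ℝ) (j : ℕ) (W : Finset ι) :
    ∑ J ∈ W.powerset, wt p W J * (esum a c 0 J * esum a c j (W \ J)) =
      (1 - p) ^ j * esum a c j W := by
  induction W using Finset.induction_on generalizing j with
  | empty =>
    cases j with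
    | zero => simp [wt]
    | succ j => simp [wt]
  | insert l W h ih =>
    rw [sum_powerset_insert' _ h]
    have e1 : ∀ J ∈ W.powerset, wt p (insert l W) J *
        (esum a c 0 J * esum a c j (insert l W \ J)) =
        (1 - p) * (wt p W J * (esum a c 0 J * esum a c j (insert l (W \ J)))) := by
      intro J hJ
      have hJ' := Finset.mem_powerset.mp hJ
      have hlJ : l ∉ J := fun hl => h (hJ' hl)
      rw [wt_of_subset_insert p h hJ', Finset.insert_sdiff_of_notMem _ hlJ]; ring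
    have e2 : ∀ J ∈ W.powerset, wt p (insert l W) (insert l J) *
        (esum a c 0 (insert l J) * esum a c j (insert l W \ insert l J)) =
        p * a l * (wt p W J * (esum a c 0 J * esum a c j (W \ J))) := by
      intro J hJ
      have hJ' := Finset.mem_powerset.mp hJ
      have hlJ : l ∉ J := fun hl => h (hJ' hl)
      rw [wt_insert_insert p h hJ', sdiff_insert_insert h, esum_zero_insert a c hlJ]; ring
    rw [Finset.sum_congr rfl e1, Finset.sum_congr rfl e2, ← Finset.mul_sum, ← Finset.mul_sum,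
      ih j]
    cases j with
    | zero =>
      have e3 : ∀ J ∈ W.powerset, wt p W J * (esum a c 0 J * esum a c 0 (insert l (W \ J))) =
          a l * (wt p W J * (esum a c 0 J * esum a c 0 (W \ J))) := by
        intro J hJ
        rw [esum_zero_insert a c (by simp [h])]; ring
      rw [Finset.sum_congr rfl e3, ← Finset.mul_sum, ih 0, esum_zero_insert a c h]
      ring
    | succ j =>
      have e3 : ∀ J ∈ W.powerset, wt p W J *
          (esum a c 0 J * esum a c (j + 1) (insert l (W \ J))) =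
          a l * (wt p W J * (esum a c 0 J * esum a c (j + 1) (W \ J))) +
          c l * (wt p W J * (esum a c 0 J * esum a c j (W \ J))) := by
        intro J hJ
        rw [esum_succ_insert a c j (by simp [h])]; ring
      rw [Finset.sum_congr rfl e3, Finset.sum_add_distrib, ← Finset.mul_sum, ← Finset.mul_sum,
        ih (j + 1), ih j, esum_succ_insert a c j h]
      ring

/-- The random-subset identity of Lemma T. -/
lemma sum_wt_one (p : ℝ) (a c : ι → ℝ) (j : ℕ) (W : Finset ι) :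
    ∑ J ∈ W.powerset, wt p W J * (esum a c 1 J * esum a c j (W \ J)) =
      ((j : ℝ) + 1) * p * (1 - p) ^ j * esum a c (j + 1) W := by
  induction W using Finset.induction_on generalizing j with
  | empty => simp [wt]
  | insert l W h ih =>
    rw [sum_powerset_insert' _ h]
    have e1 : ∀ J ∈ W.powerset, wt p (insert l W) J *
        (esum a c 1 J * esum a c j (insert l W \ J)) =
        (1 - p) * (wt p W J * (esum a c 1 J * esum a c j (insert l (W \ J)))) := by
      intro J hJ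
      have hJ' := Finset.mem_powerset.mp hJ
      have hlJ : l ∉ J := fun hl => h (hJ' hl)
      rw [wt_of_subset_insert p h hJ', Finset.insert_sdiff_of_notMem _ hlJ]; ring
    have e2 : ∀ J ∈ W.powerset, wt p (insert l W) (insert l J) *
        (esum a c 1 (insert l J) * esum a c j (insert l W \ insert l J)) =
        p * a l * (wt p W J * (esum a c 1 J * esum a c j (W \ J))) +
        p * c l * (wt p W J * (esum a c 0 J * esum a c j (W \ J))) := by
      intro J hJ
      have hJ' := Finset.mem_powerset.mp hJ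
      have hlJ : l ∉ J := fun hl => h (hJ' hl)
      rw [wt_insert_insert p h hJ', sdiff_insert_insert h, esum_succ_insert a c 0 hlJ]; ring
    rw [Finset.sum_congr rfl e1, Finset.sum_congr rfl e2, Finset.sum_add_distrib,
      ← Finset.mul_sum, ← Finset.mul_sum, ← Finset.mul_sum, ih j, sum_wt_zero]
    cases j with
    | zero =>
      have e3 : ∀ J ∈ W.powerset, wt p W J * (esum a c 1 J * esum a c 0 (insert l (W \ J))) =
          a l * (wt p W J * (esum a c 1 J * esum a c 0 (W \ J))) := by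
        intro J hJ
        rw [esum_zero_insert a c (by simp [h])]; ring
      rw [Finset.sum_congr rfl e3, ← Finset.mul_sum, ih 0, esum_succ_insert a c 0 h]
      push_cast
      ring
    | succ j =>
      have e3 : ∀ J ∈ W.powerset, wt p W J *
          (esum a c 1 J * esum a c (j + 1) (insert l (W \ J))) =
          a l * (wt p W J * (esum a c 1 J * esum a c (j + 1) (W \ J))) +
          c l * (wt p W J * (esum a c 1 J * esum a c j (W \ J))) := by
        intro J hJ
        rw [esum_succ_insert a c j (by simp [h])]; ring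
      rw [Finset.sum_congr rfl e3, Finset.sum_add_distrib, ← Finset.mul_sum, ← Finset.mul_sum,
        ih (j + 1), ih j, esum_succ_insert a c (j + 1) h]
      push_cast
      ring




end algebra

section maps

variable {ι κ : Type*} [DecidableEq ι] [DecidableEq κ]

lemma esum_map (f : ι ↪ κ) (a c : κ → ℝ) (i : ℕ) (W : Finset ι) :
    esum a c i (W.map f) = esum (fun l => a (f l)) (fun l => c (f l)) i W := by
  unfold esum
  rw [Finset.powersetCard_map, Finset.sum_map]
  apply Finset.sum_congr rfl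
  intro S _
  simp only [RelEmbedding.coe_toEmbedding, Finset.mapEmbedding_apply]
  rw [← Finset.map_sdiff, Finset.prod_map, Finset.prod_map]

lemma esum_subtype [Fintype ι] (q : ι → Prop) [DecidablePred q] [Fintype {l // q l}]
    (a c : ι → ℝ) (i : ℕ) :
    esum (fun l : {l // q l} => a l) (fun l : {l // q l} => c l) i Finset.univ =
      esum a c i (Finset.univ.filter q) := by
  have h := esum_map (Function.Embedding.subtype q) a c i Finset.univ
  simp only [Function.Embedding.subtype_apply] at h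
  rw [← h]
  congr 1
  ext x
  simp

lemma esum_equiv [Fintype ι] [Fintype κ] (e : ι ≃ κ) (a c : κ → ℝ) (i : ℕ) :
    esum (fun l => a (e l)) (fun l => c (e l)) i Finset.univ = esum a c i Finset.univ := by
  rw [← Finset.map_univ_equiv e, esum_map]
  rfl

end maps

end Crest.Agent.R118.Esum523
end

-- ▼ part R118/A1_523
section

/-!
Row 118 (S0158), piece (A1): `prod_expand`, `hom_split`, `lemmaT` of `CoreStmts_324`.
-/

namespace Crest.Agent.R118.A1_523

open Finset Base324 KNorm324 Core324 Esum523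

lemma hom_eq_esum {ι : Type} [DecidableEq ι] (J : Finset ι) (u w : ι → ℝ) (i : ℕ) :
    hom J u w i = esum u w i J := rfl


/-- A1.2 the splitting identity -/
theorem hom_split {ι : Type} [Fintype ι] [DecidableEq ι] (u w : ι → ℝ) (p : ℝ) (i : ℕ) :
    ∑ J ∈ (univ : Finset ι).powerset, p ^ J.card * (1 - p) ^ (Jᶜ).card *
        (hom J u w 1 * hom Jᶜ u w i)
      = (i + 1) * p * (1 - p) ^ i * hom univ u w (i + 1) := by
  have h := sum_wt_one p u w i (univ : Finset ι)
  simp only [wt, ← Finset.compl_eq_univ_sdiff] at h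
  exact h

/-- restriction of a family to the coordinates satisfying `q` and to the others -/
lemma homK_subtype {P Q : Type} (κ0 κ1 : P → Q → ℝ) {ι : Type} [Fintype ι] [DecidableEq ι]
    (q : ι → Prop) [DecidablePred q] [Fintype {l // q l}] (i : ℕ) (x : ι → P) (y : ι → Q) :
    homK κ0 κ1 {l // q l} i (fun l => x l) (fun l => y l) =
      hom (univ.filter q) (fun l => κ0 (x l) (y l)) (fun l => κ1 (x l) (y l)) i := by
  unfold homK
  rw [hom_eq_esum, hom_eq_esum]
  exact esum_subtype q (fun l => κ0 (x l) (y l)) (fun l => κ1 (x l) (y l)) i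

lemma homK_equiv {P Q : Type} (κ0 κ1 : P → Q → ℝ) {ι ι' : Type} [Fintype ι] [DecidableEq ι]
    [Fintype ι'] [DecidableEq ι'] (e : ι ≃ ι') (i : ℕ) (x : ι' → P) (y : ι' → Q) :
    homK κ0 κ1 ι i (fun l => x (e l)) (fun l => y (e l)) = homK κ0 κ1 ι' i x y := by
  unfold homK
  rw [hom_eq_esum, hom_eq_esum]
  exact esum_equiv e (fun l => κ0 (x l) (y l)) (fun l => κ1 (x l) (y l)) i

lemma sum_weights {ι : Type} [Fintype ι] [DecidableEq ι] (p : ℝ) :
    ∑ J ∈ (univ : Finset ι).powerset, p ^ J.card * (1 - p) ^ (Jᶜ).card = 1 := by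
  have h := Finset.sum_pow_mul_eq_add_pow p (1 - p) (univ : Finset ι)
  simp only [Finset.card_compl]
  rw [Finset.card_univ] at h
  rw [h]
  simp

lemma coeff_ge (i : ℕ) :
    (1 : ℝ) / 4 ≤ ((i : ℝ) + 1) * (1 / (2 * ((i : ℝ) + 1))) *
      (1 - 1 / (2 * ((i : ℝ) + 1))) ^ i := by
  have hi : (0 : ℝ) ≤ i := Nat.cast_nonneg i
  have h1 : ((i : ℝ) + 1) * (1 / (2 * ((i : ℝ) + 1))) = 1 / 2 := by
    field_simp
  have hp : 1 / (2 * ((i : ℝ) + 1)) ≤ 1 / 2 := by
    apply one_div_le_one_div_of_le <;> linarith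
  have h2 := one_add_mul_le_pow (a := -(1 / (2 * ((i : ℝ) + 1)))) (by linarith) i
  have h3 : (i : ℝ) * (1 / (2 * ((i : ℝ) + 1))) ≤ 1 / 2 := by
    rw [mul_one_div, div_le_div_iff₀ (by positivity) (by norm_num)]
    nlinarith
  rw [h1]
  have h4 : (1 : ℝ) / 2 ≤ (1 - 1 / (2 * ((i : ℝ) + 1))) ^ i := by
    have : 1 - 1 / (2 * ((i : ℝ) + 1)) = 1 + -(1 / (2 * ((i : ℝ) + 1))) := by ring
    rw [this]
    nlinarith
  linarith

/-- A1.3 Lemma T for a general pre norm.  The hypothesis `hmix` says that tensoring with a first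
order kernel costs at most `k`. -/
theorem lemmaT (N : PreNorm) {P Q : Type} [Fintype P] [Fintype Q] (κ0 κ1 : P → Q → ℝ)
    (M : ℕ) (k b : ℝ) (hk : 0 ≤ k) (hb : 0 ≤ b)
    (h0 : ∀ (ι : Type) [Fintype ι] [DecidableEq ι], Fintype.card ι ≤ M →
      N.ν (homK κ0 κ1 ι 0) ≤ b ^ Fintype.card ι)
    (hmix : ∀ (ι ι' : Type) [Fintype ι] [DecidableEq ι] [Fintype ι'] [DecidableEq ι'] (i : ℕ),
      Fintype.card ι + Fintype.card ι' ≤ M →
      N.ν (fun (x : (ι → P) × (ι' → P)) (y : (ι → Q) × (ι' → Q)) =>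
        homK κ0 κ1 ι 1 x.1 y.1 * homK κ0 κ1 ι' i x.2 y.2)
        ≤ k * b ^ Fintype.card ι * N.ν (homK κ0 κ1 ι' i))
    (ι : Type) [Fintype ι] [DecidableEq ι] (hι : Fintype.card ι ≤ M) (i : ℕ) :
    N.ν (homK κ0 κ1 ι i) ≤ (4 * k) ^ i * b ^ Fintype.card ι := by
  induction i generalizing ι with
  | zero => simpa using h0 ι hι
  | succ i ih =>
    set p : ℝ := 1 / (2 * ((i : ℝ) + 1)) with hp
    set C : ℝ := ((i : ℝ) + 1) * p * (1 - p) ^ i with hC
    have hC4 : 1 / 4 ≤ C := coeff_ge i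
    have hCpos : 0 < C := by linarith
    have hi : (0 : ℝ) ≤ i := Nat.cast_nonneg i
    have hp0 : 0 ≤ p := by positivity
    have hp1 : p ≤ 1 := by
      rw [hp, div_le_one (by positivity)]; linarith
    -- the identity at kernel level
    have hid : ∀ (x : ι → P) (y : ι → Q), homK κ0 κ1 ι (i + 1) x y =
        C⁻¹ * ∑ J ∈ (univ : Finset ι).powerset, (p ^ J.card * (1 - p) ^ (Jᶜ).card) *
          (homK κ0 κ1 {l // l ∈ J} 1 (fun l => x l) (fun l => y l) *
            homK κ0 κ1 {l // ¬ l ∈ J} i (fun l => x l) (fun l => y l)) := by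
      intro x y
      have h := hom_split (fun l => κ0 (x l) (y l)) (fun l => κ1 (x l) (y l)) p i
      have h2 : ∀ J : Finset ι,
          homK κ0 κ1 {l // l ∈ J} 1 (fun l => x l) (fun l => y l) *
            homK κ0 κ1 {l // ¬ l ∈ J} i (fun l => x l) (fun l => y l) =
          hom J (fun l => κ0 (x l) (y l)) (fun l => κ1 (x l) (y l)) 1 *
          hom Jᶜ (fun l => κ0 (x l) (y l)) (fun l => κ1 (x l) (y l)) i := by
        intro J
        rw [homK_subtype κ0 κ1 (fun l => l ∈ J), homK_subtype κ0 κ1 (fun l => ¬ l ∈ J)]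
        congr 2
        · ext l; simp
        · ext l; simp
      simp only [h2]
      rw [h, ← hC, ← mul_assoc, inv_mul_cancel₀ hCpos.ne', one_mul]
      rfl
    have hterm : ∀ J : Finset ι,
        N.ν (fun (x : ι → P) (y : ι → Q) => (p ^ J.card * (1 - p) ^ (Jᶜ).card) *
          (homK κ0 κ1 {l // l ∈ J} 1 (fun l => x l) (fun l => y l) *
            homK κ0 κ1 {l // ¬ l ∈ J} i (fun l => x l) (fun l => y l))) ≤
        (p ^ J.card * (1 - p) ^ (Jᶜ).card) * (k * (4 * k) ^ i * b ^ Fintype.card ι) := by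
      intro J
      have hw : 0 ≤ p ^ J.card * (1 - p) ^ (Jᶜ).card :=
        mul_nonneg (pow_nonneg hp0 _) (pow_nonneg (by linarith) _)
      refine (N.smul_le _ _).trans ?_
      rw [abs_of_nonneg hw]
      apply mul_le_mul_of_nonneg_left _ hw
      have hc1 : Fintype.card {l // l ∈ J} = J.card := by simp
      have hc2 : Fintype.card {l // ¬ l ∈ J} = Fintype.card ι - J.card := by
        rw [Fintype.card_subtype_compl]; simp
      have hJ : J.card ≤ Fintype.card ι := Finset.card_le_univ J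
      have hcard : Fintype.card {l // l ∈ J} + Fintype.card {l // ¬ l ∈ J} = Fintype.card ι := by
        rw [hc1, hc2]; omega
      have hpull := N.pull
        (MP.equiv (Equiv.piEquivPiSubtypeProd (fun l => l ∈ J) (fun _ : ι => P)))
        (MP.equiv (Equiv.piEquivPiSubtypeProd (fun l => l ∈ J) (fun _ : ι => Q)))
        (fun (x : ({l // l ∈ J} → P) × ({l // ¬ l ∈ J} → P))
            (y : ({l // l ∈ J} → Q) × ({l // ¬ l ∈ J} → Q)) =>
          homK κ0 κ1 {l // l ∈ J} 1 x.1 y.1 * homK κ0 κ1 {l // ¬ l ∈ J} i x.2 y.2)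
      refine (le_of_eq rfl).trans (hpull.trans ((hmix _ _ i (by rw [hcard]; exact hι)).trans ?_))
      have hih := ih {l // ¬ l ∈ J} (by omega)
      calc k * b ^ Fintype.card {l // l ∈ J} * N.ν (homK κ0 κ1 {l // ¬ l ∈ J} i)
          ≤ k * b ^ Fintype.card {l // l ∈ J} *
            ((4 * k) ^ i * b ^ Fintype.card {l // ¬ l ∈ J}) := by
            apply mul_le_mul_of_nonneg_left hih (by positivity)
        _ = k * (4 * k) ^ i *
            (b ^ Fintype.card {l // l ∈ J} * b ^ Fintype.card {l // ¬ l ∈ J}) := by ring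
        _ = k * (4 * k) ^ i * b ^ Fintype.card ι := by rw [← pow_add, hcard]
    have heq : homK κ0 κ1 ι (i + 1) = fun (x : ι → P) (y : ι → Q) =>
        C⁻¹ * ∑ J ∈ (univ : Finset ι).powerset, (p ^ J.card * (1 - p) ^ (Jᶜ).card) *
          (homK κ0 κ1 {l // l ∈ J} 1 (fun l => x l) (fun l => y l) *
            homK κ0 κ1 {l // ¬ l ∈ J} i (fun l => x l) (fun l => y l)) := by
      funext x y; exact hid x y
    rw [heq]
    refine (N.smul_le _ _).trans ?_
    rw [abs_of_pos (inv_pos.mpr hCpos)]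
    have hsum := N.sum_le (univ : Finset ι).powerset
      (fun J => fun (x : ι → P) (y : ι → Q) => (p ^ J.card * (1 - p) ^ (Jᶜ).card) *
          (homK κ0 κ1 {l // l ∈ J} 1 (fun l => x l) (fun l => y l) *
            homK κ0 κ1 {l // ¬ l ∈ J} i (fun l => x l) (fun l => y l)))
    have hsum2 := hsum.trans (Finset.sum_le_sum fun J _ => hterm J)
    rw [← Finset.sum_mul, sum_weights, one_mul] at hsum2
    have hB : 0 ≤ k * (4 * k) ^ i * b ^ Fintype.card ι := by positivity
    have hCinv : C⁻¹ ≤ 4 := by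
      rw [inv_le_comm₀ hCpos (by norm_num)]; linarith
    calc C⁻¹ * _ ≤ C⁻¹ * (k * (4 * k) ^ i * b ^ Fintype.card ι) :=
          mul_le_mul_of_nonneg_left hsum2 (inv_pos.mpr hCpos).le
      _ ≤ 4 * (k * (4 * k) ^ i * b ^ Fintype.card ι) :=
          mul_le_mul_of_nonneg_right hCinv hB
      _ = (4 * k) ^ (i + 1) * b ^ Fintype.card ι := by ring

end Crest.Agent.R118.A1_523
end

-- ▼ part R118/A4_570
section

/-!
Row 118 (S0158), piece (A4) of helper324's proof: expansion of the resonance kernel.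
-/

set_option autoImplicit false

namespace Crest.Agent.R118.A4x570

open Finset Base324 KNorm324 Core324

section Alg

variable {V : Type} [BiChar V] {L : ℕ}

/-- Error term number `B` (`B ≠ ∅`) in one row of the `T`-th term. -/
noncomputable def errB (τ ε : ℝ) (v d t : V) (e : Fin L → V) (T B : Finset (Fin L)) : ℝ :=
  τ ^ B.card * (χ v (t + ∑ j ∈ T, e j) * χ d (∑ j ∈ B, e j)) +
    τ ^ (symmDiff B T).card * (ε * (χ (v + d) (t + ∑ j ∈ T, e j) * χ d (∑ j ∈ B, e j)))

theorem chi_symmDiff (d : V) (e : Fin L → V) (B T : Finset (Fin L)) :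
    χ d (∑ j ∈ symmDiff B T, e j) * χ d (∑ j ∈ T, e j) = χ d (∑ j ∈ B, e j) := by
  classical
  rw [χ_sum_right, χ_sum_right, χ_sum_right]
  have e1 : ∏ j ∈ symmDiff B T, χ d (e j) = ∏ j, if j ∈ symmDiff B T then χ d (e j) else 1 := by
    simp
  have e2 : ∏ j ∈ T, χ d (e j) = ∏ j, if j ∈ T then χ d (e j) else 1 := by simp
  have e3 : ∏ j ∈ B, χ d (e j) = ∏ j, if j ∈ B then χ d (e j) else 1 := by simp
  rw [e1, e2, e3, ← Finset.prod_mul_distrib]
  refine Finset.prod_congr rfl fun j _ => ?_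
  by_cases hB : j ∈ B <;> by_cases hT : j ∈ T <;>
    simp [Finset.mem_symmDiff, hB, hT, χ_mul_self]

theorem tau_expand (τ : ℝ) (d : V) (e : Fin L → V) :
    ∏ j, (1 + τ * χ d (e j)) = ∑ B : Finset (Fin L), τ ^ B.card * χ d (∑ j ∈ B, e j) := by
  classical
  rw [Finset.prod_one_add, Finset.powerset_univ]
  refine Finset.sum_congr rfl fun B _ => ?_
  rw [Finset.prod_mul_distrib, Finset.prod_const, χ_sum_right]

theorem row_eq (τ ε : ℝ) (v d t : V) (e : Fin L → V) (T : Finset (Fin L)) :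
    χ v (t + ∑ j ∈ T, e j) * (1 + ε * χ d t) * ∏ j, (1 + τ * χ d (e j)) =
      (χ v (t + ∑ j ∈ T, e j) + τ ^ T.card * (ε * χ (v + d) (t + ∑ j ∈ T, e j))) +
        ∑ B ∈ Finset.univ.erase (∅ : Finset (Fin L)), errB τ ε v d t e T B := by
  classical
  have key : χ v (t + ∑ j ∈ T, e j) * (1 + ε * χ d t) * ∏ j, (1 + τ * χ d (e j))
      = ∑ B : Finset (Fin L), errB τ ε v d t e T B := by
    have h3 : ∑ B : Finset (Fin L), τ ^ B.card * χ d (∑ j ∈ B, e j)
        = ∑ B : Finset (Fin L), τ ^ (symmDiff B T).card * χ d (∑ j ∈ symmDiff B T, e j) := by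
      refine (Equiv.sum_comp (Function.Involutive.toPerm (fun B : Finset (Fin L) => symmDiff B T)
        (fun B => by simp)) (fun B => τ ^ B.card * χ d (∑ j ∈ B, e j))).symm
    rw [tau_expand]
    have : χ v (t + ∑ j ∈ T, e j) * (1 + ε * χ d t) *
        ∑ B : Finset (Fin L), τ ^ B.card * χ d (∑ j ∈ B, e j)
        = χ v (t + ∑ j ∈ T, e j) * ∑ B : Finset (Fin L), τ ^ B.card * χ d (∑ j ∈ B, e j)
          + χ v (t + ∑ j ∈ T, e j) * (ε * χ d t) *
            ∑ B : Finset (Fin L), τ ^ B.card * χ d (∑ j ∈ B, e j) := by ring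
    rw [this]
    nth_rewrite 2 [h3]
    rw [Finset.mul_sum, Finset.mul_sum, ← Finset.sum_add_distrib]
    refine Finset.sum_congr rfl fun B _ => ?_
    unfold errB
    have e1 : χ (v + d) (t + ∑ j ∈ T, e j)
        = χ v (t + ∑ j ∈ T, e j) * (χ d t * χ d (∑ j ∈ T, e j)) := by
      rw [χ_add_left, χ_add_right d]
    have e3 : χ d (∑ j ∈ T, e j) * χ d (∑ j ∈ T, e j) = 1 := χ_mul_self _ _
    have e4 : χ (v + d) (t + ∑ j ∈ T, e j) * χ d (∑ j ∈ B, e j)
        = χ v (t + ∑ j ∈ T, e j) * χ d t * χ d (∑ j ∈ symmDiff B T, e j) := by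
      rw [e1, ← chi_symmDiff d e B T]
      calc χ v (t + ∑ j ∈ T, e j) * (χ d t * χ d (∑ j ∈ T, e j)) *
            (χ d (∑ j ∈ symmDiff B T, e j) * χ d (∑ j ∈ T, e j))
          = χ v (t + ∑ j ∈ T, e j) * χ d t * χ d (∑ j ∈ symmDiff B T, e j)
              * (χ d (∑ j ∈ T, e j) * χ d (∑ j ∈ T, e j)) := by ring
        _ = _ := by rw [e3, mul_one]
    rw [e4]
    ring
  rw [key, ← Finset.add_sum_erase Finset.univ _ (Finset.mem_univ (∅ : Finset (Fin L)))]
  congr 1
  have e5 : symmDiff (∅ : Finset (Fin L)) T = T := by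
    have : (∅ : Finset (Fin L)) = ⊥ := rfl
    rw [this, bot_symmDiff]
  unfold errB
  rw [Finset.sum_empty, χ_zero_right, e5]
  simp

end Alg

section Tensor

variable {β a as : ℝ} {L M : ℕ} (K : KNorm β a as L M)
variable {P Q : Type} [Fintype P] [Fintype Q]

theorem nu_prod_fin (m : ℕ) (k : Fin m → P → Q → ℝ) :
    K.ν (fun (x : Fin m → P) (y : Fin m → Q) => ∏ i, k i (x i) (y i)) ≤ ∏ i, K.ν (k i) := by
  induction m with
  | zero =>
    have h := K.pull (φ := fun _ : Fin 0 → P => ()) (ψ := fun _ : Fin 0 → Q => ())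
      (by
        intro g
        simp [avg, Fintype.card_unique])
      (by
        intro g
        simp [avg, Fintype.card_unique])
      (fun _ _ => (1 : ℝ))
    simpa using h.trans K.one
  | succ m ih =>
    have h1 := K.pull (MP.equiv (Fin.consEquiv (fun _ : Fin (m + 1) => P)).symm)
      (MP.equiv (Fin.consEquiv (fun _ : Fin (m + 1) => Q)).symm)
      (fun (x : P × (Fin m → P)) (y : Q × (Fin m → Q)) =>
        k 0 x.1 y.1 * ∏ i, k i.succ (x.2 i) (y.2 i))
    have h2 := K.tensor (k 0) (fun (x : Fin m → P) (y : Fin m → Q) => ∏ i, k i.succ (x i) (y i))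
    have h3 := ih (fun i => k i.succ)
    have h4 : K.ν (k 0) * K.ν (fun (x : Fin m → P) (y : Fin m → Q) =>
        ∏ i, k i.succ (x i) (y i)) ≤ ∏ i, K.ν (k i) := by
      rw [Fin.prod_univ_succ]
      exact mul_le_mul_of_nonneg_left h3 (K.nonneg _)
    refine le_trans ?_ (h2.trans h4)
    refine le_trans (le_of_eq ?_) h1
    congr 1
    funext x y
    rw [Fin.prod_univ_succ]
    rfl

theorem nu_prod {ι : Type} [Fintype ι] [DecidableEq ι] (k : ι → P → Q → ℝ) :
    K.ν (fun (x : ι → P) (y : ι → Q) => ∏ i, k i (x i) (y i)) ≤ ∏ i, K.ν (k i) := by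
  classical
  have e := Fintype.equivFin ι
  have h1 := K.pull (MP.equiv (Equiv.arrowCongr e (Equiv.refl P)))
    (MP.equiv (Equiv.arrowCongr e (Equiv.refl Q)))
    (fun (x : Fin (Fintype.card ι) → P) (y : Fin (Fintype.card ι) → Q) =>
      ∏ i, k (e.symm i) (x i) (y i))
  have h2 := nu_prod_fin K (Fintype.card ι) (fun i => k (e.symm i))
  have h3 : ∏ i, K.ν (k (e.symm i)) = ∏ i, K.ν (k i) :=
    Equiv.prod_comp e.symm (fun i => K.ν (k i))
  rw [← h3]
  refine le_trans (le_of_eq ?_) (h1.trans h2)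
  congr 1
  funext x y
  rw [← Equiv.prod_comp e.symm]
  refine Finset.prod_congr rfl fun i _ => ?_
  simp [Equiv.arrowCongr]

/-- difference of tensor products of `main + err` and `main`. -/
theorem nu_prod_sub_le {ι : Type} [Fintype ι] [DecidableEq ι] (f g : ι → P → Q → ℝ) (cf cg : ℝ)
    (hf : ∀ i, K.ν (f i) ≤ cf) (hg : ∀ i, K.ν (g i) ≤ cg) :
    K.ν (fun (x : ι → P) (y : ι → Q) =>
      ∏ i, (f i (x i) (y i) + g i (x i) (y i)) - ∏ i, f i (x i) (y i))
      ≤ (cf + cg) ^ Fintype.card ι - cf ^ Fintype.card ι := by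
  classical
  have e1 : (fun (x : ι → P) (y : ι → Q) =>
      ∏ i, (f i (x i) (y i) + g i (x i) (y i)) - ∏ i, f i (x i) (y i))
      = fun x y => ∑ t ∈ (Finset.univ : Finset (Finset ι)).erase ∅,
          ∏ i, (if i ∈ t then g i else f i) (x i) (y i) := by
    funext x y
    have h1 : ∏ i, (f i (x i) (y i) + g i (x i) (y i))
        = ∑ t : Finset ι, ∏ i, (if i ∈ t then g i else f i) (x i) (y i) := by
      have h2 : ∏ i, (f i (x i) (y i) + g i (x i) (y i))
          = ∏ i, (g i (x i) (y i) + f i (x i) (y i)) :=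
        Finset.prod_congr rfl fun i _ => add_comm _ _
      rw [h2, Finset.prod_add, Finset.powerset_univ]
      refine Finset.sum_congr rfl fun t _ => ?_
      rw [← Finset.prod_mul_prod_compl t]
      congr 1
      · refine Finset.prod_congr rfl fun i hi => ?_
        simp [hi]
      · refine Finset.prod_congr (by simp [Finset.compl_eq_univ_sdiff]) fun i hi => ?_
        have : i ∉ t := by simpa using hi
        simp [this]
    rw [h1, ← Finset.add_sum_erase Finset.univ _ (Finset.mem_univ (∅ : Finset ι))]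
    simp
  rw [e1]
  refine (K.toPreNorm.sum_le _ _).trans ?_
  have h2 : ∀ t : Finset ι, K.ν (fun (x : ι → P) (y : ι → Q) =>
      ∏ i, (if i ∈ t then g i else f i) (x i) (y i)) ≤ cg ^ t.card * cf ^ (Fintype.card ι - t.card) := by
    intro t
    refine (nu_prod K (fun i => if i ∈ t then g i else f i)).trans ?_
    calc ∏ i, K.ν (if i ∈ t then g i else f i)
        ≤ ∏ i, (if i ∈ t then cg else cf) := by
          refine Finset.prod_le_prod (fun i _ => K.nonneg _) fun i _ => ?_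
          split_ifs
          · exact hg i
          · exact hf i
      _ = cg ^ t.card * cf ^ (Fintype.card ι - t.card) := by
          rw [Finset.prod_ite, Finset.prod_const, Finset.prod_const]
          congr 2
          · congr 1; ext i; simp
          · rw [Finset.filter_not, Finset.card_sdiff_of_subset (Finset.subset_univ _)]
            congr 2
            ext i; simp
  refine (Finset.sum_le_sum fun t _ => h2 t).trans ?_
  have h3 : ∑ t : Finset ι, cg ^ t.card * cf ^ (Fintype.card ι - t.card)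
      = (cf + cg) ^ Fintype.card ι := by
    rw [add_comm cf cg, ← Finset.card_univ]
    have := Finset.sum_pow_mul_eq_add_pow cg cf (Finset.univ : Finset ι)
    rw [Finset.powerset_univ] at this
    exact this
  rw [← h3, ← Finset.add_sum_erase Finset.univ _ (Finset.mem_univ (∅ : Finset ι))]
  simp

end Tensor


section MPlemmas

variable {A A' : Type} [Fintype A] [Fintype A']

/-- a map that intertwines translations is measure preserving -/
theorem MP_of_addRight [AddGroup A] [AddGroup A'] {φ : A' → A}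
    (h : ∀ s : A, ∃ c : A', ∀ x, φ (x + c) = φ x + s) : MP φ := by
  intro g
  have h1 : ∀ s : A, (avg fun x : A' => g (φ x)) = avg fun x : A' => g (φ x + s) := by
    intro s
    obtain ⟨c, hc⟩ := h s
    rw [← avg_equiv (Equiv.addRight c) (fun x => g (φ x))]
    simp only [Equiv.coe_addRight, hc]
  have h2 : (avg fun x : A' => g (φ x)) = avg fun s : A => avg fun x : A' => g (φ x + s) := by
    have : (fun s : A => avg fun x : A' => g (φ x + s))
        = fun _ : A => avg fun x : A' => g (φ x) := by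
      funext s; exact (h1 s).symm
    rw [this, avg_const]
  rw [h2, avg_comm]
  have h3 : ∀ x : A', (avg fun s : A => g (φ x + s)) = avg g := fun x =>
    avg_equiv (Equiv.addLeft (φ x)) g
  simp only [h3]
  exact avg_const _

end MPlemmas

section A0

variable {β a as : ℝ} {L M : ℕ} (K : KNorm β a as L M)

theorem ν_prod_pi {P Q : Type} [Fintype P] [Fintype Q] (ι : Type) [Fintype ι] [DecidableEq ι]
    (κ : ι → P → Q → ℝ) :
    K.ν (fun (x : ι → P) (y : ι → Q) => ∏ l, κ l (x l) (y l)) ≤ ∏ l, K.ν (κ l) :=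
  nu_prod K κ

theorem ν_chi_pi' (ι : Type) [Fintype ι] [DecidableEq ι] :
    K.ν (fun x y : ι → ZMod 2 => χ x y) ≤ β ^ Fintype.card ι := by
  refine (nu_prod K (fun _ (x y : ZMod 2) => χ x y)).trans ?_
  refine (Finset.prod_le_prod (fun i _ => K.nonneg _) fun i _ => K.walsh).trans ?_
  simp

theorem ν_chi_prod' {V W : Type} [BiChar V] [BiChar W] [Fintype V] [Fintype W] {c c' : ℝ}
    (h : K.ν (fun x y : V => χ x y) ≤ c) (h' : K.ν (fun x y : W => χ x y) ≤ c') :
    K.ν (fun x y : V × W => χ x y) ≤ c * c' := by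
  refine (K.tensor (fun x y : V => χ x y) (fun x y : W => χ x y)).trans ?_
  exact mul_le_mul h h' (K.nonneg _) ((K.nonneg _).trans h)

theorem ν_chi_R' (I : ℕ) : K.ν (fun x y : R L I => χ x y) ≤ β ^ (1 + L + I) := by
  have h1 := ν_chi_prod' K (ν_chi_pi' K (Fin L)) (ν_chi_pi' K (Fin I))
  have h2 := ν_chi_prod' K K.walsh h1
  refine h2.trans (le_of_eq ?_)
  simp only [Fintype.card_fin]
  ring

theorem ν_chi_RΩ (I : ℕ) :
    K.ν (fun x y : R L I × (Fin I → ZMod 2) => χ x y) ≤ β ^ (1 + L + I + I) := by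
  have h1 := ν_chi_prod' K (ν_chi_R' K I) (ν_chi_pi' K (Fin I))
  refine h1.trans (le_of_eq ?_)
  simp only [Fintype.card_fin]
  ring

end A0

section MPrc

variable {L I : ℕ}

theorem MP_v : MP (fun x : Pf L I => x.1) := MP.fst

theorem MP_vd : MP (fun x : Pf L I => x.1 + dvec x.2.1) := by
  refine MP_of_addRight fun s => ⟨(s, 0, 0), fun x => ?_⟩
  simp only [Prod.fst_add, Prod.snd_add, add_zero]
  abel

theorem MP_v0 : MP (fun x : Pf L I => (x.1, x.2.1.2)) := by
  refine MP_of_addRight fun s => ⟨(s.1, (0, s.2), 0), fun x => ?_⟩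
  rfl

theorem MP_v1 : MP (fun x : Pf L I => (x.1 + dvec x.2.1, x.2.1.2)) := by
  refine MP_of_addRight fun s => ⟨(s.1 - (0, 0, s.2), (0, s.2), 0), fun x => ?_⟩
  apply Prod.ext
  · simp only [dvec, Prod.fst_add, Prod.snd_add]
    ext <;> simp <;> ring
  · rfl

theorem eT_add (T : Finset (Fin L)) (y c : Qg L I) :
    eT T (y + c) = eT T y + ∑ j ∈ T, ((c.2 j).1, (0 : Fin L → ZMod 2), (c.2 j).2) := by
  unfold eT
  rw [← Finset.sum_add_distrib]
  refine Finset.sum_congr rfl fun j _ => ?_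
  simp [evec]

theorem MP_shift1 (T : Finset (Fin L)) : MP (fun y : Qg L I => y.1 + eT T y) := by
  refine MP_of_addRight fun s => ⟨(s, 0), fun y => ?_⟩
  rw [eT_add]
  simp only [Prod.fst_add, Pi.zero_apply]
  have : ∑ j ∈ T, (((0 : ZMod 2 × (Fin I → ZMod 2)).1, (0 : Fin L → ZMod 2),
      (0 : ZMod 2 × (Fin I → ZMod 2)).2) : R L I) = 0 := by
    apply Finset.sum_eq_zero
    intro j _
    rfl
  rw [this]
  abel


theorem MP_shiftB (T B : Finset (Fin L)) (hB : B.Nonempty) :
    MP (fun y : Qg L I => (y.1 + eT T y, (eT B y).2.2)) := by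
  obtain ⟨j0, hj0⟩ := hB
  refine MP_of_addRight fun s => ?_
  -- translation `c`
  let c2 : Fin L → ZMod 2 × (Fin I → ZMod 2) := fun j => if j = j0 then (0, s.2) else 0
  refine ⟨(s.1 - ∑ j ∈ T, ((c2 j).1, (0 : Fin L → ZMod 2), (c2 j).2), c2), fun y => ?_⟩
  apply Prod.ext
  · simp only
    rw [eT_add]
    simp only [Prod.fst_add]
    abel
  · simp only [Prod.snd_add]
    rw [eT_add]
    simp only [Prod.snd_add]
    congr 1
    simp only [Prod.snd_sum]
    rw [Finset.sum_eq_single_of_mem j0 hj0]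
    · simp [c2]
    · intro j _ hj
      simp [c2, hj]

end MPrc

section Expansion

variable {β a as : ℝ} {L M : ℕ} (K : KNorm β a as L M)

/-- A4.1 -/
theorem resK_expand (I : ℕ) (ι : Type) [Fintype ι] [DecidableEq ι] (τ : ℝ) (x : ι → Pf L I)
    (y : (Fin L → ZMod 2) × (ι → Qg L I)) :
    resK ι τ x y = ∑ T ∈ (univ : Finset (Fin L)).powerset,
      sgT T y.1 * ∏ l, rowT τ T (x l) (y.2 l) := by
  unfold resK
  rw [Finset.prod_one_add, Finset.mul_sum]
  refine Finset.sum_congr rfl fun T _ => ?_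
  unfold rowT sgT eT
  rw [Finset.prod_mul_distrib, Finset.prod_mul_distrib]
  have : ∏ i ∈ T, ∏ l, χ (x l).1 (evec i ((y.2 l).2 i))
      = ∏ l, χ (x l).1 (∑ j ∈ T, evec j ((y.2 l).2 j)) := by
    rw [Finset.prod_comm]
    refine Finset.prod_congr rfl fun l _ => ?_
    rw [χ_sum_right]
  rw [this]
  ring

theorem ν_k0' (I : ℕ) : K.ν (k0 : Pf L I → R L I → ℝ) ≤ β ^ (1 + L + I) :=
  (K.pull MP_v (MP.id (A := R L I)) (fun x y : R L I => χ x y)).trans (ν_chi_R' K I)

theorem ν_k1' (I : ℕ) : K.ν (k1 : Pf L I → R L I → ℝ) ≤ β ^ (1 + L + I) := by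
  have h1 := K.unim_left (fun x : Pf L I => sg x.2.2) (fun x => (abs_sg _).le)
    (fun x (t : R L I) => χ (x.1 + dvec x.2.1) t)
  have h2 := K.pull MP_vd (MP.id (A := R L I)) (fun x y : R L I => χ x y)
  exact h1.trans (h2.trans (ν_chi_R' K I))

/-- the kernel of a non resonant term -/
theorem ν_err (I : ℕ) (T B : Finset (Fin L)) (hB : B.Nonempty) (φ : Pf L I → R L I)
    (hφ : MP (fun x : Pf L I => (φ x, x.2.1.2))) (u : Pf L I → ℝ) (hu : ∀ x, |u x| ≤ 1) :
    K.ν (fun (x : Pf L I) (y : Qg L I) =>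
      u x * (χ (φ x) (y.1 + eT T y) * χ (dvec x.2.1) (eT B y))) ≤ β ^ (1 + L + I + I) := by
  have h0 := ν_chi_RΩ K I
  have h1 := K.pull hφ (MP_shiftB T B hB) (fun x y : R L I × (Fin I → ZMod 2) => χ x y)
  have h2 := K.unim
    (fun x : Pf L I => u x * χ x.2.1.1 (∑ j ∈ B, (Pi.single j 1 : Fin L → ZMod 2)))
    (fun y : Qg L I => sg (eT B y).1) (fun x => ?_) (fun y => (abs_sg _).le)
    (fun x y => χ ((φ x, x.2.1.2) : R L I × (Fin I → ZMod 2)) (y.1 + eT T y, (eT B y).2.2))
  · refine le_trans (le_of_eq ?_) (h2.trans (h1.trans h0))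
    congr 1
    funext x y
    have e1 : (eT B y).2.1 = ∑ j ∈ B, (Pi.single j 1 : Fin L → ZMod 2) := by
      unfold eT evec
      simp [Prod.snd_sum, Prod.fst_sum]
    have e2 : χ (dvec x.2.1) (eT B y)
        = sg (eT B y).1 * (χ x.2.1.1 (eT B y).2.1 * χ x.2.1.2 (eT B y).2.2) := by
      rw [χ_prod, χ_prod]
      simp [dvec, χ_zmod2]
    have e3 : χ ((φ x, x.2.1.2) : R L I × (Fin I → ZMod 2)) (y.1 + eT T y, (eT B y).2.2)
        = χ (φ x) (y.1 + eT T y) * χ x.2.1.2 (eT B y).2.2 := rfl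
    rw [e2, ← e1, e3]
    ring
  · rw [abs_mul, abs_χ, mul_one]
    exact hu x

/-- A4.2 -/
theorem ν_rowT_sub_mainT (hβ : 0 ≤ β) (I : ℕ) (T : Finset (Fin L)) (τ : ℝ) (h0 : 0 ≤ τ)
    (h1 : τ ≤ 1) :
    K.ν (fun (x : Pf L I) (y : Qg L I) => rowT τ T x y - mainT (τ ^ T.card) T x y)
      ≤ 2 ^ (L + 1) * β ^ (1 + L + I + I) := by
  classical
  have e : (fun (x : Pf L I) (y : Qg L I) => rowT τ T x y - mainT (τ ^ T.card) T x y)
      = fun x y => ∑ B ∈ (Finset.univ : Finset (Finset (Fin L))).erase ∅,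
        (τ ^ B.card * (1 * (χ x.1 (y.1 + eT T y) * χ (dvec x.2.1) (eT B y)))
          + τ ^ (symmDiff B T).card *
            (sg x.2.2 * (χ (x.1 + dvec x.2.1) (y.1 + eT T y) * χ (dvec x.2.1) (eT B y)))) := by
    funext x y
    have h := row_eq τ (sg x.2.2) x.1 (dvec x.2.1) y.1 (fun j => evec j (y.2 j)) T
    have h' : rowT τ T x y = χ x.1 (y.1 + eT T y) * (1 + sg x.2.2 * χ (dvec x.2.1) y.1) *
        ∏ j, (1 + τ * χ (dvec x.2.1) (evec j (y.2 j))) := by
      unfold rowT rowK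
      rw [χ_add_right]
      ring
    rw [h']
    unfold eT mainT k0 k1
    rw [h]
    unfold errB eT
    simp only [one_mul, add_sub_cancel_left]
  rw [e]
  refine (K.toPreNorm.sum_le _ _).trans ?_
  have hb : ∀ B ∈ (Finset.univ : Finset (Finset (Fin L))).erase ∅,
      K.ν (fun (x : Pf L I) (y : Qg L I) =>
        (τ ^ B.card * (1 * (χ x.1 (y.1 + eT T y) * χ (dvec x.2.1) (eT B y)))
          + τ ^ (symmDiff B T).card *
            (sg x.2.2 * (χ (x.1 + dvec x.2.1) (y.1 + eT T y) * χ (dvec x.2.1) (eT B y)))))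
        ≤ 2 * β ^ (1 + L + I + I) := by
    intro B hB
    have hB' : B.Nonempty := by
      rw [Finset.mem_erase] at hB
      exact Finset.nonempty_iff_ne_empty.2 hB.1
    have hβ' : 0 ≤ β ^ (1 + L + I + I) := pow_nonneg hβ _
    have hp : ∀ n : ℕ, |τ ^ n| ≤ 1 := fun n => by
      rw [abs_pow, abs_of_nonneg h0]
      exact pow_le_one₀ h0 h1
    have t1 := (K.smul_le (τ ^ B.card) (fun (x : Pf L I) (y : Qg L I) =>
      1 * (χ x.1 (y.1 + eT T y) * χ (dvec x.2.1) (eT B y)))).trans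
      (mul_le_mul (hp _) (ν_err K I T B hB' (fun x => x.1) MP_v0 (fun _ => 1)
        (fun _ => by simp)) (K.nonneg _) zero_le_one)
    have t2 := (K.smul_le (τ ^ (symmDiff B T).card) (fun (x : Pf L I) (y : Qg L I) =>
      sg x.2.2 * (χ (x.1 + dvec x.2.1) (y.1 + eT T y) * χ (dvec x.2.1) (eT B y)))).trans
      (mul_le_mul (hp _) (ν_err K I T B hB' (fun x => x.1 + dvec x.2.1) MP_v1
        (fun x => sg x.2.2) (fun _ => (abs_sg _).le)) (K.nonneg _) zero_le_one)
    refine (K.add_le _ _).trans ?_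
    linarith
  refine (Finset.sum_le_card_nsmul _ _ _ hb).trans ?_
  have hc : (((Finset.univ : Finset (Finset (Fin L))).erase ∅).card : ℝ) ≤ 2 ^ L := by
    have : ((Finset.univ : Finset (Finset (Fin L))).erase ∅).card ≤ 2 ^ L := by
      refine (Finset.card_le_univ _).trans ?_
      simp
    exact_mod_cast this
  rw [nsmul_eq_mul]
  calc (((Finset.univ : Finset (Finset (Fin L))).erase ∅).card : ℝ) * (2 * β ^ (1 + L + I + I))
      ≤ 2 ^ L * (2 * β ^ (1 + L + I + I)) := by
        apply mul_le_mul_of_nonneg_right hc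
        have := pow_nonneg hβ (1 + L + I + I)
        linarith
    _ = 2 ^ (L + 1) * β ^ (1 + L + I + I) := by ring

/-- A4.3 -/
theorem ν_mainT (_hβ : 0 ≤ β) (I : ℕ) (T : Finset (Fin L)) (s : ℝ) (h0 : 0 ≤ s) (h1 : s ≤ 1) :
    K.ν (mainT s T : Pf L I → Qg L I → ℝ) ≤ 2 * β ^ (1 + L + I) := by
  have a0 := (K.pull (MP.id (A := Pf L I)) (MP_shift1 T) (k0 : Pf L I → R L I → ℝ)).trans
    (ν_k0' K I)
  have a1 := (K.pull (MP.id (A := Pf L I)) (MP_shift1 T) (k1 : Pf L I → R L I → ℝ)).trans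
    (ν_k1' K I)
  have a2 := (K.smul_le s (fun (x : Pf L I) (y : Qg L I) => k1 x (y.1 + eT T y))).trans
    (mul_le_mul (by rw [abs_of_nonneg h0]; exact h1) a1 (K.nonneg _) zero_le_one)
  refine (K.add_le (fun (x : Pf L I) (y : Qg L I) => k0 x (y.1 + eT T y))
    (fun x y => s * k1 x (y.1 + eT T y))).trans ?_
  linarith

/-- A4.4 general product perturbation -/
theorem ν_prod_sub_prod {P Q : Type} [Fintype P] [Fintype Q] (ι : Type) [Fintype ι]
    [DecidableEq ι] (κ μ : P → Q → ℝ) (m e : ℝ) (hm : 0 ≤ m) (he : 0 ≤ e)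
    (h1 : K.ν μ ≤ m) (h2 : K.ν (fun x y => κ x y - μ x y) ≤ e) :
    K.ν (fun (x : ι → P) (y : ι → Q) => ∏ l, κ (x l) (y l) - ∏ l, μ (x l) (y l))
      ≤ (m + e) ^ Fintype.card ι - m ^ Fintype.card ι := by
  have h := nu_prod_sub_le K (ι := ι) (fun _ => μ) (fun _ x y => κ x y - μ x y) m e
    (fun _ => h1) (fun _ => h2)
  simpa using h

/-- A4.5 total -/
theorem ν_expand_total (hβ : 0 ≤ β) (I : ℕ) (ι : Type) [Fintype ι] [DecidableEq ι] (τ : ℝ)
    (h0 : 0 ≤ τ) (h1 : τ ≤ 1) :
    K.ν (fun (x : ι → Pf L I) (y : (Fin L → ZMod 2) × (ι → Qg L I)) =>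
        (resK ι τ x y - resK ι 0 x y)
        - ∑ T ∈ (univ : Finset (Fin L)).powerset.erase ∅, sgT T y.1 *
          (prodK k0 k1 ι (τ ^ T.card) x (fun l => (y.2 l).1 + eT T (y.2 l))
            - prodK k0 k1 ι 0 x (fun l => (y.2 l).1 + eT T (y.2 l))))
      ≤ 2 * 2 ^ L * (((2 + 2 ^ (L + 1) * β ^ I) ^ Fintype.card ι - 2 ^ Fintype.card ι)
          * β ^ ((1 + L + I) * Fintype.card ι)) := by
  classical
  -- error kernel for given `σ`, `T`
  let D : ℝ → Finset (Fin L) → (ι → Pf L I) → ((Fin L → ZMod 2) × (ι → Qg L I)) → ℝ :=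
    fun σ T x y => sgT T y.1 *
      (∏ l, rowT σ T (x l) (y.2 l) - ∏ l, mainT (σ ^ T.card) T (x l) (y.2 l))
  set n := Fintype.card ι with hn
  have hD : ∀ σ : ℝ, 0 ≤ σ → σ ≤ 1 → ∀ T, K.ν (D σ T) ≤
      ((2 + 2 ^ (L + 1) * β ^ I) ^ n - 2 ^ n) * β ^ ((1 + L + I) * n) := by
    intro σ s0 s1 T
    have b1 := ν_prod_sub_prod K ι (rowT σ T : Pf L I → Qg L I → ℝ) (mainT (σ ^ T.card) T)
      (2 * β ^ (1 + L + I)) (2 ^ (L + 1) * β ^ (1 + L + I + I)) (by positivity) (by positivity)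
      (ν_mainT K hβ I T _ (pow_nonneg s0 _) (pow_le_one₀ s0 s1))
      (ν_rowT_sub_mainT K hβ I T σ s0 s1)
    have b2 := K.pull (MP.id (A := ι → Pf L I))
      (MP.snd : MP (fun y : (Fin L → ZMod 2) × (ι → Qg L I) => y.2))
      (fun (x : ι → Pf L I) (y : ι → Qg L I) =>
        ∏ l, rowT σ T (x l) (y l) - ∏ l, mainT (σ ^ T.card) T (x l) (y l))
    have b3 := K.unim_right (fun y : (Fin L → ZMod 2) × (ι → Qg L I) => sgT T y.1)
      (fun y => by
        unfold sgT
        rw [Finset.abs_prod]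
        exact (Finset.prod_eq_one fun j _ => abs_sg _).le)
      (fun (x : ι → Pf L I) (y : (Fin L → ZMod 2) × (ι → Qg L I)) =>
        ∏ l, rowT σ T (x l) (y.2 l) - ∏ l, mainT (σ ^ T.card) T (x l) (y.2 l))
    have e1 : D σ T = fun (x : ι → Pf L I) (y : (Fin L → ZMod 2) × (ι → Qg L I)) =>
        (∏ l, rowT σ T (x l) (y.2 l) - ∏ l, mainT (σ ^ T.card) T (x l) (y.2 l)) * sgT T y.1 := by
      funext x y
      simp only [D]
      ring
    rw [e1]
    refine b3.trans (b2.trans (b1.trans (le_of_eq ?_)))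
    have e2 : 2 * β ^ (1 + L + I) + 2 ^ (L + 1) * β ^ (1 + L + I + I)
        = (2 + 2 ^ (L + 1) * β ^ I) * β ^ (1 + L + I) := by
      rw [pow_add β (1 + L + I) I]
      ring
    rw [e2, mul_pow, mul_pow, ← pow_mul, ← hn]
    ring
  have e0 : (fun (x : ι → Pf L I) (y : (Fin L → ZMod 2) × (ι → Qg L I)) =>
        (resK ι τ x y - resK ι 0 x y)
        - ∑ T ∈ (univ : Finset (Fin L)).powerset.erase ∅, sgT T y.1 *
          (prodK k0 k1 ι (τ ^ T.card) x (fun l => (y.2 l).1 + eT T (y.2 l))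
            - prodK k0 k1 ι 0 x (fun l => (y.2 l).1 + eT T (y.2 l))))
      = fun x y => ∑ T ∈ (univ : Finset (Fin L)).powerset, (D τ T x y - D 0 T x y) := by
    funext x y
    rw [resK_expand, resK_expand, ← Finset.sum_sub_distrib]
    have m0 : (∅ : Finset (Fin L)) ∈ (univ : Finset (Fin L)).powerset := by simp
    rw [← Finset.add_sum_erase _ _ m0, ← Finset.add_sum_erase _ (fun T => D τ T x y - D 0 T x y) m0,
      add_sub_assoc, ← Finset.sum_sub_distrib]
    congr 1
    · simp only [D, Finset.card_empty, pow_zero]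
      ring
    · refine Finset.sum_congr rfl fun T hT => ?_
      have hT' : T.card ≠ 0 := by
        rw [Finset.mem_erase] at hT
        simpa using hT.1
      simp only [D, prodK, mainT, zero_pow hT']
      ring
  rw [e0]
  refine (K.toPreNorm.sum_le _ _).trans ?_
  have h3 : ∀ T ∈ (univ : Finset (Fin L)).powerset,
      K.ν (fun (x : ι → Pf L I) (y : (Fin L → ZMod 2) × (ι → Qg L I)) => D τ T x y - D 0 T x y)
        ≤ 2 * (((2 + 2 ^ (L + 1) * β ^ I) ^ n - 2 ^ n) * β ^ ((1 + L + I) * n)) := by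
    intro T _
    refine (K.toPreNorm.sub_le _ _).trans ?_
    have := hD τ h0 h1 T
    have := hD 0 le_rfl zero_le_one T
    linarith
  refine (Finset.sum_le_card_nsmul _ _ _ h3).trans (le_of_eq ?_)
  rw [Finset.card_powerset, Finset.card_univ, Fintype.card_fin, nsmul_eq_mul]
  push_cast
  ring

end Expansion

end Crest.Agent.R118.A4x570
end

-- ▼ part R118/A5_862

/-!
A5 of row 118 (S0158): measure preservation of the shifts, the cotype step, and the assembly of
Theorem A.
-/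

namespace Crest.Agent.R118.A5_862

open Finset Base324 KNorm324 Core324

/-! ### A5.1 -/

/-- `y ↦ (t_l + e_T(y))_l, rest` as an equivalence -/
def shiftEquiv (L I : ℕ) (ι : Type) (T : Finset (Fin L)) :
    (ι → Qg L I) ≃ (ι → R L I) × (ι → (Fin L → ZMod 2 × (Fin I → ZMod 2))) where
  toFun y := (fun l => (y l).1 + eT T (y l), fun l => (y l).2)
  invFun z := fun l => (z.1 l - eT T (0, z.2 l), z.2 l)
  left_inv y := by
    funext l
    simp only [eT]
    ext1
    · simp
    · rfl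
  right_inv z := by
    ext1
    · funext l
      simp [eT]
    · rfl

theorem MP_shift' (L I : ℕ) (ι : Type) [Fintype ι] [DecidableEq ι] (T : Finset (Fin L)) :
    MP (fun (y : ι → Qg L I) => fun l => (y l).1 + eT T (y l)) := by
  have h1 := MP.equiv (shiftEquiv L I ι T)
  have h2 : MP (fun x : (ι → R L I) × (ι → (Fin L → ZMod 2 × (Fin I → ZMod 2))) => x.1) := MP.fst
  exact MP.comp h2 h1

/-- A5.1 measure preservation of `y ↦ (t_l + e_T)_l` -/
theorem MP_shift {L : ℕ} (I : ℕ) (ι : Type) [Fintype ι] [DecidableEq ι] (T : Finset (Fin L)) :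
    MP (fun (y : (Fin L → ZMod 2) × (ι → Qg L I)) => fun l => (y.2 l).1 + eT T (y.2 l)) :=
  MP.comp (MP_shift' L I ι T) MP.snd

/-! ### A5.2 -/

theorem eT_singleton {L I : ℕ} (j : Fin L) (y : Qg L I) : eT {j} y = evec j (y.2 j) := by
  simp [eT]

variable {β a as : ℝ} {L M : ℕ}

/-- A5.2 cotype step -/
theorem ν_cot_step (K : KNorm β a as L M) (I : ℕ) (ι : Type) [Fintype ι] [DecidableEq ι]
    (κ : (ι → Pf L I) → (ι → R L I) → ℝ) :
    a * K.ν κ ≤ K.ν (fun (x : ι → Pf L I) (y : (Fin L → ZMod 2) × (ι → Qg L I)) =>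
      ∑ j, sg (y.1 j) * κ x (fun l => (y.2 l).1 + evec j ((y.2 l).2 j))) := by
  have hψ : ∀ j : Fin L, MP (fun (y : ι → Qg L I) => fun l => (y l).1 + evec j ((y l).2 j)) := by
    intro j
    have h := MP_shift' L I ι ({j} : Finset (Fin L))
    simpa only [eT_singleton] using h
  have h1 := K.cot (fun j (y : ι → Qg L I) => fun l => (y l).1 + evec j ((y l).2 j)) hψ κ
  refine h1.trans ?_
  have h2 := K.pull (MP.id (A := ι → Pf L I))
    (MP.equiv (Equiv.prodComm (ι → Qg L I) (Fin L → ZMod 2)))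
    (fun (x : ι → Pf L I) (y : (Fin L → ZMod 2) × (ι → Qg L I)) =>
      ∑ j, sg (y.1 j) * κ x (fun l => (y.2 l).1 + evec j ((y.2 l).2 j)))
  exact h2

/-! ### Reindexing -/

lemma hom_equiv {ι ι' : Type} [Fintype ι] [DecidableEq ι] [Fintype ι'] [DecidableEq ι']
    (e : ι' ≃ ι) (u w : ι → ℝ) (i : ℕ) :
    hom univ u w i = hom univ (fun l => u (e l)) (fun l => w (e l)) i := by
  unfold hom
  rw [← Finset.map_univ_equiv e, Finset.powersetCard_map, Finset.sum_map]
  refine Finset.sum_congr rfl fun S _ => ?_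
  have h1 : (Finset.mapEmbedding e.toEmbedding).toEmbedding S = S.map e.toEmbedding := rfl
  rw [h1, ← Finset.map_sdiff, Finset.prod_map, Finset.prod_map]
  rfl

lemma homK_equiv {P Q : Type} (κ0 κ1 : P → Q → ℝ) {ι ι' : Type} [Fintype ι] [DecidableEq ι]
    [Fintype ι'] [DecidableEq ι'] (e : ι' ≃ ι) (i : ℕ) (x : ι → P) (y : ι → Q) :
    homK κ0 κ1 ι i x y = homK κ0 κ1 ι' i (fun l => x (e l)) (fun l => y (e l)) := by
  unfold homK
  rw [hom_equiv e]

lemma ν_homK_card (N : PreNorm) {P Q : Type} [Fintype P] [Fintype Q] (κ0 κ1 : P → Q → ℝ)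
    (ι : Type) [Fintype ι] [DecidableEq ι] (i : ℕ) :
    N.ν (homK κ0 κ1 ι i) ≤ N.ν (homK κ0 κ1 (Fin (Fintype.card ι)) i) := by
  have e : Fin (Fintype.card ι) ≃ ι := (Fintype.equivFin ι).symm
  have h := N.pull (MP.equiv (Equiv.arrowCongr e.symm (Equiv.refl P)))
    (MP.equiv (Equiv.arrowCongr e.symm (Equiv.refl Q))) (homK κ0 κ1 (Fin (Fintype.card ι)) i)
  refine le_trans (le_of_eq ?_) h
  congr 1
  funext x y
  rw [homK_equiv κ0 κ1 e]
  rfl

lemma homK_zero {P Q : Type} (κ0 κ1 : P → Q → ℝ) (ι : Type) [Fintype ι] [DecidableEq ι]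
    (x : ι → P) (y : ι → Q) : homK κ0 κ1 ι 0 x y = ∏ l, κ0 (x l) (y l) := by
  simp [homK, hom]

/-! ### Walsh kernels on `Fin M → R L I` -/

/-- coordinates of `R L I` -/
def rEquiv (L I : ℕ) : (Unit ⊕ (Fin L ⊕ Fin I) → ZMod 2) ≃ R L I :=
  (Equiv.sumArrowEquivProdArrow _ _ _).trans
    (Equiv.prodCongr (Equiv.funUnique Unit (ZMod 2)) (Equiv.sumArrowEquivProdArrow _ _ _))

lemma χ_rEquiv (L I : ℕ) (x y : Unit ⊕ (Fin L ⊕ Fin I) → ZMod 2) :
    χ (rEquiv L I x) (rEquiv L I y) = χ x y := by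
  simp only [χ_prod, χ_pi, Fintype.prod_sum_type, Finset.univ_unique, Finset.prod_singleton]
  rfl

/-- coordinates of `Fin M → R L I` -/
noncomputable def wEquiv (M L I : ℕ) :
    (Fin (M * (1 + (L + I))) → ZMod 2) ≃ (Fin M → R L I) :=
  ((Equiv.arrowCongr (Fintype.equivFinOfCardEq (α := Fin M × (Unit ⊕ (Fin L ⊕ Fin I)))
      (by simp)).symm (Equiv.refl (ZMod 2))).trans (Equiv.curry _ _ _)).trans
    (Equiv.arrowCongr (Equiv.refl (Fin M)) (rEquiv L I))

lemma χ_wEquiv (M L I : ℕ) (x y : Fin (M * (1 + (L + I))) → ZMod 2) :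
    χ (wEquiv M L I x) (wEquiv M L I y) = χ x y := by
  rw [χ_pi]
  have h1 : ∀ l, χ (wEquiv M L I x l) (wEquiv M L I y l) =
      ∏ s, χ (x (Fintype.equivFinOfCardEq (α := Fin M × (Unit ⊕ (Fin L ⊕ Fin I)))
        (by simp) (l, s))) (y (Fintype.equivFinOfCardEq (α := Fin M × (Unit ⊕ (Fin L ⊕ Fin I)))
        (by simp) (l, s))) := by
    intro l
    have h2 := χ_rEquiv L I
      (fun s => x (Fintype.equivFinOfCardEq (α := Fin M × (Unit ⊕ (Fin L ⊕ Fin I)))
        (by simp) (l, s)))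
      (fun s => y (Fintype.equivFinOfCardEq (α := Fin M × (Unit ⊕ (Fin L ⊕ Fin I)))
        (by simp) (l, s)))
    exact h2
  simp only [h1]
  rw [← Fintype.prod_prod_type' (f := fun (l : Fin M) (s : Unit ⊕ (Fin L ⊕ Fin I)) =>
    χ (x (Fintype.equivFinOfCardEq (α := Fin M × (Unit ⊕ (Fin L ⊕ Fin I)))
        (by simp) (l, s))) (y (Fintype.equivFinOfCardEq (α := Fin M × (Unit ⊕ (Fin L ⊕ Fin I)))
        (by simp) (l, s))))]
  rw [χ_pi]
  exact Equiv.prod_comp (Fintype.equivFinOfCardEq (α := Fin M × (Unit ⊕ (Fin L ⊕ Fin I)))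
        (by simp)) (fun i => χ (x i) (y i))

lemma ν_walsh_le (K : KNorm β a as L M) (M' I : ℕ) :
    K.ν (fun x y : Fin (M' * (1 + (L + I))) → ZMod 2 => χ x y) ≤
      K.ν (fun x y : Fin M' → R L I => χ x y) := by
  have h := K.pull (MP.equiv (wEquiv M' L I)) (MP.equiv (wEquiv M' L I))
    (fun x y : Fin M' → R L I => χ x y)
  simpa only [χ_wEquiv] using h

/-! ### Choice of `I` -/

lemma exists_I (hβ0 : 0 < β) (hβ1 : β < 1) (L M : ℕ) :
    ∃ I : ℕ, ∀ m : ℕ, m ≤ M →
      2 * 2 ^ L * ((2 + 2 ^ (L + 1) * β ^ I) ^ m - 2 ^ m) ≤ (1 : ℝ) := by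
  have h1 : Filter.Tendsto (fun I : ℕ => β ^ I) Filter.atTop (nhds 0) :=
    tendsto_pow_atTop_nhds_zero_of_lt_one hβ0.le hβ1
  have h2 : ∀ m : ℕ, Filter.Tendsto
      (fun I : ℕ => 2 * 2 ^ L * ((2 + 2 ^ (L + 1) * β ^ I) ^ m - 2 ^ m)) Filter.atTop
      (nhds (2 * 2 ^ L * ((2 + 2 ^ (L + 1) * 0) ^ m - 2 ^ m))) := by
    intro m
    exact (((h1.const_mul _).const_add _).pow m |>.sub_const _).const_mul _
  have h3 : ∀ m : ℕ, ∀ᶠ I : ℕ in Filter.atTop,
      2 * 2 ^ L * ((2 + 2 ^ (L + 1) * β ^ I) ^ m - 2 ^ m) ≤ (1 : ℝ) := by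
    intro m
    have h4 := (h2 m).eventually_lt_const (u := 1) (by norm_num)
    filter_upwards [h4] with I hI using hI.le
  have h5 : ∀ᶠ I : ℕ in Filter.atTop, ∀ m ∈ Finset.range (M + 1),
      2 * 2 ^ L * ((2 + 2 ^ (L + 1) * β ^ I) ^ m - 2 ^ m) ≤ (1 : ℝ) :=
    (Filter.eventually_all_finset _).2 fun m _ => h3 m
  obtain ⟨I, hI⟩ := h5.exists
  exact ⟨I, fun m hm => hI m (Finset.mem_range.2 (Nat.lt_succ_of_le hm))⟩

/-! ### The contradiction -/

lemma final_step (K : KNorm β a as L M) (hβ0 : 0 < β) (hβ1 : β < 1) (hL : 0 < L)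
    (ha : 1000 ≤ a) (hML : 1 / 2 ≤ β ^ (M + L)) (I m : ℕ) (hm1 : 1 ≤ m) (hmM : m ≤ M)
    (hI : 2 * 2 ^ L * ((2 + 2 ^ (L + 1) * β ^ I) ^ m - 2 ^ m) ≤ (1 : ℝ))
    (k : ℝ) (hk : 2 ^ L ≤ k)
    (hT : ∀ i, K.ν (homK (k0 : Pf L I → R L I → ℝ) k1 (Fin m) i) ≤
      (4 * k) ^ i * (β ^ (1 + L + I)) ^ m)
    (hkm : k * (β ^ (1 + L + I)) ^ m ≤ K.ν (homK (k0 : Pf L I → R L I → ℝ) k1 (Fin m) 1)) :
    False := by
  have hk1 : (1 : ℝ) ≤ k := le_trans (one_le_pow₀ (by norm_num)) hk
  have hk0 : (0 : ℝ) < k := by linarith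
  set B : ℝ := (β ^ (1 + L + I)) ^ m with hB
  have hBpos : 0 < B := by positivity
  set τ : ℝ := 1 / (64 * k) with hτ
  have hτ0 : 0 < τ := by positivity
  have hkτ : k * τ = 1 / 64 := by rw [hτ]; field_simp
  have hτ1 : τ ≤ 1 / 64 := by
    rw [hτ]
    apply one_div_le_one_div_of_le (by norm_num)
    linarith
  have hτ1' : τ ≤ 1 := by linarith
  have hne : Nonempty (Fin m) := ⟨⟨0, hm1⟩⟩
  -- kernels
  set V : ℝ → (Fin m → Pf L I) → (Fin m → R L I) → ℝ :=
    fun s x y => prodK k0 k1 (Fin m) s x y - prodK k0 k1 (Fin m) 0 x y with hV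
  -- lower bound
  have hlow : (1 / 128) * B ≤ K.ν (V τ) := by
    have h1 := A2_321.ν_prodK_sub_sub_le K.toPreNorm (k0 : Pf L I → R L I → ℝ) k1 k B hk0.le hBpos.le
      (Fin m) hT τ hτ0.le (by rw [mul_assoc, hkτ]; norm_num)
    have h2 := K.le_add_sub (fun x y => τ * homK (k0 : Pf L I → R L I → ℝ) k1 (Fin m) 1 x y) (V τ)
    have h3 : K.ν (fun x y => τ * homK (k0 : Pf L I → R L I → ℝ) k1 (Fin m) 1 x y - V τ x y) ≤
        32 * (k * τ) ^ 2 * B := by
      refine le_trans ?_ h1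
      have h4 := K.neg_le (fun x y => V τ x y -
        τ * homK (k0 : Pf L I → R L I → ℝ) k1 (Fin m) 1 x y)
      refine le_trans (le_of_eq ?_) h4
      congr 1
      funext x y
      ring
    have h5 : τ * K.ν (homK (k0 : Pf L I → R L I → ℝ) k1 (Fin m) 1) ≤
        K.ν (fun x y => τ * homK (k0 : Pf L I → R L I → ℝ) k1 (Fin m) 1 x y) := by
      have h6 := K.smul_le τ⁻¹
        (fun x y => τ * homK (k0 : Pf L I → R L I → ℝ) k1 (Fin m) 1 x y)
      have h7 : (fun (x : Fin m → Pf L I) (y : Fin m → R L I) =>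
          τ⁻¹ * (τ * homK (k0 : Pf L I → R L I → ℝ) k1 (Fin m) 1 x y)) =
          homK (k0 : Pf L I → R L I → ℝ) k1 (Fin m) 1 := by
        funext x y
        rw [← mul_assoc, inv_mul_cancel₀ hτ0.ne', one_mul]
      rw [h7, abs_of_pos (inv_pos.2 hτ0)] at h6
      calc τ * K.ν (homK (k0 : Pf L I → R L I → ℝ) k1 (Fin m) 1)
          ≤ τ * (τ⁻¹ * K.ν (fun x y => τ * homK (k0 : Pf L I → R L I → ℝ) k1 (Fin m) 1 x y)) :=
            mul_le_mul_of_nonneg_left h6 hτ0.le
        _ = _ := by rw [← mul_assoc, mul_inv_cancel₀ hτ0.ne', one_mul]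
    have h8 : τ * (k * B) ≤ τ * K.ν (homK (k0 : Pf L I → R L I → ℝ) k1 (Fin m) 1) :=
      mul_le_mul_of_nonneg_left hkm hτ0.le
    have h9 : τ * (k * B) = 1 / 64 * B := by rw [← mul_assoc, mul_comm τ k, hkτ]
    have h10 : 32 * (k * τ) ^ 2 * B = 1 / 128 * B := by rw [hkτ]; norm_num
    rw [h10] at h3
    linarith
  -- cotype
  have hcot := ν_cot_step K I (Fin m) (V τ)
  -- first order pieces
  have hs : ∀ s : ℝ, 0 ≤ s → s ≤ τ → K.ν (V s) ≤ 8 * k * s * B := by
    intro s hs0 hs1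
    refine A2_321.ν_prodK_sub_le K.toPreNorm (k0 : Pf L I → R L I → ℝ) k1 k B hk0.le hBpos.le
      (Fin m) hT s hs0 ?_
    have : k * s ≤ k * τ := mul_le_mul_of_nonneg_left hs1 hk0.le
    rw [hkτ] at this
    nlinarith
  -- T-terms
  set W : Finset (Fin L) → (Fin m → Pf L I) → ((Fin L → ZMod 2) × (Fin m → Qg L I)) → ℝ :=
    fun T x y => sgT T y.1 * V (τ ^ T.card) x (fun l => (y.2 l).1 + eT T (y.2 l)) with hW
  have hsgT : ∀ (T : Finset (Fin L)) (η : Fin L → ZMod 2), |sgT T η| ≤ 1 := by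
    intro T η
    unfold sgT
    rw [Finset.abs_prod]
    simp
  have hWle : ∀ T : Finset (Fin L), K.ν (W T) ≤ K.ν (V (τ ^ T.card)) := by
    intro T
    have h1 := K.unim (fun _ => 1) (fun y : (Fin L → ZMod 2) × (Fin m → Qg L I) => sgT T y.1)
      (fun _ => by simp) (fun y => hsgT T y.1)
      (fun (x : Fin m → Pf L I) (y : (Fin L → ZMod 2) × (Fin m → Qg L I)) =>
        V (τ ^ T.card) x (fun l => (y.2 l).1 + eT T (y.2 l)))
    have h2 := K.pull (MP.id (A := Fin m → Pf L I)) (MP_shift I (Fin m) T) (V (τ ^ T.card))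
    refine le_trans (le_of_eq ?_) (h1.trans h2)
    congr 1
    funext x y
    simp only [hW]
    ring
  have hW2 : ∀ T : Finset (Fin L), 2 ≤ T.card → K.ν (W T) ≤ 8 * k * τ ^ 2 * B := by
    intro T hT2
    have h1 : τ ^ T.card ≤ τ ^ 2 := pow_le_pow_of_le_one hτ0.le hτ1' hT2
    have h2 : τ ^ 2 ≤ τ := by nlinarith
    refine (hWle T).trans ((hs _ (by positivity) (h1.trans h2)).trans ?_)
    gcongr
  -- expansion
  have hexp := A4x570.ν_expand_total K hβ0.le I (Fin m) τ hτ0.le hτ1'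
  have herr : 2 * 2 ^ L * (((2 + 2 ^ (L + 1) * β ^ I) ^ Fintype.card (Fin m) -
      2 ^ Fintype.card (Fin m)) * β ^ ((1 + L + I) * Fintype.card (Fin m))) ≤ B := by
    rw [Fintype.card_fin, ← mul_assoc, pow_mul]
    calc _ ≤ 1 * B := mul_le_mul_of_nonneg_right hI hBpos.le
      _ = B := one_mul _
  set Er : (Fin m → Pf L I) → ((Fin L → ZMod 2) × (Fin m → Qg L I)) → ℝ :=
    fun x y => (resK (Fin m) τ x y - resK (Fin m) 0 x y)
      - ∑ T ∈ (univ : Finset (Finset (Fin L))).erase ∅, W T x y with hEr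
  have hErle : K.ν Er ≤ B := by
    refine le_trans (le_of_eq ?_) (hexp.trans herr)
    rfl
  -- resonance kernels
  have hres : ∀ s : ℝ, 0 ≤ s → s ≤ 1 → K.ν (resK (L := L) (I := I) (Fin m) s) ≤ 2 * B := by
    intro s hs0 hs1
    have h1 := A3_253.ν_resK K I (Fin m) s hs0 hs1
    rw [Fintype.card_fin] at h1
    refine h1.trans ?_
    have hexp' : (L + I) * (m - 1) + I + (m + L) = (1 + L + I) * m := by
      obtain ⟨m', rfl⟩ : ∃ m', m = m' + 1 := ⟨m - 1, by omega⟩
      simp only [Nat.add_sub_cancel]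
      ring
    have h2 : β ^ ((L + I) * (m - 1) + I) * β ^ (m + L) = B := by
      rw [← pow_add, hexp', hB, pow_mul]
    have h3 : 1 / 2 ≤ β ^ (m + L) :=
      hML.trans (pow_le_pow_of_le_one hβ0.le hβ1.le (by omega))
    have h4 : 0 ≤ β ^ ((L + I) * (m - 1) + I) := by positivity
    nlinarith
  -- decomposition of the cotype sum
  have hS : (fun (x : Fin m → Pf L I) (y : (Fin L → ZMod 2) × (Fin m → Qg L I)) =>
      ∑ j, sg (y.1 j) * V τ x (fun l => (y.2 l).1 + evec j ((y.2 l).2 j))) =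
      fun x y => ((resK (Fin m) τ x y - resK (Fin m) 0 x y) - Er x y) -
        ∑ T ∈ ((univ : Finset (Finset (Fin L))).erase ∅).filter (fun T => 2 ≤ T.card),
          W T x y := by
    funext x y
    have h1 : ∑ T ∈ (univ : Finset (Finset (Fin L))).erase ∅, W T x y =
        ∑ T ∈ ((univ : Finset (Finset (Fin L))).erase ∅).filter (fun T => 2 ≤ T.card), W T x y +
        ∑ T ∈ ((univ : Finset (Finset (Fin L))).erase ∅).filter (fun T => ¬ 2 ≤ T.card),
          W T x y := (Finset.sum_filter_add_sum_filter_not _ _ _).symm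
    have h2 : ((univ : Finset (Finset (Fin L))).erase ∅).filter (fun T => ¬ 2 ≤ T.card) =
        (univ : Finset (Fin L)).map ⟨fun j => {j}, fun a b h => by simpa using h⟩ := by
      ext T
      simp only [Finset.mem_filter, Finset.mem_erase, Finset.mem_univ, and_true, Finset.mem_map,
        true_and, Function.Embedding.coeFn_mk]
      constructor
      · rintro ⟨h3, h4⟩
        have h5 : 0 < T.card := Finset.card_pos.2 (Finset.nonempty_iff_ne_empty.2 h3)
        have h6 : T.card = 1 := by omega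
        obtain ⟨j, hj⟩ := Finset.card_eq_one.1 h6
        exact ⟨j, hj.symm⟩
      · rintro ⟨j, rfl⟩
        simp
    have h3 : ∑ T ∈ ((univ : Finset (Finset (Fin L))).erase ∅).filter (fun T => ¬ 2 ≤ T.card),
        W T x y = ∑ j, sg (y.1 j) * V τ x (fun l => (y.2 l).1 + evec j ((y.2 l).2 j)) := by
      rw [h2, Finset.sum_map]
      refine Finset.sum_congr rfl fun j _ => ?_
      simp [hW, sgT, eT_singleton]
    simp only [hEr]
    rw [h1, h3]
    ring
  have hcard : (((univ : Finset (Finset (Fin L))).erase ∅).filter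
      (fun T => 2 ≤ T.card)).card ≤ 2 ^ L := by
    refine (Finset.card_le_univ _).trans ?_
    simp
  have hsum2 : K.ν (fun (x : Fin m → Pf L I) (y : (Fin L → ZMod 2) × (Fin m → Qg L I)) =>
      ∑ T ∈ ((univ : Finset (Finset (Fin L))).erase ∅).filter (fun T => 2 ≤ T.card),
          W T x y) ≤ 2 ^ L * (8 * k * τ ^ 2 * B) := by
    refine (K.sum_le _ W).trans ?_
    calc ∑ T ∈ ((univ : Finset (Finset (Fin L))).erase ∅).filter (fun T => 2 ≤ T.card), K.ν (W T)
        ≤ ∑ T ∈ ((univ : Finset (Finset (Fin L))).erase ∅).filter (fun T => 2 ≤ T.card),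
            (8 * k * τ ^ 2 * B) :=
          Finset.sum_le_sum fun T hT => hW2 T (Finset.mem_filter.1 hT).2
      _ = ((((univ : Finset (Finset (Fin L))).erase ∅).filter
            (fun T => 2 ≤ T.card)).card : ℝ) * (8 * k * τ ^ 2 * B) := by
          rw [Finset.sum_const, nsmul_eq_mul]
      _ ≤ 2 ^ L * (8 * k * τ ^ 2 * B) := by
          gcongr
          exact_mod_cast hcard
  have hup : K.ν (fun (x : Fin m → Pf L I) (y : (Fin L → ZMod 2) × (Fin m → Qg L I)) =>
      ∑ j, sg (y.1 j) * V τ x (fun l => (y.2 l).1 + evec j ((y.2 l).2 j))) ≤ 6 * B := by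
    rw [hS]
    have h1 := K.sub_le (fun (x : Fin m → Pf L I) (y : (Fin L → ZMod 2) × (Fin m → Qg L I)) =>
      (resK (Fin m) τ x y - resK (Fin m) 0 x y) - Er x y)
      (fun x y => ∑ T ∈ ((univ : Finset (Finset (Fin L))).erase ∅).filter
        (fun T => 2 ≤ T.card), W T x y)
    have h2 := K.sub_le (fun (x : Fin m → Pf L I) (y : (Fin L → ZMod 2) × (Fin m → Qg L I)) =>
      resK (Fin m) τ x y - resK (Fin m) 0 x y) Er
    have h3 := K.sub_le (resK (L := L) (I := I) (Fin m) τ) (resK (L := L) (I := I) (Fin m) 0)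
    have h4 := hres τ hτ0.le hτ1'
    have h5 := hres 0 le_rfl zero_le_one
    have h6 : 2 ^ L * (8 * k * τ ^ 2 * B) ≤ B := by
      have h7 : 2 ^ L * (8 * k * τ ^ 2 * B) = 8 * (2 ^ L * τ) * (k * τ) * B := by ring
      have h8 : 2 ^ L * τ ≤ 1 / 64 := by
        rw [← hkτ]
        exact mul_le_mul_of_nonneg_right hk hτ0.le
      rw [h7, hkτ]
      have h9 : 8 * (2 ^ L * τ) * (1 / 64) ≤ 1 := by linarith
      calc _ ≤ 1 * B := mul_le_mul_of_nonneg_right h9 hBpos.le
        _ = B := one_mul _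
    linarith
  have hfin := hcot.trans hup
  have h1 : 1000 * (1 / 128 * B) ≤ a * K.ν (V τ) :=
    mul_le_mul ha hlow (by positivity) (by linarith)
  nlinarith

/-- **Theorem A**, uniform in the norm -/
theorem thmA_uniform (β a as : ℝ) (L M : ℕ) (hβ0 : 0 < β) (hβ1 : β < 1) (hL : 0 < L)
    (_hM : 0 < M) (ha : 1000 ≤ a) (has : 2 ^ (L + 1) ≤ as) (hML : 1 / 2 ≤ β ^ (M + L)) :
    ∃ n0 : ℕ, ∀ K : KNorm β a as L M,
      K.ν (fun x y : Fin n0 → ZMod 2 => χ x y) ≤ 1 / 2 * β ^ n0 := by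
  obtain ⟨I, hI⟩ := exists_I hβ0 hβ1 L M
  refine ⟨M * (1 + (L + I)), fun K => ?_⟩
  by_contra hcon
  push Not at hcon
  set b : ℝ := β ^ (1 + L + I) with hb
  have hb0 : 0 < b := by positivity
  set g : ℕ → ℝ := fun m => K.ν (homK (k0 : Pf L I → R L I → ℝ) k1 (Fin m) 1) / b ^ m with hg
  obtain ⟨m, hm, hmax⟩ := Finset.exists_max_image (Finset.range (M + 1)) g ⟨0, by simp⟩
  set k : ℝ := g m with hk
  have hmM : m ≤ M := Nat.lt_succ_iff.1 (Finset.mem_range.1 hm)
  have hkm : ∀ m', m' ≤ M → K.ν (homK (k0 : Pf L I → R L I → ℝ) k1 (Fin m') 1) ≤ k * b ^ m' := by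
    intro m' hm'
    have h1 := hmax m' (Finset.mem_range.2 (Nat.lt_succ_of_le hm'))
    rw [hg] at h1
    simp only at h1
    rwa [div_le_iff₀ (by positivity)] at h1
  have hk0 : 0 ≤ k := div_nonneg (K.nonneg _) (by positivity)
  -- lower bound for k
  have hkL : 2 ^ L ≤ k := by
    have h1 := A2_321.ν_lift K I
    have h2 := hcon
    have h3 := ν_walsh_le K M I
    have h4 := hkm M le_rfl
    have h5 : b ^ M = β ^ (M * (1 + (L + I))) := by
      rw [hb, ← pow_mul]
      congr 1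
      ring
    have hpos : 0 < β ^ (M * (1 + (L + I))) := by positivity
    have h6 : as * (1 / 2 * b ^ M) ≤ k * b ^ M := by
      rw [h5] at h4 ⊢
      have has0 : 0 ≤ as := le_trans (by positivity) has
      calc as * (1 / 2 * β ^ (M * (1 + (L + I))))
          ≤ as * K.ν (fun x y : Fin M → R L I => χ x y) :=
            mul_le_mul_of_nonneg_left (h2.le.trans h3) has0
        _ ≤ _ := h1.trans h4
    have h7 : as / 2 ≤ k := by
      have h8 : 0 < b ^ M := by positivity
      have h9 : (as / 2) * b ^ M ≤ k * b ^ M := by linarith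
      exact le_of_mul_le_mul_right h9 h8
    have h10 : (2 : ℝ) ^ (L + 1) = 2 * 2 ^ L := by ring
    rw [h10] at has
    linarith
  have hkpos : 0 < k := lt_of_lt_of_le (by positivity) hkL
  have hm1 : 1 ≤ m := by
    by_contra h0
    have h0' : m = 0 := by omega
    have h1 : K.ν (homK (k0 : Pf L I → R L I → ℝ) k1 (Fin 0) 1) = 0 := by
      have h2 : homK (k0 : Pf L I → R L I → ℝ) k1 (Fin 0) 1 = fun _ _ => 0 := by
        funext x y
        have h3 : (univ : Finset (Fin 0)).powersetCard 1 = ∅ :=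
          Finset.powersetCard_eq_empty.2 (by simp)
        unfold homK hom
        rw [h3, Finset.sum_empty]
      rw [h2, K.zero]
    have h3 : k = 0 := by
      rw [hk, hg, h0']
      simp [h1]
    linarith
  -- Lemma T
  have hT : ∀ i, K.ν (homK (k0 : Pf L I → R L I → ℝ) k1 (Fin m) i) ≤ (4 * k) ^ i * b ^ m := by
    intro i
    have h := A1_523.lemmaT K.toPreNorm (k0 : Pf L I → R L I → ℝ) k1 M k b hk0 hb0.le ?_ ?_ (Fin m)
      (by simpa using hmM) i
    · simpa using h
    · intro ι _ _ _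
      have h1 := A0_785.ν_prod_pi K ι (fun _ => (k0 : Pf L I → R L I → ℝ))
      have h2 : homK (k0 : Pf L I → R L I → ℝ) k1 ι 0 =
          fun (x : ι → Pf L I) (y : ι → R L I) => ∏ l, k0 (x l) (y l) := by
        funext x y
        exact homK_zero _ _ _ _ _
      rw [h2]
      refine h1.trans ?_
      rw [Finset.prod_const, Finset.card_univ]
      exact pow_le_pow_left₀ (K.nonneg _) (A0_785.ν_k0 K I) _
    · intro ι ι' _ _ _ _ i hcard
      have h1 := K.tensor (homK (k0 : Pf L I → R L I → ℝ) k1 ι 1)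
        (homK (k0 : Pf L I → R L I → ℝ) k1 ι' i)
      refine h1.trans ?_
      have h2 := ν_homK_card K.toPreNorm (k0 : Pf L I → R L I → ℝ) k1 ι 1
      have h3 := hkm (Fintype.card ι) (by omega)
      exact mul_le_mul_of_nonneg_right (h2.trans h3) (K.nonneg _)
  refine final_step K hβ0 hβ1 hL ha hML I m hm1 hmM (hI m hmM) k hkL hT ?_
  have h1 : k * b ^ m = K.ν (homK (k0 : Pf L I → R L I → ℝ) k1 (Fin m) 1) := by
    rw [hk, hg]
    field_simp
  exact h1.le

end Crest.Agent.R118.A5_862
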