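import Mathlib

/-!
Base definitions for row 118 (S0158): averages over finite types, measure preserving maps,
signs on `ZMod 2`, abstract kernel norms.
-/

namespace Crest.Agent.R118.Base324

open Finset

/-! ## Averages -/

/-- normalised average over a finite type -/
noncomputable def avg {A : Type*} [Fintype A] {E : Type*} [AddCommGroup E] [Module ℝ E]
    (f : A → E) : E :=
  (Fintype.card A : ℝ)⁻¹ • ∑ a, f a

section Avg

variable {A B : Type*} [Fintype A] [Fintype B]
variable {E F : Type*} [AddCommGroup E] [Module ℝ E] [AddCommGroup F] [Module ℝ F]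

lemma avg_def (f : A → E) : avg f = (Fintype.card A : ℝ)⁻¹ • ∑ a, f a := rfl

lemma avg_add (f g : A → E) : avg (fun a => f a + g a) = avg f + avg g := by
  simp [avg, Finset.sum_add_distrib]


lemma avg_neg (f : A → E) : avg (fun a => - f a) = - avg f := by
  simp [avg]


lemma avg_smul (c : ℝ) (f : A → E) : avg (fun a => c • f a) = c • avg f := by
  simp only [avg, ← Finset.smul_sum]
  rw [smul_comm]

lemma avg_mul_left (c : ℝ) (f : A → ℝ) : avg (fun a => c * f a) = c * avg f :=
  avg_smul c f

lemma avg_mul_right (c : ℝ) (f : A → ℝ) : avg (fun a => f a * c) = avg f * c := by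
  simp only [mul_comm _ c]
  exact avg_smul c f

lemma avg_smul_const (f : A → ℝ) (x : E) : avg (fun a => f a • x) = avg f • x := by
  simp only [avg, ← Finset.sum_smul, smul_assoc]

lemma avg_const [Nonempty A] (x : E) : avg (fun _ : A => x) = x := by
  have h : (Fintype.card A : ℝ) ≠ 0 := by
    exact_mod_cast Fintype.card_ne_zero
  simp only [avg, Finset.sum_const, Finset.card_univ]
  rw [← Nat.cast_smul_eq_nsmul ℝ, smul_smul, inv_mul_cancel₀ h, one_smul]

lemma avg_sum {ι : Type*} (s : Finset ι) (f : ι → A → E) :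
    avg (fun a => ∑ i ∈ s, f i a) = ∑ i ∈ s, avg (f i) := by
  simp only [avg, ← Finset.smul_sum]
  rw [Finset.sum_comm]

lemma map_avg (T : E →ₗ[ℝ] F) (f : A → E) : T (avg f) = avg (fun a => T (f a)) := by
  simp [avg, map_sum]


lemma avg_mono {f g : A → ℝ} (h : ∀ a, f a ≤ g a) : avg f ≤ avg g := by
  simp only [avg, smul_eq_mul]
  apply mul_le_mul_of_nonneg_left (Finset.sum_le_sum fun a _ => h a)
  positivity

lemma avg_nonneg {f : A → ℝ} (h : ∀ a, 0 ≤ f a) : 0 ≤ avg f := by
  simp only [avg, smul_eq_mul]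
  exact mul_nonneg (by positivity) (Finset.sum_nonneg fun a _ => h a)

lemma avg_prod (f : A → B → E) :
    avg (fun x : A × B => f x.1 x.2) = avg fun a => avg fun b => f a b := by
  simp only [avg, Fintype.card_prod, Nat.cast_mul, mul_inv, ← Finset.smul_sum, mul_smul]
  rw [Fintype.sum_prod_type]

lemma avg_prod' (f : A × B → E) :
    avg f = avg fun a => avg fun b => f (a, b) :=
  avg_prod fun a b => f (a, b)

lemma avg_comm (f : A → B → E) :
    (avg fun a => avg fun b => f a b) = avg fun b => avg fun a => f a b := by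
  simp only [avg, ← Finset.smul_sum]
  rw [Finset.sum_comm, smul_comm]

lemma avg_equiv (e : A ≃ B) (f : B → E) : avg (fun a => f (e a)) = avg f := by
  simp only [avg, Fintype.card_congr e]
  rw [Equiv.sum_comp e f]

lemma avg_le_const {f : A → ℝ} {c : ℝ} (hc : 0 ≤ c) (h : ∀ a, f a ≤ c) : avg f ≤ c := by
  by_cases hA : Nonempty A
  · calc avg f ≤ avg (fun _ : A => c) := avg_mono h
      _ = c := avg_const c
  · have : IsEmpty A := not_nonempty_iff.mp hA
    simp [avg, hc]

/-- Cauchy–Schwarz for averages -/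
lemma avg_mul_sq_le (f g : A → ℝ) :
    (avg fun a => f a * g a) ^ 2 ≤ (avg fun a => f a ^ 2) * avg fun a => g a ^ 2 := by
  simp only [avg, smul_eq_mul]
  have h := Finset.sum_mul_sq_le_sq_mul_sq Finset.univ f g
  calc ((Fintype.card A : ℝ)⁻¹ * ∑ a, f a * g a) ^ 2
      = ((Fintype.card A : ℝ)⁻¹) ^ 2 * (∑ a, f a * g a) ^ 2 := by ring
    _ ≤ ((Fintype.card A : ℝ)⁻¹) ^ 2 * ((∑ a, f a ^ 2) * ∑ a, g a ^ 2) := by
        apply mul_le_mul_of_nonneg_left h; positivity
    _ = _ := by ring

/-- Jensen for squares, weighted: `(avg w f)^2 ≤ avg w * avg (w f^2)` for `w ≥ 0`. -/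
lemma avg_weight_sq_le (w f : A → ℝ) (hw : ∀ a, 0 ≤ w a) :
    (avg fun a => w a * f a) ^ 2 ≤ (avg w) * avg fun a => w a * f a ^ 2 := by
  have h := avg_mul_sq_le (fun a => Real.sqrt (w a)) (fun a => Real.sqrt (w a) * f a)
  have e1 : (fun a => Real.sqrt (w a) * (Real.sqrt (w a) * f a)) = fun a => w a * f a := by
    funext a; rw [← mul_assoc, Real.mul_self_sqrt (hw a)]
  have e2 : (fun a => Real.sqrt (w a) ^ 2) = w := by
    funext a; rw [Real.sq_sqrt (hw a)]
  have e3 : (fun a => (Real.sqrt (w a) * f a) ^ 2) = fun a => w a * f a ^ 2 := by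
    funext a; rw [mul_pow, Real.sq_sqrt (hw a)]
  rw [e1, e2, e3] at h
  exact h

/-- Jensen for squares. -/
lemma avg_sq_le (f : A → ℝ) : (avg f) ^ 2 ≤ avg fun a => f a ^ 2 := by
  by_cases hA : Nonempty A
  · have h := avg_weight_sq_le (fun _ => (1 : ℝ)) f (fun _ => zero_le_one)
    simpa [avg_const] using h
  · have : IsEmpty A := not_nonempty_iff.mp hA
    simp [avg]

/-- triangle inequality for averages under a seminorm -/
lemma seminorm_avg_le (q : Seminorm ℝ F) (f : A → F) : q (avg f) ≤ avg fun a => q (f a) := by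
  simp only [avg, smul_eq_mul]
  rw [map_smul_eq_mul]
  have : ‖((Fintype.card A : ℝ))⁻¹‖ = (Fintype.card A : ℝ)⁻¹ := by
    rw [Real.norm_of_nonneg]; positivity
  rw [this]
  apply mul_le_mul_of_nonneg_left _ (by positivity)
  exact Finset.le_sum_of_subadditive q (map_zero q).le (map_add_le_add q) _ _

end Avg

/-! ## Measure preserving maps -/

/-- `φ` is measure preserving for the uniform probabilities. -/
def MP {A' A : Type} [Fintype A'] [Fintype A] (φ : A' → A) : Prop :=
  ∀ g : A → ℝ, avg (fun a' => g (φ a')) = avg g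

section MP

variable {A A' A'' B B' D : Type} [Fintype A] [Fintype A'] [Fintype A''] [Fintype B] [Fintype B']
  [Fintype D]

lemma MP.id : MP (fun a : A => a) := fun _ => rfl

lemma MP.comp {φ : A' → A} {φ' : A'' → A'} (h : MP φ) (h' : MP φ') : MP (fun x => φ (φ' x)) :=
  fun g => (h' (fun a' => g (φ a'))).trans (h g)

lemma MP.equiv (e : A ≃ B) : MP (fun a => e a) := fun g => avg_equiv e g

lemma MP.fst [Nonempty B] : MP (fun x : A × B => x.1) := by
  intro g
  rw [avg_prod (fun a (_ : B) => g a)]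
  simp [avg_const]

lemma MP.snd [Nonempty A] : MP (fun x : A × B => x.2) := by
  intro g
  rw [avg_prod (fun (_ : A) b => g b)]
  simp [avg_const]

lemma MP.prodMap {φ : A' → A} {ψ : B' → B} (h : MP φ) (h' : MP ψ) :
    MP (fun x : A' × B' => (φ x.1, ψ x.2)) := by
  intro g
  rw [avg_prod (fun a b => g (φ a, ψ b)), avg_prod' g]
  have h1 : ∀ a', (avg fun b => g (φ a', ψ b)) = avg fun b => g (φ a', b) :=
    fun a' => h' (fun b => g (φ a', b))
  simp only [h1]
  exact h (fun a => avg fun b => g (a, b))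


/-- if each `a ↦ φ (s, a)` is measure preserving then `φ` is. -/
lemma MP.of_fibre' {φ : D × A' → A} [Nonempty D] (h : ∀ s, MP (fun a => φ (s, a))) : MP φ := by
  intro g
  rw [avg_prod' (fun x => g (φ x))]
  have : ∀ s : D, (avg fun a => g (φ (s, a))) = avg g := fun s => h s g
  simp [this, avg_const]

/-- translation -/
lemma MP.add_const [AddGroup A] (c : A) : MP (fun a : A => a + c) := MP.equiv (Equiv.addRight c)

/-- fibre count characterisation, vector valued version: for every vector valued `f`,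
`∑_{a'} f(a')` grouped along the fibres of `φ`. -/
lemma MP.card_fibre [DecidableEq A] {φ : A' → A} (h : MP φ) (a : A) :
    (Fintype.card A' : ℝ)⁻¹ * ((Finset.univ.filter fun a' => φ a' = a).card : ℝ)
      = (Fintype.card A : ℝ)⁻¹ := by
  have := h (fun x => if x = a then 1 else 0)
  simp only [avg, smul_eq_mul, Finset.sum_ite_eq', Finset.mem_univ, if_true, mul_one] at this
  rw [← this]
  simp

end MP

/-! ## Signs -/

/-- sign character of `ZMod 2` -/
noncomputable def sg (x : ZMod 2) : ℝ := if x = 0 then 1 else -1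

@[simp] lemma sg_zero : sg 0 = 1 := by simp [sg]
@[simp] lemma sg_one : sg 1 = -1 := by simp [sg]

lemma zmod2_cases (x : ZMod 2) : x = 0 ∨ x = 1 := by
  revert x; decide

lemma sg_add (x y : ZMod 2) : sg (x + y) = sg x * sg y := by
  rcases zmod2_cases x with rfl | rfl <;> rcases zmod2_cases y with rfl | rfl <;>
    simp [sg, show (1 : ZMod 2) + 1 = 0 from by decide]

lemma sg_mul_self (x : ZMod 2) : sg x * sg x = 1 := by
  rcases zmod2_cases x with rfl | rfl <;> simp


@[simp] lemma abs_sg (x : ZMod 2) : |sg x| = 1 := by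
  rcases zmod2_cases x with rfl | rfl <;> simp


lemma avg_zmod2 {E : Type*} [AddCommGroup E] [Module ℝ E] (f : ZMod 2 → E) :
    avg f = (2 : ℝ)⁻¹ • (f 0 + f 1) := by
  have h : (Finset.univ : Finset (ZMod 2)) = {0, 1} := by decide
  simp only [avg, ZMod.card, h]
  rw [Finset.sum_pair (by decide)]
  norm_num

/-! ## Bicharacters: the Walsh pairing on products of copies of `ZMod 2` -/

/-- A finite abelian group with a `±1` valued symmetric bicharacter. -/
class BiChar (V : Type) extends AddCommGroup V where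
  /-- the pairing -/
  χ : V → V → ℝ
  χ_add_left : ∀ v v' t, χ (v + v') t = χ v t * χ v' t
  χ_symm : ∀ v t, χ v t = χ t v
  χ_mul_self : ∀ v t, χ v t * χ v t = 1

export BiChar (χ χ_add_left χ_symm χ_mul_self)

section BiChar

variable {V W : Type} [BiChar V] [BiChar W]

lemma χ_add_right (v t t' : V) : χ v (t + t') = χ v t * χ v t' := by
  rw [χ_symm, χ_add_left, χ_symm t, χ_symm t']

lemma χ_zero_left (t : V) : χ (0 : V) t = 1 := by
  have h := χ_add_left (0 : V) 0 t
  rw [add_zero] at h
  rw [h, χ_mul_self]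

lemma χ_zero_right (t : V) : χ t (0 : V) = 1 := by rw [χ_symm, χ_zero_left]

lemma abs_χ (v t : V) : |χ v t| = 1 := by
  have h := χ_mul_self v t
  have h2 : |χ v t| * |χ v t| = 1 := by rw [abs_mul_abs_self]; exact h
  nlinarith [abs_nonneg (χ v t)]

lemma χ_sum_right {ι : Type*} (s : Finset ι) (v : V) (f : ι → V) :
    χ v (∑ i ∈ s, f i) = ∏ i ∈ s, χ v (f i) := by
  classical
  induction s using Finset.induction_on with
  | empty => simp [χ_zero_right]
  | insert a s ha ih => rw [Finset.sum_insert ha, Finset.prod_insert ha, χ_add_right, ih]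

noncomputable instance : BiChar (ZMod 2) where
  χ v t := sg (v * t)
  χ_add_left v v' t := by rw [add_mul, sg_add]
  χ_symm v t := by rw [mul_comm]
  χ_mul_self v t := sg_mul_self _

noncomputable instance : BiChar (V × W) where
  χ v t := χ v.1 t.1 * χ v.2 t.2
  χ_add_left v v' t := by
    simp only [Prod.fst_add, Prod.snd_add, χ_add_left]; ring
  χ_symm v t := by rw [χ_symm v.1, χ_symm v.2]
  χ_mul_self v t := by
    have h1 := χ_mul_self v.1 t.1
    have h2 := χ_mul_self v.2 t.2
    calc χ v.1 t.1 * χ v.2 t.2 * (χ v.1 t.1 * χ v.2 t.2)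
        = (χ v.1 t.1 * χ v.1 t.1) * (χ v.2 t.2 * χ v.2 t.2) := by ring
      _ = 1 := by rw [h1, h2, one_mul]

noncomputable instance {ι : Type} [Fintype ι] : BiChar (ι → V) where
  χ v t := ∏ i, χ (v i) (t i)
  χ_add_left v v' t := by
    simp only [Pi.add_apply, χ_add_left, Finset.prod_mul_distrib]
  χ_symm v t := by simp only [χ_symm (v _)]
  χ_mul_self v t := by
    rw [← Finset.prod_mul_distrib]
    exact Finset.prod_eq_one fun i _ => χ_mul_self _ _

lemma χ_zmod2 (v t : ZMod 2) : χ v t = sg (v * t) := rfl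
lemma χ_prod (v t : V × W) : χ v t = χ v.1 t.1 * χ v.2 t.2 := rfl
lemma χ_pi {ι : Type} [Fintype ι] (v t : ι → V) : χ v t = ∏ i, χ (v i) (t i) := rfl

end BiChar

end Crest.Agent.R118.Base324
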