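import Crest.Agent.R118.Base_324

/-!
Abstract kernel norms for row 118 (S0158).
-/

namespace Crest.Agent.R118.KNorm324

open Finset Base324

/-- A "pre norm": a seminorm on all real kernels on finite types, invariant under measure
preserving pull back. -/
structure PreNorm where
  /-- the norm of a kernel -/
  ν : ∀ {A B : Type} [Fintype A] [Fintype B], (A → B → ℝ) → ℝ
  nonneg : ∀ {A B : Type} [Fintype A] [Fintype B] (κ : A → B → ℝ), 0 ≤ ν κ
  add_le : ∀ {A B : Type} [Fintype A] [Fintype B] (κ κ' : A → B → ℝ),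
    ν (fun x y => κ x y + κ' x y) ≤ ν κ + ν κ'
  smul_le : ∀ {A B : Type} [Fintype A] [Fintype B] (c : ℝ) (κ : A → B → ℝ),
    ν (fun x y => c * κ x y) ≤ |c| * ν κ
  pull : ∀ {A A' B B' : Type} [Fintype A] [Fintype A'] [Fintype B] [Fintype B']
    {φ : A' → A} {ψ : B' → B}, MP φ → MP ψ → ∀ κ : A → B → ℝ,
    ν (fun x y => κ (φ x) (ψ y)) ≤ ν κ

/-- The abstract kernel norm used in Theorem A. -/
structure KNorm (β a as : ℝ) (L M : ℕ) extends PreNorm where
  unim : ∀ {A B : Type} [Fintype A] [Fintype B] (u : A → ℝ) (w : B → ℝ),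
    (∀ x, |u x| ≤ 1) → (∀ y, |w y| ≤ 1) → ∀ κ : A → B → ℝ,
    ν (fun x y => u x * κ x y * w y) ≤ ν κ
  schur : ∀ {A B D E : Type} [Fintype A] [Fintype B] [Fintype D] [Fintype E]
    (w : D → E → ℝ), (∀ d e, 0 ≤ w d e) → (∀ e, avg (fun d => w d e) = 1) →
    (∀ d, avg (fun e => w d e) = 1) →
    ∀ (κ : D → E → A → B → ℝ) (c : ℝ), 0 ≤ c → (∀ d e, ν (κ d e) ≤ c) →
    ν (fun (x : D × A) (y : E × B) => w x.1 y.1 * κ x.1 y.1 x.2 y.2) ≤ c
  tensor : ∀ {A B A' B' : Type} [Fintype A] [Fintype B] [Fintype A'] [Fintype B']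
    (κ : A → B → ℝ) (κ' : A' → B' → ℝ),
    ν (fun (x : A × A') (y : B × B') => κ x.1 y.1 * κ' x.2 y.2) ≤ ν κ * ν κ'
  one : ν (fun (_ _ : Unit) => (1 : ℝ)) ≤ 1
  walsh : ν (fun x y : ZMod 2 => χ x y) ≤ β
  cot : ∀ {A B B' : Type} [Fintype A] [Fintype B] [Fintype B'] (ψ : Fin L → B' → B),
    (∀ j, MP (ψ j)) → ∀ κ : A → B → ℝ,
    a * ν κ ≤ ν (fun x (y : B' × (Fin L → ZMod 2)) => ∑ j, sg (y.2 j) * κ x (ψ j y.1))
  lift : ∀ {A A' B : Type} [Fintype A] [Fintype A'] [Fintype B] (φ : Fin M → A' → A),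
    (∀ l, MP (φ l)) → ∀ κ : A → B → ℝ,
    as * ν κ ≤ ν (fun (x : A' × (Fin M → ZMod 2)) y => ∑ l, sg (x.2 l) * κ (φ l x.1) y)

namespace PreNorm

variable (K : PreNorm)
variable {A B A' B' : Type} [Fintype A] [Fintype B] [Fintype A'] [Fintype B']

lemma zero : K.ν (fun (_ : A) (_ : B) => (0 : ℝ)) = 0 := by
  apply le_antisymm _ (K.nonneg _)
  have h := K.smul_le 0 (fun (_ : A) (_ : B) => (0 : ℝ))
  simpa using h

lemma neg_le (κ : A → B → ℝ) : K.ν (fun x y => - κ x y) ≤ K.ν κ := by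
  have h := K.smul_le (-1) κ
  simpa using h

lemma sub_le (κ κ' : A → B → ℝ) : K.ν (fun x y => κ x y - κ' x y) ≤ K.ν κ + K.ν κ' := by
  have h := K.add_le κ (fun x y => - κ' x y)
  have h2 := K.neg_le κ'
  simp only [sub_eq_add_neg]
  linarith

lemma sum_le {ι : Type*} (s : Finset ι) (κ : ι → A → B → ℝ) :
    K.ν (fun x y => ∑ i ∈ s, κ i x y) ≤ ∑ i ∈ s, K.ν (κ i) := by
  classical
  induction s using Finset.induction_on with
  | empty => simp [K.zero]
  | insert i s hi ih =>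
    simp only [Finset.sum_insert hi]
    exact (K.add_le _ _).trans (by gcongr)


/-- triangle inequality from below -/
lemma le_add_sub (κ κ' : A → B → ℝ) : K.ν κ ≤ K.ν κ' + K.ν (fun x y => κ x y - κ' x y) := by
  have h := K.add_le κ' (fun x y => κ x y - κ' x y)
  simpa using h

end PreNorm

namespace KNorm

variable {β a as : ℝ} {L M : ℕ} (K : KNorm β a as L M)
variable {A B A' B' D E : Type} [Fintype A] [Fintype B] [Fintype A'] [Fintype B'] [Fintype D]
  [Fintype E]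

/-- multiplication by signs of one side, exact invariance is not needed -/
lemma unim_left (u : A → ℝ) (hu : ∀ x, |u x| ≤ 1) (κ : A → B → ℝ) :
    K.ν (fun x y => u x * κ x y) ≤ K.ν κ := by
  have h := K.unim u (fun _ => 1) hu (fun _ => by simp) κ
  simpa using h

lemma unim_right (w : B → ℝ) (hw : ∀ y, |w y| ≤ 1) (κ : A → B → ℝ) :
    K.ν (fun x y => κ x y * w y) ≤ K.ν κ := by
  have h := K.unim (fun _ => 1) w (fun _ => by simp) hw κ
  simpa using h



end KNorm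

end Crest.Agent.R118.KNorm324
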