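import Crest.Agent.R118.Layer_408
import Crest.Agent.R118.Lift_361
import Mathlib
import Crest.Agent.R118.LayerNu_408
import Crest.Agent.R118.Glue_324
import Crest.Agent.R118.EndScalar_827
import Crest.Agent.R118.Base_324
import Crest.Prelude.Def_Rademacher

-- ▼ part R118/Layer2_130
section

/-!
Row 118 (S0158), analytic layer, part 2: the cotype step, the lifting step and the finite rank
bound at the level of a single operator `T`.
-/

set_option autoImplicit false

namespace Crest.Agent.R118.Layer2x130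

open Finset Base324 Lift361 Layer408 Crest.AnalysisR

/-! ## Conversion between `Bool` and `ZMod 2` -/

/-- `true ↦ 0`, `false ↦ 1`. -/
def bz : Bool ≃ ZMod 2 where
  toFun b := if b then 0 else 1
  invFun x := decide (x = 0)
  left_inv b := by cases b <;> simp
  right_inv x := by rcases zmod2_cases x with rfl | rfl <;> simp

lemma sg_bz (b : Bool) : sg (bz b) = signVal b := by
  cases b <;> simp [bz, signVal]

/-- the induced equivalence of cubes -/
def bzPi (n : ℕ) : (Fin n → Bool) ≃ (Fin n → ZMod 2) := Equiv.piCongrRight fun _ => bz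

lemma bzPi_apply {n : ℕ} (η : Fin n → Bool) (i : Fin n) : bzPi n η i = bz (η i) := rfl

lemma avg_bzPi {E : Type*} [AddCommGroup E] [Module ℝ E] {n : ℕ} (g : (Fin n → ZMod 2) → E) :
    avg g = ((2 : ℝ) ^ n)⁻¹ • ∑ η : Fin n → Bool, g (bzPi n η) := by
  rw [← avg_equiv (bzPi n) g, avg_def]
  simp

/-- `ZMod 2` form of the cotype inequality -/
theorem hasCot_zmod2 {Y : Type*} [NormedAddCommGroup Y] [NormedSpace ℝ Y] {L : ℕ} {a : ℝ}
    (h : HasCot Y L a) (y : Fin L → Y) :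
    a ^ 2 * avg (fun l => ‖y l‖ ^ 2) ≤
      avg fun η : Fin L → ZMod 2 => ‖∑ l, sg (η l) • y l‖ ^ 2 := by
  have h1 := h y
  rw [avg_bzPi]
  simp only [avg_def, Fintype.card_fin, smul_eq_mul, bzPi_apply, sg_bz]
  exact h1

/-- `ZMod 2` form of the lifting property -/
theorem hasLift_zmod2 {X : Type*} [NormedAddCommGroup X] [NormedSpace ℝ X] {M : ℕ} {b : ℝ}
    (h : HasLift X M b) (z : Fin M → X) :
    ∃ F : (Fin M → ZMod 2) → X, (∀ i, avg (fun η => sg (η i) • F η) = z i) ∧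
      avg (fun η => ‖F η‖ ^ 2) ≤ b ^ 2 * avg (fun j => ‖z j‖ ^ 2) := by
  obtain ⟨F, hF1, hF2⟩ := h z
  refine ⟨fun η => F ((bzPi M).symm η), fun i => ?_, ?_⟩
  · rw [avg_bzPi, ← hF1 i]
    simp only [Equiv.symm_apply_apply, bzPi_apply, sg_bz, coef]
  · rw [avg_bzPi]
    simp only [Equiv.symm_apply_apply, avg_def, Fintype.card_fin, smul_eq_mul]
    exact hF2

/-! ## Vector valued measure preservation -/

lemma MP_vec {A' A : Type} [Fintype A'] [Fintype A] {φ : A' → A} (h : MP φ)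
    {E : Type*} [AddCommGroup E] [Module ℝ E] (g : A → E) :
    avg (fun a' => g (φ a')) = avg g := by
  classical
  have h1 : ∑ a', g (φ a') = ∑ a, ((univ.filter fun a' => φ a' = a).card : ℝ) • g a := by
    rw [← Finset.sum_fiberwise univ φ (fun a' => g (φ a'))]
    refine Finset.sum_congr rfl fun a _ => ?_
    rw [Finset.sum_congr rfl (g := fun _ => g a)
      (fun x hx => by rw [(Finset.mem_filter.mp hx).2])]
    rw [Finset.sum_const, Nat.cast_smul_eq_nsmul]
  rw [avg_def, avg_def, h1, Finset.smul_sum, Finset.smul_sum]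
  refine Finset.sum_congr rfl fun a _ => ?_
  rw [smul_smul, h.card_fibre a]

/-! ## The two steps -/

section Steps

variable {X Y : Type*} [NormedAddCommGroup X] [NormedSpace ℝ X]
  [NormedAddCommGroup Y] [NormedSpace ℝ Y]

/-- cotype step, for one function `f`. -/
theorem cot_step {L : ℕ} {a : ℝ} (hY : HasCot Y L a) (hL : 0 < L) (T : X →L[ℝ] Y)
    {A B B' : Type} [Fintype A] [Fintype B] [Fintype B']
    (ψ : Fin L → B' → B) (hψ : ∀ j, MP (ψ j)) (κ : A → B → ℝ) (f : A → X) :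
    a ^ 2 * msq (act T κ f) ≤
      msq (act T (fun x (y : B' × (Fin L → ZMod 2)) => ∑ j, sg (y.2 j) * κ x (ψ j y.1)) f) := by
  have : Nonempty (Fin L) := ⟨⟨0, hL⟩⟩
  set u : B → Y := act T κ f with hu
  have e1 : ∀ (b' : B') (η : Fin L → ZMod 2),
      act T (fun x (y : B' × (Fin L → ZMod 2)) => ∑ j, sg (y.2 j) * κ x (ψ j y.1)) f (b', η) =
        ∑ j, sg (η j) • u (ψ j b') := by
    intro b' η
    simp only [hu, act, Finset.sum_smul, mul_smul]
    rw [avg_sum]
    refine Finset.sum_congr rfl fun j _ => ?_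
    rw [avg_smul]
  have e2 : msq (act T (fun x (y : B' × (Fin L → ZMod 2)) => ∑ j, sg (y.2 j) * κ x (ψ j y.1)) f) =
      avg fun b' => avg fun η : Fin L → ZMod 2 => ‖∑ j, sg (η j) • u (ψ j b')‖ ^ 2 := by
    unfold msq
    rw [avg_prod']
    simp only [e1]
  have e3 : a ^ 2 * msq u =
      avg fun b' => a ^ 2 * avg fun j => ‖u (ψ j b')‖ ^ 2 := by
    unfold msq
    rw [avg_mul_left, avg_comm]
    congr 1
    have : ∀ j, (avg fun b' => ‖u (ψ j b')‖ ^ 2) = avg fun b => ‖u b‖ ^ 2 :=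
      fun j => hψ j (fun b => ‖u b‖ ^ 2)
    simp only [this]
    rw [avg_const]
  rw [e2, e3]
  exact avg_mono fun b' => hasCot_zmod2 hY fun j => u (ψ j b')

/-- lifting step, for one function `f`. -/
theorem lift_step {M : ℕ} {b : ℝ} (hX : HasLift X M b) (hM : 0 < M) (T : X →L[ℝ] Y)
    {A A' B : Type} [Fintype A] [Fintype A'] [Fintype B]
    (φ : Fin M → A' → A) (hφ : ∀ l, MP (φ l)) (κ : A → B → ℝ) (f : A → X) :
    ∃ F : A' × (Fin M → ZMod 2) → X,
      (∀ y, act T (fun (x : A' × (Fin M → ZMod 2)) y => ∑ l, sg (x.2 l) * κ (φ l x.1) y) F y =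
        (M : ℝ) • act T κ f y) ∧
      msq F ≤ b ^ 2 * msq f := by
  have : Nonempty (Fin M) := ⟨⟨0, hM⟩⟩
  choose F hF1 hF2 using fun a' : A' => hasLift_zmod2 hX (fun l => f (φ l a'))
  refine ⟨fun x => F x.1 x.2, fun y => ?_, ?_⟩
  · unfold act
    rw [avg_prod (fun (a' : A') (η : Fin M → ZMod 2) =>
      (∑ l, sg (η l) * κ (φ l a') y) • T (F a' η))]
    have e1 : ∀ a', (avg fun η : Fin M → ZMod 2 =>
        (∑ l, sg (η l) * κ (φ l a') y) • T (F a' η)) =
        ∑ l, κ (φ l a') y • T (f (φ l a')) := by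
      intro a'
      simp only [Finset.sum_smul]
      rw [avg_sum]
      refine Finset.sum_congr rfl fun l _ => ?_
      have e0 : T (avg fun η => sg (η l) • F a' η) = avg fun η => T (sg (η l) • F a' η) :=
        map_avg (T : X →ₗ[ℝ] Y) _
      rw [← hF1 a' l, e0, ← avg_smul]
      congr 1
      funext η
      rw [map_smul, smul_smul, mul_comm]
    simp only [e1]
    rw [avg_sum]
    have e2 : ∀ l, (avg fun a' => κ (φ l a') y • T (f (φ l a'))) =
        avg fun x => κ x y • T (f x) := fun l => MP_vec (hφ l) (fun x => κ x y • T (f x))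
    simp only [e2]
    rw [Finset.sum_const, Finset.card_univ, Fintype.card_fin, Nat.cast_smul_eq_nsmul]
  · unfold msq
    rw [avg_prod (fun (a' : A') (η : Fin M → ZMod 2) => ‖F a' η‖ ^ 2)]
    calc (avg fun a' => avg fun η => ‖F a' η‖ ^ 2)
        ≤ avg fun a' => b ^ 2 * avg fun l => ‖f (φ l a')‖ ^ 2 := avg_mono hF2
      _ = b ^ 2 * avg (fun x => ‖f x‖ ^ 2) := by
          rw [avg_mul_left, avg_comm]
          congr 1
          have : ∀ l, (avg fun a' => ‖f (φ l a')‖ ^ 2) = avg fun x => ‖f x‖ ^ 2 :=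
            fun l => hφ l (fun x => ‖f x‖ ^ 2)
          simp only [this]
          rw [avg_const]

/-- (P6) the cotype step. (For `L = 0` the statement is false, so `0 < L` is needed.) -/
theorem NT_cot {L : ℕ} {a : ℝ} (ha : 0 ≤ a) (hL : 0 < L) (T : X →L[ℝ] Y) (hcot : HasCot Y L a)
    {A B B' : Type} [Fintype A] [Fintype B] [Fintype B']
    (ψ : Fin L → B' → B) (hψ : ∀ j, MP (ψ j)) (κ : A → B → ℝ) :
    a * NT T κ ≤ NT T (fun x (y : B' × (Fin L → ZMod 2)) => ∑ j, sg (y.2 j) * κ x (ψ j y.1)) := by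
  rcases eq_or_lt_of_le ha with h0 | h0
  · rw [← h0, zero_mul]
    exact NT_nonneg _ _
  · set κ₂ : A → B' × (Fin L → ZMod 2) → ℝ :=
      (fun x (y : B' × (Fin L → ZMod 2)) => ∑ j, sg (y.2 j) * κ x (ψ j y.1)) with hκ₂
    have h : NB T κ (NT T κ₂ / a) := by
      intro f
      have h1 := cot_step hcot hL T ψ hψ κ f
      have h2 := NB_NT T κ₂ f
      have ha2 : 0 < a ^ 2 := by positivity
      rw [div_pow, div_mul_eq_mul_div, le_div_iff₀ ha2, mul_comm]
      exact h1.trans h2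
    have h3 := NT_le (div_nonneg (NT_nonneg _ _) ha) h
    rwa [le_div_iff₀ h0, mul_comm] at h3

/-- (P7) the lifting step. -/
theorem NT_lift {M : ℕ} {b : ℝ} (hb : 0 < b) (hM : 0 < M) (T : X →L[ℝ] Y) (hlift : HasLift X M b)
    {A A' B : Type} [Fintype A] [Fintype A'] [Fintype B]
    (φ : Fin M → A' → A) (hφ : ∀ l, MP (φ l)) (κ : A → B → ℝ) :
    ((M : ℝ) / b) * NT T κ ≤
      NT T (fun (x : A' × (Fin M → ZMod 2)) y => ∑ l, sg (x.2 l) * κ (φ l x.1) y) := by
  have hM' : (0 : ℝ) < M := by exact_mod_cast hM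
  set κ₂ : A' × (Fin M → ZMod 2) → B → ℝ :=
    (fun (x : A' × (Fin M → ZMod 2)) y => ∑ l, sg (x.2 l) * κ (φ l x.1) y) with hκ₂
  have h : NB T κ (NT T κ₂ * b / M) := by
    intro f
    obtain ⟨F, hF1, hF2⟩ := lift_step hlift hM T φ hφ κ f
    have h1 := NB_NT T κ₂ F
    have e : msq (act T κ₂ F) = (M : ℝ) ^ 2 * msq (act T κ f) := by
      have : act T κ₂ F = fun y => (M : ℝ) • act T κ f y := funext hF1
      rw [this, msq_smul]
    rw [e] at h1
    have h2 : NT T κ₂ ^ 2 * msq F ≤ NT T κ₂ ^ 2 * (b ^ 2 * msq f) :=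
      mul_le_mul_of_nonneg_left hF2 (sq_nonneg _)
    have hM2 : (0 : ℝ) < (M : ℝ) ^ 2 := by positivity
    rw [div_pow, div_mul_eq_mul_div, le_div_iff₀ hM2]
    calc msq (act T κ f) * (M : ℝ) ^ 2 = (M : ℝ) ^ 2 * msq (act T κ f) := mul_comm _ _
      _ ≤ _ := h1.trans h2
      _ = _ := by ring
  have h3 := NT_le (by have := NT_nonneg T κ₂; positivity) h
  rw [le_div_iff₀ hM'] at h3
  rw [div_mul_eq_mul_div, div_le_iff₀ hb, mul_comm (M : ℝ)]
  exact h3

end Steps

/-! ## The finite rank bound -/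

section Finite

/-- orthogonality of characters of `ι → ZMod 2`. -/
lemma avg_χ_eq_zero {ι : Type} [Fintype ι] [DecidableEq ι] {v : ι → ZMod 2} (hv : v ≠ 0) :
    (avg fun t : ι → ZMod 2 => χ v t) = 0 := by
  obtain ⟨i, hi⟩ := Function.ne_iff.mp hv
  have hi' : v i = 1 := by
    rcases zmod2_cases (v i) with h | h
    · exact absurd h hi
    · exact h
  have h1 := avg_equiv (Equiv.addRight (Pi.single i (1 : ZMod 2))) (fun t : ι → ZMod 2 => χ v t)
  have h2 : ∀ t : ι → ZMod 2, χ v (t + Pi.single i (1 : ZMod 2)) = (-1) * χ v t := by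
    intro t
    rw [χ_add_right]
    have : χ v (Pi.single i (1 : ZMod 2)) = -1 := by
      rw [χ_pi, Finset.prod_eq_single i]
      · simp [hi', χ_zmod2]
      · intro k _ hk
        simp [Pi.single_eq_of_ne hk, χ_zero_right]
      · simp
    rw [this]; ring
  simp only [Equiv.coe_addRight, h2] at h1
  rw [avg_mul_left] at h1
  linarith

lemma avg_χ_mul {ι : Type} [Fintype ι] [DecidableEq ι] (v w : ι → ZMod 2) :
    (avg fun t : ι → ZMod 2 => χ v t * χ w t) = if v = w then 1 else 0 := by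
  by_cases h : v = w
  · subst h
    rw [if_pos rfl]
    simp only [χ_mul_self]
    exact avg_const _
  · rw [if_neg h]
    simp only [← χ_add_left]
    apply avg_χ_eq_zero
    intro h0
    apply h
    funext i
    have := congrFun h0 i
    simp only [Pi.add_apply, Pi.zero_apply] at this
    rcases zmod2_cases (v i) with h1 | h1 <;> rcases zmod2_cases (w i) with h2 | h2 <;>
      rw [h1, h2] at this ⊢ <;> simp at this

/-- Parseval for the kernel `χ` on `ι → ZMod 2`. -/
lemma parseval {ι : Type} [Fintype ι] [DecidableEq ι] (g : (ι → ZMod 2) → ℝ) :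
    (avg fun t : ι → ZMod 2 => (avg fun v => χ v t * g v) ^ 2) =
      ((2 : ℝ) ^ Fintype.card ι)⁻¹ * avg fun v => g v ^ 2 := by
  have e1 : ∀ t : ι → ZMod 2, (avg fun v => χ v t * g v) ^ 2 =
      avg fun v => avg fun w => (g v * g w) * (χ v t * χ w t) := by
    intro t
    rw [pow_two, ← avg_mul_right]
    congr 1
    funext v
    rw [← avg_mul_left]
    congr 1
    funext w
    ring
  simp only [e1]
  rw [avg_comm]
  have e2 : ∀ v : ι → ZMod 2, (avg fun t : ι → ZMod 2 => avg fun w : ι → ZMod 2 =>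
      (g v * g w) * (χ v t * χ w t)) = ((2 : ℝ) ^ Fintype.card ι)⁻¹ * g v ^ 2 := by
    intro v
    rw [avg_comm]
    simp only [avg_mul_left, avg_χ_mul]
    rw [avg_def]
    simp only [mul_ite, mul_one, mul_zero, Finset.sum_ite_eq, Finset.mem_univ, if_true,
      Fintype.card_pi, ZMod.card, Finset.prod_const, Finset.card_univ, smul_eq_mul]
    push_cast
    ring
  simp only [e2, avg_mul_left]

/-- scalar bound for `tens (V j) κ`. -/
lemma scalar_bound (j : ℕ) {A B : Type} [Fintype A] [Fintype B] (κ : A → B → ℝ)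
    (g : (Fin j → ZMod 2) × A → ℝ) :
    (avg fun y : (Fin j → ZMod 2) × B => (avg fun x : (Fin j → ZMod 2) × A =>
      tens (V j) κ x y * g x) ^ 2) ≤
      (((Real.sqrt 2)⁻¹ ^ j) * hs κ) ^ 2 * avg fun x => g x ^ 2 := by
  rw [avg_prod']
  have e1 : ∀ (t : Fin j → ZMod 2) (b : B), (avg fun x : (Fin j → ZMod 2) × A =>
      (tens (V j) κ x (t, b)) * g x) =
      avg fun a => κ a b * avg fun v => χ v t * g (v, a) := by
    intro t b
    rw [avg_prod', avg_comm]
    congr 1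
    funext a
    rw [← avg_mul_left]
    congr 1
    funext v
    simp only [tens, V]
    ring
  simp only [e1]
  have e3 : (((Real.sqrt 2)⁻¹ ^ j) * hs κ) ^ 2 =
      ((2 : ℝ) ^ j)⁻¹ * avg fun b => avg fun a => κ a b ^ 2 := by
    rw [mul_pow, hs, Real.sq_sqrt (avg_nonneg fun _ => avg_nonneg fun _ => sq_nonneg _), ← pow_mul,
      mul_comm j 2, pow_mul, inv_pow, Real.sq_sqrt (by norm_num), inv_pow]
  rw [e3]
  calc (avg fun t : Fin j → ZMod 2 => avg fun b =>
        (avg fun a => κ a b * avg fun v => χ v t * g (v, a)) ^ 2)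
      ≤ avg fun t : Fin j → ZMod 2 => avg fun b => (avg fun a => κ a b ^ 2) *
          avg fun a => (avg fun v => χ v t * g (v, a)) ^ 2 :=
        avg_mono fun t => avg_mono fun b => avg_mul_sq_le _ _
    _ = avg fun t : Fin j → ZMod 2 => (avg fun b => avg fun a => κ a b ^ 2) *
          avg fun a => (avg fun v => χ v t * g (v, a)) ^ 2 := by
        simp only [avg_mul_right]
    _ = (avg fun b => avg fun a => κ a b ^ 2) * avg fun a => avg fun t : Fin j → ZMod 2 =>
          (avg fun v => χ v t * g (v, a)) ^ 2 := by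
        rw [avg_mul_left,
          avg_comm (fun (t : Fin j → ZMod 2) (a : A) => (avg fun v => χ v t * g (v, a)) ^ 2)]
    _ = (avg fun b => avg fun a => κ a b ^ 2) * avg fun a => ((2 : ℝ) ^ j)⁻¹ *
          avg fun v => g (v, a) ^ 2 := by
        simp only [parseval (fun v => g (v, _)), Fintype.card_fin]
    _ = _ := by
        rw [avg_mul_left, avg_prod', avg_comm (fun (a : Fin j → ZMod 2) (b : A) => g (a, b) ^ 2)]
        ring

variable {X Y : Type*} [NormedAddCommGroup X] [NormedSpace ℝ X]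
  [NormedAddCommGroup Y] [NormedSpace ℝ Y]

/-- A continuous linear map of finite rank is a finite sum of rank one maps. -/
lemma exists_rank_one_sum (T : X →L[ℝ] Y)
    (hfin : FiniteDimensional ℝ (LinearMap.range (T : X →ₗ[ℝ] Y))) :
    ∃ (d : ℕ) (φ : Fin d → StrongDual ℝ X) (y : Fin d → Y), ∀ x, T x = ∑ i, φ i x • y i := by
  let b := Module.finBasis ℝ (LinearMap.range (T : X →ₗ[ℝ] Y))
  let R : X →L[ℝ] LinearMap.range (T : X →ₗ[ℝ] Y) :=
    T.codRestrict _ fun x => LinearMap.mem_range_self (T : X →ₗ[ℝ] Y) x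
  refine ⟨_, fun i => (LinearMap.toContinuousLinearMap (b.coord i)).comp R, fun i => (b i : Y),
    fun x => ?_⟩
  have h := b.sum_repr (R x)
  have h2 := congrArg (Subtype.val) h
  rw [AddSubmonoidClass.coe_finsetSum] at h2
  simp only [SetLike.val_smul] at h2
  have h3 : ((R x : LinearMap.range (T : X →ₗ[ℝ] Y)) : Y) = T x := rfl
  rw [← h3, ← h2]
  rfl

/-- the finite rank bound -/
theorem NT_V_tens_le (T : X →L[ℝ] Y)
    (hfin : FiniteDimensional ℝ (LinearMap.range (T : X →ₗ[ℝ] Y))) :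
    ∃ G : ℝ, 0 ≤ G ∧ ∀ (j : ℕ) (A B : Type) [Fintype A] [Fintype B] (κ : A → B → ℝ),
      NT T (tens (V j) κ) ≤ G * (Real.sqrt 2)⁻¹ ^ j * hs κ := by
  obtain ⟨d, φ, y, hT⟩ := exists_rank_one_sum T hfin
  refine ⟨Real.sqrt ((∑ i, ‖φ i‖ ^ 2) * ∑ i, ‖y i‖ ^ 2), Real.sqrt_nonneg _,
    fun j A B _ _ κ => ?_⟩
  have hG : 0 ≤ (∑ i, ‖φ i‖ ^ 2) * ∑ i, ‖y i‖ ^ 2 := by positivity
  refine NT_le (by have := hs_nonneg κ; positivity) fun f => ?_
  set K : (Fin j → ZMod 2) × A → (Fin j → ZMod 2) × B → ℝ := tens (V j) κ with hK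
  have e1 : ∀ b, act T K f b = ∑ i, (avg fun x => K x b * φ i (f x)) • y i := by
    intro b
    simp only [act, hT, Finset.smul_sum, smul_smul]
    rw [avg_sum]
    refine Finset.sum_congr rfl fun i _ => ?_
    rw [avg_smul_const]
  have e2 : ∀ b, ‖act T K f b‖ ^ 2 ≤
      (∑ i, (avg fun x => K x b * φ i (f x)) ^ 2) * ∑ i, ‖y i‖ ^ 2 := by
    intro b
    rw [e1]
    have h1 : ‖∑ i, (avg fun x => K x b * φ i (f x)) • y i‖ ≤
        ∑ i, |avg fun x => K x b * φ i (f x)| * ‖y i‖ := by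
      refine (norm_sum_le _ _).trans (le_of_eq ?_)
      refine Finset.sum_congr rfl fun i _ => ?_
      rw [norm_smul, Real.norm_eq_abs]
    have h2 := Finset.sum_mul_sq_le_sq_mul_sq Finset.univ
      (fun i => |avg fun x => K x b * φ i (f x)|) (fun i => ‖y i‖)
    simp only [sq_abs] at h2
    exact (pow_le_pow_left₀ (norm_nonneg _) h1 2).trans h2
  have e3 : msq (act T K f) ≤ avg fun b =>
      (∑ i, (avg fun x => K x b * φ i (f x)) ^ 2) * ∑ i, ‖y i‖ ^ 2 := avg_mono e2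
  refine e3.trans ?_
  rw [avg_mul_right, avg_sum]
  have e4 : ∀ i, (avg fun b => (avg fun x => K x b * φ i (f x)) ^ 2) ≤
      (((Real.sqrt 2)⁻¹ ^ j) * hs κ) ^ 2 * (‖φ i‖ ^ 2 * msq f) := by
    intro i
    refine (scalar_bound j κ (fun x => φ i (f x))).trans ?_
    refine mul_le_mul_of_nonneg_left ?_ (sq_nonneg _)
    unfold msq
    rw [← avg_mul_left]
    refine avg_mono fun x => ?_
    rw [← mul_pow, ← sq_abs]
    exact pow_le_pow_left₀ (abs_nonneg _) ((φ i).le_opNorm _) 2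
  calc (∑ i, avg fun b => (avg fun x => K x b * φ i (f x)) ^ 2) * ∑ i, ‖y i‖ ^ 2
      ≤ (∑ i, (((Real.sqrt 2)⁻¹ ^ j) * hs κ) ^ 2 * (‖φ i‖ ^ 2 * msq f)) * ∑ i, ‖y i‖ ^ 2 := by
        refine mul_le_mul_of_nonneg_right (Finset.sum_le_sum fun i _ => e4 i) (by positivity)
    _ = _ := by
        rw [← Finset.mul_sum, ← Finset.sum_mul, mul_assoc (Real.sqrt _), mul_pow (Real.sqrt _),
          Real.sq_sqrt hG]
        ring

end Finite

end Crest.Agent.R118.Layer2x130
end

-- ▼ part R118/LayerFinal_408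
section

/-!
Row 118 (S0158). Analytic layer, final statement in the shape `hLayer` of `Glue_324`.
-/

set_option autoImplicit false
set_option linter.unusedVariables false

namespace Crest.Agent.R118.LayerFinal408

open Finset Base324 KNorm324 Lift361 Glue324 Layer408 LayerNu408

universe u

theorem hLayer (β a as : ℝ) (L M n0 : ℕ) (hβ0 : 0 < β) (hβ1 : β < 1) (hβ2 : 1 / 2 ≤ β ^ 2)
    (ha : 0 < a) (has : 0 < as) (hL : 0 < L) (hM : 0 < M)
    (hn0 : ∀ K : KNorm β a as L M,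
      K.ν (fun x y : Fin n0 → ZMod 2 => χ x y) ≤ 1 / 2 * β ^ n0)
    (Z : Type u) (X : Type u) [NormedAddCommGroup Z] [NormedSpace ℝ Z] [NormedAddCommGroup X]
    [NormedSpace ℝ X] (T : Z →L[ℝ] X)
    (hT : FiniteDimensional ℝ (LinearMap.range (T : Z →ₗ[ℝ] X)))
    (hLift : HasLift Z M (M / as)) (hCot : HasCot X L a) :
    WalshZ (T : Z →ₗ[ℝ] X) ((β ^ n0)⁻¹ * ‖T‖) β := by
  have hβ : (Real.sqrt 2)⁻¹ ≤ β := by
    rw [inv_le_comm₀ (by positivity) hβ0]
    apply Real.le_sqrt_of_sq_le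
    rw [inv_pow, inv_le_comm₀ (by positivity) (by norm_num)]
    norm_num at hβ2 ⊢
    exact hβ2
  obtain ⟨G, hG0, hG⟩ := Layer2x130.NT_V_tens_le T hT
  have hG' : HasGamma T G := fun j A B _ _ κ => hG j A B κ
  have hM' : (0 : ℝ) < M := by exact_mod_cast hM
  have hc : NTCot T L a := fun {A B B'} _ _ _ ψ hψ κ =>
    Layer2x130.NT_cot ha.le hL T hCot ψ hψ κ
  have hl : NTLift T M as := fun {A A' B} _ _ _ φ hφ κ => by
    have h := Layer2x130.NT_lift (b := M / as) (by positivity) hM T hLift φ hφ κ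
    have e : (M : ℝ) / (M / as) = as := by field_simp
    rwa [e] at h
  have h0 := hn0 (clsNorm T β G a as L M hG' hβ ha has hc hl)
  have h1 : nu T β (V n0) ≤ 1 / 2 * β ^ n0 := h0
  intro j f
  have h2 := NT_V_le hG' hβ hβ1.le n0 h1 j
  have h3 := (NB_NT T (V j)).mono (NT_nonneg _ _) h2 f
  exact h3

end Crest.Agent.R118.LayerFinal408
end

-- ▼ part R118/EndCube_827
section

set_option linter.unusedSectionVars false

open Finset
open Crest.Agent.R118.Base324

namespace Crest.Agent.R118.Endgame827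

section Cube

variable {ι : Type} [Fintype ι] [DecidableEq ι]
variable {X Y : Type*} [NormedAddCommGroup X] [NormedSpace ℝ X] [NormedAddCommGroup Y]
  [NormedSpace ℝ Y]

/-- Walsh functions -/
noncomputable def w (S : Finset ι) (ε : ι → ZMod 2) : ℝ := ∏ i ∈ S, sg (ε i)

/-- Walsh coefficients -/
noncomputable def co (S : Finset ι) (F : (ι → ZMod 2) → Y) : Y := avg fun η => w S η • F η

/-- Fourier multiplier -/
noncomputable def Mm (m : Finset ι → ℝ) (F : (ι → ZMod 2) → Y) (ε : ι → ZMod 2) : Y :=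
  ∑ S : Finset ι, (m S * w S ε) • co S F

theorem sum_w_mul (ε η : ι → ZMod 2) :
    ∑ S : Finset ι, w S ε * w S η = if ε = η then (2:ℝ) ^ Fintype.card ι else 0 := by
  have h1 : ∑ S : Finset ι, w S ε * w S η = ∏ i, (1 + sg (ε i) * sg (η i)) := by
    rw [Finset.prod_one_add]
    rw [← Finset.powerset_univ]
    refine Finset.sum_congr rfl (fun S _ => ?_)
    simp only [w, Finset.prod_mul_distrib]
  rw [h1]
  split_ifs with h
  · subst h
    simp only [sg_mul_self]
    rw [Finset.prod_const, Finset.card_univ]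
    norm_num
  · obtain ⟨i, hi⟩ := Function.ne_iff.mp h
    apply Finset.prod_eq_zero (Finset.mem_univ i)
    rcases zmod2_cases (ε i) with h1 | h1 <;> rcases zmod2_cases (η i) with h2 | h2
    · exact absurd (h1.trans h2.symm) hi
    · rw [h1, h2]; simp
    · rw [h1, h2]; simp
    · exact absurd (h1.trans h2.symm) hi

theorem inversion (F : (ι → ZMod 2) → Y) (ε : ι → ZMod 2) :
    ∑ S : Finset ι, w S ε • co S F = F ε := by
  have h1 : ∑ S : Finset ι, w S ε • co S F = avg fun η => (∑ S : Finset ι, w S ε * w S η) • F η := by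
    unfold co
    simp only [← avg_smul, smul_smul, Finset.sum_smul]
    rw [← avg_sum]
  rw [h1]
  simp only [sum_w_mul, avg]
  have hc : Fintype.card (ι → ZMod 2) = 2 ^ Fintype.card ι := by
    simp [ZMod.card]
  rw [hc]
  simp only [ite_smul, zero_smul, Finset.sum_ite_eq, Finset.mem_univ, if_true]
  rw [smul_smul]
  push_cast
  rw [inv_mul_cancel₀ (by positivity), one_smul]

theorem avg_w (S : Finset ι) : avg (fun ε : ι → ZMod 2 => w S ε) = if S = ∅ then 1 else 0 := by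
  split_ifs with h
  · subst h
    simp only [w, Finset.prod_empty]
    exact avg_const _
  · obtain ⟨i, hi⟩ := Finset.nonempty_iff_ne_empty.mpr h
    -- translate coordinate i by one
    have h1 : avg (fun ε : ι → ZMod 2 => w S ε) =
        avg (fun ε : ι → ZMod 2 => w S (ε + Pi.single i 1)) :=
      (avg_equiv (Equiv.addRight (Pi.single i 1)) (fun ε : ι → ZMod 2 => w S ε)).symm
    have h2 : ∀ ε : ι → ZMod 2, w S (ε + Pi.single i 1) = - w S ε := by
      intro ε
      unfold w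
      rw [← Finset.mul_prod_erase _ _ hi, ← Finset.mul_prod_erase _ (fun j => sg (ε j)) hi]
      have h3 : ∏ j ∈ S.erase i, sg ((ε + Pi.single i 1 : ι → ZMod 2) j) = ∏ j ∈ S.erase i, sg (ε j) := by
        refine Finset.prod_congr rfl (fun j hj => ?_)
        have : j ≠ i := Finset.ne_of_mem_erase hj
        simp [Pi.single_eq_of_ne this]
      rw [h3]
      simp [sg_add]
    simp only [h2, avg_neg] at h1
    linarith

/-- indicator of disjointness -/
noncomputable def dj (A S : Finset ι) : ℝ := if Disjoint A S then 1 else 0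

/-- resample the coordinates in `A` -/
def mix (A : Finset ι) (η ε : ι → ZMod 2) : ι → ZMod 2 := fun i => if i ∈ A then η i else ε i

theorem w_mix (A S : Finset ι) (η ε : ι → ZMod 2) :
    w S (mix A η ε) = w (S ∩ A) η * w (S \ A) ε := by
  unfold w
  rw [← Finset.prod_inter_mul_prod_sdiff S A]
  congr 1
  · refine Finset.prod_congr rfl (fun i hi => ?_)
    simp [mix, (Finset.mem_inter.mp hi).2]
  · refine Finset.prod_congr rfl (fun i hi => ?_)
    simp [mix, (Finset.mem_sdiff.mp hi).2]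

/-- conditional expectation -/
noncomputable def PA (A : Finset ι) (F : (ι → ZMod 2) → Y) (ε : ι → ZMod 2) : Y :=
  avg fun η => F (mix A η ε)

theorem PA_eq (A : Finset ι) (F : (ι → ZMod 2) → Y) (ε : ι → ZMod 2) :
    PA A F ε = Mm (dj A) F ε := by
  unfold PA Mm
  have h1 : (fun η => F (mix A η ε)) =
      fun η => ∑ S : Finset ι, (w (S ∩ A) η * w (S \ A) ε) • co S F := by
    funext η
    rw [← inversion F (mix A η ε)]
    simp only [w_mix]
  rw [h1, avg_sum]
  refine Finset.sum_congr rfl (fun S _ => ?_)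
  rw [avg_smul_const, avg_mul_right, avg_w]
  congr 1
  unfold dj
  by_cases h : Disjoint A S
  · have h2 : S ∩ A = ∅ := by rw [← Finset.disjoint_iff_inter_eq_empty]; exact h.symm
    have h3 : S \ A = S := by rw [sdiff_eq_left]; exact h.symm
    rw [if_pos h2, if_pos h, h3]
  · have h2 : ¬ (S ∩ A = ∅) := by
      rw [← Finset.disjoint_iff_inter_eq_empty]; exact fun h' => h h'.symm
    rw [if_neg h2, if_neg h]
    simp

/-- square of the `L²` norm -/
noncomputable def sq {A : Type} [Fintype A] (F : A → Y) : ℝ := avg fun a => ‖F a‖ ^ 2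

theorem sq_nonneg' {A : Type} [Fintype A] (F : A → Y) : 0 ≤ sq F :=
  avg_nonneg fun _ => by positivity

theorem norm_avg_sq_le {A : Type} [Fintype A] (F : A → Y) : ‖avg F‖ ^ 2 ≤ avg fun a => ‖F a‖ ^ 2 := by
  have h1 : ‖avg F‖ ≤ avg fun a => ‖F a‖ := by
    have := seminorm_avg_le (normSeminorm ℝ Y) F
    simpa using this
  calc ‖avg F‖ ^ 2 ≤ (avg fun a => ‖F a‖) ^ 2 := by
        gcongr
    _ ≤ _ := avg_sq_le _

theorem sq_PA_le (A : Finset ι) (F : (ι → ZMod 2) → Y) : sq (PA A F) ≤ sq F := by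
  unfold sq
  have h1 : (avg fun ε => ‖PA A F ε‖ ^ 2) ≤ avg fun ε => avg fun η => ‖F (mix A η ε)‖ ^ 2 :=
    avg_mono fun ε => norm_avg_sq_le _
  refine h1.trans (le_of_eq ?_)
  -- involution (ε, η) ↦ (mix A η ε, mix A ε η)
  let e : ((ι → ZMod 2) × (ι → ZMod 2)) ≃ ((ι → ZMod 2) × (ι → ZMod 2)) :=
    { toFun := fun x => (mix A x.2 x.1, mix A x.1 x.2)
      invFun := fun x => (mix A x.2 x.1, mix A x.1 x.2)
      left_inv := by
        intro x
        ext i <;> simp only [mix] <;> split_ifs <;> rfl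
      right_inv := by
        intro x
        ext i <;> simp only [mix] <;> split_ifs <;> rfl }
  have h2 := avg_equiv e (fun x : (ι → ZMod 2) × (ι → ZMod 2) => ‖F x.1‖ ^ 2)
  have h3 : avg (fun x : (ι → ZMod 2) × (ι → ZMod 2) => ‖F x.1‖ ^ 2) = avg fun ε => ‖F ε‖ ^ 2 := by
    rw [avg_prod (fun a (_ : ι → ZMod 2) => ‖F a‖ ^ 2)]
    simp [avg_const]
  rw [h3] at h2
  rw [← h2, avg_prod' (fun a : (ι → ZMod 2) × (ι → ZMod 2) => ‖F (e a).1‖ ^ 2)]
  rfl

end Cube

end Crest.Agent.R118.Endgame827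
end

-- ▼ part R118/EndKey_827
section

set_option linter.unusedSectionVars false

open Finset
open Crest.Agent.R118.Base324

namespace Crest.Agent.R118.Endgame827

section Cube2

variable {ι : Type} [Fintype ι] [DecidableEq ι]
variable {X Y : Type*} [NormedAddCommGroup X] [NormedSpace ℝ X] [NormedAddCommGroup Y]
  [NormedSpace ℝ Y]

theorem co_w (S S' : Finset ι) (y : Y) :
    co S (fun ε => w S' ε • y) = if S = S' then y else 0 := by
  have h0 : (fun η : ι → ZMod 2 => w S η • w S' η • y) = fun η => (w S η * w S' η) • y := by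
    funext η; rw [smul_smul]
  unfold co
  rw [h0, avg_smul_const]
  have h1 : ∀ η : ι → ZMod 2, w S η * w S' η = w (symmDiff S S') η := by
    intro η
    unfold w
    rw [← Finset.prod_inter_mul_prod_sdiff S S', ← Finset.prod_inter_mul_prod_sdiff S' S,
      Finset.inter_comm S' S, symmDiff_def, Finset.sup_eq_union,
      Finset.prod_union disjoint_sdiff_sdiff]
    have h2 : (∏ i ∈ S ∩ S', sg (η i)) * ∏ i ∈ S ∩ S', sg (η i) = 1 := by
      rw [← Finset.prod_mul_distrib]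
      exact Finset.prod_eq_one fun i _ => sg_mul_self _
    calc _ = ((∏ i ∈ S ∩ S', sg (η i)) * ∏ i ∈ S ∩ S', sg (η i)) *
          ((∏ i ∈ S \ S', sg (η i)) * ∏ i ∈ S' \ S, sg (η i)) := by ring
      _ = _ := by rw [h2, one_mul]
  simp only [h1, avg_w]
  by_cases h : S = S'
  · subst h
    simp
  · rw [if_neg h, if_neg, zero_smul]
    rw [← Finset.bot_eq_empty, symmDiff_eq_bot]
    exact h

theorem co_Mm (m : Finset ι → ℝ) (F : (ι → ZMod 2) → Y) (S : Finset ι) :
    co S (Mm m F) = m S • co S F := by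
  have h1 : co S (Mm m F) = ∑ S' : Finset ι, m S' • co S (fun ε => w S' ε • co S' F) := by
    unfold Mm
    conv_lhs => unfold co
    simp only [Finset.smul_sum]
    rw [avg_sum]
    refine Finset.sum_congr rfl (fun S' _ => ?_)
    conv_rhs => unfold co
    rw [← avg_smul]
    congr 1
    funext η
    simp only [smul_smul]
    congr 1
    ring
  rw [h1]
  simp only [co_w]
  rw [Finset.sum_eq_single S]
  · simp
  · intro b _ hb
    rw [if_neg (Ne.symm hb), smul_zero]
  · simp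

theorem Mm_Mm (m m' : Finset ι → ℝ) (F : (ι → ZMod 2) → Y) :
    Mm m (Mm m' F) = Mm (fun S => m S * m' S) F := by
  funext ε
  unfold Mm
  refine Finset.sum_congr rfl (fun S _ => ?_)
  have := co_Mm m' F S
  unfold Mm at this
  rw [this, smul_smul]
  congr 1
  ring

theorem co_map (T : X →ₗ[ℝ] Y) (S : Finset ι) (f : (ι → ZMod 2) → X) :
    co S (fun ε => T (f ε)) = T (co S f) := by
  unfold co
  rw [map_avg]
  simp only [map_smul]

theorem Mm_map (T : X →ₗ[ℝ] Y) (m : Finset ι → ℝ) (f : (ι → ZMod 2) → X) (ε : ι → ZMod 2) :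
    Mm m (fun ε => T (f ε)) ε = T (Mm m f ε) := by
  unfold Mm
  rw [map_sum]
  refine Finset.sum_congr rfl (fun S _ => ?_)
  rw [co_map, map_smul]

theorem Mm_sum {κ : Type*} (s : Finset κ) (c : κ → ℝ) (m : κ → Finset ι → ℝ)
    (F : (ι → ZMod 2) → Y) (ε : ι → ZMod 2) :
    Mm (fun S => ∑ k ∈ s, c k * m k S) F ε = ∑ k ∈ s, c k • Mm (m k) F ε := by
  unfold Mm
  simp only [Finset.smul_sum]
  rw [Finset.sum_comm]
  refine Finset.sum_congr rfl (fun S _ => ?_)
  rw [Finset.sum_mul, Finset.sum_smul]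
  refine Finset.sum_congr rfl (fun k _ => ?_)
  rw [smul_smul]
  congr 1
  ring

theorem Mm_avg {A : Type*} [Fintype A] (m : A → Finset ι → ℝ)
    (F : (ι → ZMod 2) → Y) (ε : ι → ZMod 2) :
    Mm (fun S => avg fun a => m a S) F ε = avg fun a => Mm (m a) F ε := by
  have h := Mm_sum (Finset.univ : Finset A) (fun _ => (Fintype.card A : ℝ)⁻¹) m F ε
  unfold avg
  rw [Finset.smul_sum, ← h]
  congr 1
  funext S
  rw [smul_eq_mul, Finset.mul_sum]

theorem Mm_smul (c : ℝ) (m : Finset ι → ℝ) (F : (ι → ZMod 2) → Y) (ε : ι → ZMod 2) :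
    Mm (fun S => c * m S) F ε = c • Mm m F ε := by
  unfold Mm
  rw [Finset.smul_sum]
  refine Finset.sum_congr rfl (fun S _ => ?_)
  rw [smul_smul, mul_assoc]

theorem avg_prod_pi {κ : Type} [Fintype κ] [DecidableEq κ] (G : κ → ZMod 2 → ℝ) :
    (avg fun a : κ → ZMod 2 => ∏ i, G i (a i)) = ∏ i, avg (G i) := by
  unfold avg
  simp only [smul_eq_mul]
  rw [Finset.prod_mul_distrib]
  congr 1
  · simp [ZMod.card]
  · rw [Finset.prod_univ_sum, Fintype.piFinset_univ]

/-- the sign of `(x,y)`: `+1` iff `x = y = 0` -/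
noncomputable def s1 (x y : ZMod 2) : ℝ := - sg ((1 + x) * (1 + y))

/-- `c^x` -/
noncomputable def cp (c : ℝ) (x : ZMod 2) : ℝ := if x = 0 then 1 else c

theorem avg_s1 (c : ℝ) (hc : c * c = c) :
    (avg fun x => avg fun y => s1 x y * cp c x * cp c y) = 1/4 - 3/4 * c := by
  simp only [avg_zmod2, smul_eq_mul]
  have h11 : (1:ZMod 2) + 1 = 0 := by decide
  have h10 : (1:ZMod 2) ≠ 0 := by decide
  simp only [s1, cp, add_zero, mul_one, h11, mul_zero, sg_zero, sg_one, if_true, h10, if_false]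
  linear_combination (-1/4) * hc

theorem dj_mul_self (A S : Finset ι) : dj A S * dj A S = dj A S := by
  unfold dj; split_ifs <;> simp

/-- union of the `A i` with `a i = 1` -/
def UA {j : ℕ} (A : Fin j → Finset ι) (a : Fin j → ZMod 2) : Finset ι :=
  (Finset.univ.filter fun i => a i ≠ 0).biUnion A

theorem dj_UA {j : ℕ} (A : Fin j → Finset ι) (a : Fin j → ZMod 2) (S : Finset ι) :
    dj (UA A a) S = ∏ i, cp (dj (A i) S) (a i) := by
  unfold UA dj cp
  by_cases h : ∀ i, a i ≠ 0 → Disjoint (A i) S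
  · rw [if_pos, Finset.prod_eq_one]
    · intro i _
      split_ifs with h1 h2
      · rfl
      · rfl
      · exact absurd (h i h1) h2
    · rw [Finset.disjoint_biUnion_left]
      intro i hi
      exact h i (Finset.mem_filter.mp hi).2
  · push Not at h
    obtain ⟨i, hi, hd⟩ := h
    rw [if_neg, Finset.prod_eq_zero (Finset.mem_univ i)]
    · rw [if_neg hi, if_neg hd]
    · rw [Finset.disjoint_biUnion_left]
      intro h'
      exact hd (h' i (Finset.mem_filter.mpr ⟨Finset.mem_univ _, hi⟩))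

theorem prod_identity {j : ℕ} (A : Fin j → Finset ι) (S : Finset ι) :
    (avg fun b : Fin j → ZMod 2 => avg fun a : Fin j → ZMod 2 =>
      (∏ i, s1 (a i) (b i)) * (dj (UA A b) S * dj (UA A a) S)) =
      ∏ i, (1/4 - 3/4 * dj (A i) S) := by
  rw [avg_comm]
  have h1 : ∀ a : Fin j → ZMod 2, (avg fun b : Fin j → ZMod 2 =>
      (∏ i, s1 (a i) (b i)) * (dj (UA A b) S * dj (UA A a) S)) =
      ∏ i, avg fun y => s1 (a i) y * cp (dj (A i) S) (a i) * cp (dj (A i) S) y := by
    intro a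
    rw [← avg_prod_pi]
    congr 1
    funext b
    rw [dj_UA, dj_UA, ← Finset.prod_mul_distrib, ← Finset.prod_mul_distrib]
    refine Finset.prod_congr rfl (fun i _ => ?_)
    ring
  simp only [h1]
  rw [avg_prod_pi (fun i x => avg fun y => s1 x y * cp (dj (A i) S) x * cp (dj (A i) S) y)]
  refine Finset.prod_congr rfl (fun i _ => ?_)
  exact avg_s1 _ (dj_mul_self _ _)

theorem prod_s1 {j : ℕ} (a b : Fin j → ZMod 2) :
    ∏ i, s1 (a i) (b i) = (-1)^j * χ (a + 1) (b + 1) := by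
  rw [χ_pi]
  unfold s1
  have : ∀ i, - sg ((1 + a i) * (1 + b i)) = (-1) * χ ((a + 1) i) ((b + 1) i) := by
    intro i
    rw [χ_zmod2]
    simp [add_comm]
  simp only [this]
  rw [Finset.prod_mul_distrib]
  simp

/-- Key lemma. -/
theorem key (T : X →ₗ[ℝ] Y) {j : ℕ} {R : ℝ}
    (H : ∀ (f : (Fin j → ZMod 2) → X),
      (avg fun b : Fin j → ZMod 2 => ‖avg fun a : Fin j → ZMod 2 => χ a b • T (f a)‖ ^ 2)
        ≤ R ^ 2 * avg (fun a => ‖f a‖ ^ 2))
    (A : Fin j → Finset ι) (f : (ι → ZMod 2) → X) :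
    sq (Mm (fun S => ∏ i, (1/4 - 3/4 * dj (A i) S)) (fun ε => T (f ε))) ≤ R ^ 2 * sq f := by
  -- the twisted averages
  set G : (Fin j → ZMod 2) → (ι → ZMod 2) → Y := fun b ε =>
    avg fun a : Fin j → ZMod 2 => (∏ i, s1 (a i) (b i)) • T (PA (UA A a) f ε) with hG
  have e1 : ∀ ε, Mm (fun S => ∏ i, (1/4 - 3/4 * dj (A i) S)) (fun ε => T (f ε)) ε =
      avg fun b : Fin j → ZMod 2 => PA (UA A b) (G b) ε := by
    intro ε
    simp only [← prod_identity]
    rw [Mm_avg]
    congr 1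
    funext b
    rw [PA_eq]
    have : G b = Mm (fun S => avg fun a : Fin j → ZMod 2 =>
        (∏ i, s1 (a i) (b i)) * dj (UA A a) S) (fun ε => T (f ε)) := by
      funext ε
      rw [Mm_avg, hG]
      simp only
      congr 1
      funext a
      rw [PA_eq, Mm_smul, Mm_map]
    rw [this, Mm_Mm]
    congr 1
    funext S
    rw [← avg_mul_left]
    congr 1
    funext a
    ring
  have e2 : sq (Mm (fun S => ∏ i, (1/4 - 3/4 * dj (A i) S)) (fun ε => T (f ε))) ≤
      avg fun b : Fin j → ZMod 2 => sq (G b) := by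
    have h1 : sq (Mm (fun S => ∏ i, (1/4 - 3/4 * dj (A i) S)) (fun ε => T (f ε))) ≤
        avg fun ε => avg fun b : Fin j → ZMod 2 => ‖PA (UA A b) (G b) ε‖ ^ 2 := by
      unfold sq
      refine avg_mono (fun ε => ?_)
      rw [e1]
      exact norm_avg_sq_le _
    refine h1.trans ?_
    rw [avg_comm]
    exact avg_mono fun b => sq_PA_le _ _
  have e3 : (avg fun b : Fin j → ZMod 2 => sq (G b)) ≤
      avg fun ε => R ^ 2 * avg fun a : Fin j → ZMod 2 => ‖PA (UA A a) f ε‖ ^ 2 := by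
    unfold sq
    rw [avg_comm]
    refine avg_mono (fun ε => ?_)
    have h2 := H (fun a => PA (UA A (a + 1)) f ε)
    have h11 : ∀ x : Fin j → ZMod 2, x + 1 + 1 = x := by
      intro x
      funext i
      have : (1:ZMod 2) + 1 = 0 := by decide
      simp [add_assoc, this]
    have h3 : (avg fun a : Fin j → ZMod 2 => ‖PA (UA A (a + 1)) f ε‖ ^ 2) =
        avg fun a : Fin j → ZMod 2 => ‖PA (UA A a) f ε‖ ^ 2 :=
      avg_equiv (Equiv.addRight 1) (fun a : Fin j → ZMod 2 => ‖PA (UA A a) f ε‖ ^ 2)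
    rw [h3] at h2
    refine le_trans (le_of_eq ?_) h2
    rw [← avg_equiv (Equiv.addRight (1 : Fin j → ZMod 2))
      (fun b : Fin j → ZMod 2 => ‖avg fun a : Fin j → ZMod 2 =>
        χ a b • T (PA (UA A (a + 1)) f ε)‖ ^ 2)]
    congr 1
    funext b
    simp only [Equiv.coe_addRight]
    congr 1
    rw [← avg_equiv (Equiv.addRight (1 : Fin j → ZMod 2))
      (fun a : Fin j → ZMod 2 => χ a (b + 1) • T (PA (UA A (a + 1)) f ε))]
    simp only [Equiv.coe_addRight, h11, hG, prod_s1, mul_smul]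
    rw [avg_smul, norm_smul]
    simp
  have e4 : (avg fun ε => R ^ 2 * avg fun a : Fin j → ZMod 2 => ‖PA (UA A a) f ε‖ ^ 2) ≤
      R ^ 2 * sq f := by
    rw [avg_mul_left]
    refine mul_le_mul_of_nonneg_left ?_ (sq_nonneg R)
    rw [avg_comm]
    refine avg_le_const (sq_nonneg' f) (fun a => ?_)
    exact sq_PA_le (UA A a) f
  exact e2.trans (e3.trans e4)

end Cube2

end Crest.Agent.R118.Endgame827
end

-- ▼ part R118/EndConv_827
section

set_option linter.unusedSectionVars false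

open Finset
open Crest.Agent.R118.Base324
open Crest.AnalysisR

namespace Crest.Agent.R118.Endgame827

section Cube3

variable {ι : Type} [Fintype ι] [DecidableEq ι]
variable {X Y : Type*} [NormedAddCommGroup X] [NormedSpace ℝ X] [NormedAddCommGroup Y]
  [NormedSpace ℝ Y]

/-- weights of the random set -/
noncomputable def wt (r : ℝ) (A : Finset ι) : ℝ :=
  (1 - Real.exp (-r)) ^ A.card * Real.exp (-r) ^ (Fintype.card ι - A.card)

theorem wt_nonneg {r : ℝ} (hr : 0 ≤ r) (A : Finset ι) : 0 ≤ wt r A := by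
  unfold wt
  have : Real.exp (-r) ≤ 1 := Real.exp_le_one_iff.mpr (by linarith)
  have h2 : 0 ≤ 1 - Real.exp (-r) := by linarith
  have h3 := Real.exp_pos (-r)
  positivity

theorem sum_wt_dj (r : ℝ) (S : Finset ι) :
    ∑ A : Finset ι, wt r A * dj A S = Real.exp (-(r * S.card)) := by
  have h1 : ∑ A : Finset ι, wt r A * dj A S = ∑ A ∈ (Sᶜ).powerset, wt r A := by
    have h0 : ∀ A : Finset ι, wt r A * dj A S = if A ∈ (Sᶜ).powerset then wt r A else 0 := by
      intro A
      unfold dj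
      by_cases h : Disjoint A S
      · rw [if_pos h, if_pos, mul_one]
        rw [Finset.mem_powerset]
        exact Finset.subset_compl_iff_disjoint_right.mpr h
      · rw [if_neg h, if_neg, mul_zero]
        rw [Finset.mem_powerset]
        intro h'
        exact h (Finset.subset_compl_iff_disjoint_right.mp h')
    simp only [h0]
    rw [Finset.sum_ite_mem, Finset.univ_inter]
  rw [h1]
  have h2 : ∀ A ∈ (Sᶜ).powerset, wt r A = Real.exp (-r) ^ S.card *
      ((1 - Real.exp (-r)) ^ A.card * Real.exp (-r) ^ ((Sᶜ).card - A.card)) := by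
    intro A hA
    unfold wt
    have hA' : A.card ≤ (Sᶜ).card := Finset.card_le_card (Finset.mem_powerset.mp hA)
    have hc : Fintype.card ι - A.card = S.card + ((Sᶜ).card - A.card) := by
      rw [Finset.card_compl] at hA' ⊢
      have := Finset.card_le_univ S
      omega
    rw [hc, pow_add]
    ring
  rw [Finset.sum_congr rfl h2, ← Finset.mul_sum, Finset.sum_pow_mul_eq_add_pow]
  rw [sub_add_cancel, one_pow, mul_one, ← Real.exp_nat_mul]
  congr 1
  ring

theorem sum_wt (r : ℝ) : ∑ A : Finset ι, wt r A = 1 := by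
  have h := sum_wt_dj (ι := ι) r ∅
  simpa [dj] using h

/-- Jensen for weighted sums -/
theorem norm_sum_sq_le {κ : Type*} [Fintype κ] (c : κ → ℝ) (hc : ∀ k, 0 ≤ c k)
    (h1 : ∑ k, c k = 1) (y : κ → Y) : ‖∑ k, c k • y k‖ ^ 2 ≤ ∑ k, c k * ‖y k‖ ^ 2 := by
  have h2 : ‖∑ k, c k • y k‖ ≤ ∑ k, c k * ‖y k‖ := by
    refine (norm_sum_le _ _).trans (le_of_eq ?_)
    refine Finset.sum_congr rfl (fun k _ => ?_)
    rw [norm_smul, Real.norm_of_nonneg (hc k)]
  have h3 : (∑ k, c k * ‖y k‖) ^ 2 ≤ ∑ k, c k * ‖y k‖ ^ 2 := by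
    have h4 := Finset.sum_mul_sq_le_sq_mul_sq Finset.univ (fun k => Real.sqrt (c k))
      (fun k => Real.sqrt (c k) * ‖y k‖)
    have e1 : ∀ k, Real.sqrt (c k) * (Real.sqrt (c k) * ‖y k‖) = c k * ‖y k‖ := by
      intro k; rw [← mul_assoc, Real.mul_self_sqrt (hc k)]
    have e2 : ∀ k, Real.sqrt (c k) ^ 2 = c k := fun k => Real.sq_sqrt (hc k)
    simp only [e1, e2, mul_pow, h1, one_mul] at h4
    exact h4
  calc ‖∑ k, c k • y k‖ ^ 2 ≤ (∑ k, c k * ‖y k‖) ^ 2 := by gcongr
    _ ≤ _ := h3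

theorem sq_sum_le {κ : Type*} [Fintype κ] {A : Type} [Fintype A] (c : κ → ℝ) (hc : ∀ k, 0 ≤ c k)
    (h1 : ∑ k, c k = 1) (F : κ → A → Y) {B : ℝ} (hB : ∀ k, sq (F k) ≤ B) :
    sq (fun a => ∑ k, c k • F k a) ≤ B := by
  have h2 : sq (fun a => ∑ k, c k • F k a) ≤ avg fun a => ∑ k, c k * ‖F k a‖ ^ 2 := by
    unfold sq
    exact avg_mono fun a => norm_sum_sq_le c hc h1 _
  refine h2.trans ?_
  rw [avg_sum]
  calc ∑ k, avg (fun a => c k * ‖F k a‖ ^ 2) = ∑ k, c k * sq (F k) := by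
        refine Finset.sum_congr rfl (fun k _ => ?_)
        rw [avg_mul_left]
        rfl
    _ ≤ ∑ k, c k * B := Finset.sum_le_sum fun k _ => mul_le_mul_of_nonneg_left (hB k) (hc k)
    _ = B := by rw [← Finset.sum_mul, h1, one_mul]

/-- replace the disjointness factors by exponentials one at a time -/
theorem mixed (T : X →ₗ[ℝ] Y) {j : ℕ} {R : ℝ}
    (H : ∀ (f : (Fin j → ZMod 2) → X),
      (avg fun b : Fin j → ZMod 2 => ‖avg fun a : Fin j → ZMod 2 => χ a b • T (f a)‖ ^ 2)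
        ≤ R ^ 2 * avg (fun a => ‖f a‖ ^ 2))
    (f : (ι → ZMod 2) → X) (L : List ℝ) (hL : ∀ t ∈ L, 0 < t) :
    ∀ (L2 : List (Finset ι)), L.length + L2.length = j →
    sq (Mm (fun S => (L.map fun t => (1/4 - 3/4 * Real.exp (-(t * S.card)))).prod *
      (L2.map fun A => (1/4 - 3/4 * dj A S)).prod) (fun ε => T (f ε))) ≤ R ^ 2 * sq f := by
  induction L with
  | nil =>
    intro L2 hlen
    simp only [List.length_nil, zero_add] at hlen
    subst hlen
    have h := key T H (fun i => L2.get i) f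
    have h2 : (fun S : Finset ι => (List.map (fun t : ℝ => (1/4 - 3/4 * Real.exp (-(t * S.card)))) []).prod *
      (L2.map fun A => (1/4 - 3/4 * dj A S)).prod) =
        fun S => ∏ i, (1/4 - 3/4 * dj (L2.get i) S) := by
      funext S
      simp only [List.map_nil, List.prod_nil, one_mul]
      rw [← Fin.prod_univ_fun_getElem L2 (fun A => (1/4 - 3/4 * dj A S))]
      rfl
    rw [h2]
    exact h
  | cons t L ih =>
    intro L2 hlen
    have ht : 0 < t := hL t (by simp)
    have hL' : ∀ t ∈ L, 0 < t := fun t' h' => hL t' (by simp [h'])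
    have h2 : (fun S : Finset ι => ((t :: L).map fun t => (1/4 - 3/4 * Real.exp (-(t * S.card)))).prod *
      (L2.map fun A => (1/4 - 3/4 * dj A S)).prod) =
        fun S => ∑ A : Finset ι, wt t A * ((L.map fun t => (1/4 - 3/4 * Real.exp (-(t * S.card)))).prod *
      ((A :: L2).map fun A => (1/4 - 3/4 * dj A S)).prod) := by
      funext S
      simp only [List.map_cons, List.prod_cons]
      rw [← sum_wt_dj t S]
      have e : (1/4 - 3/4 * ∑ A : Finset ι, wt t A * dj A S) =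
          ∑ A : Finset ι, wt t A * (1/4 - 3/4 * dj A S) := by
        have : ∀ A : Finset ι, wt t A * (1/4 - 3/4 * dj A S) =
            1/4 * wt t A - 3/4 * (wt t A * dj A S) := by
          intro A; ring
        simp only [this]
        rw [Finset.sum_sub_distrib, ← Finset.mul_sum, ← Finset.mul_sum, sum_wt]
        ring
      rw [e, Finset.sum_mul, Finset.sum_mul]
      refine Finset.sum_congr rfl (fun A _ => ?_)
      ring
    rw [h2]
    have h3 : Mm (fun S => ∑ A : Finset ι, wt t A * ((L.map fun t => (1/4 - 3/4 * Real.exp (-(t * S.card)))).prod *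
      ((A :: L2).map fun A => (1/4 - 3/4 * dj A S)).prod)) (fun ε => T (f ε)) =
      fun ε => ∑ A : Finset ι, wt t A • Mm (fun S => (L.map fun t => (1/4 - 3/4 * Real.exp (-(t * S.card)))).prod *
      ((A :: L2).map fun A => (1/4 - 3/4 * dj A S)).prod) (fun ε => T (f ε)) ε := by
      funext ε
      exact Mm_sum Finset.univ (wt t) _ _ ε
    rw [h3]
    refine sq_sum_le (wt t) (wt_nonneg ht.le) (sum_wt t) _ (fun A => ?_)
    refine ih hL' (A :: L2) ?_
    simp only [List.length_cons] at hlen ⊢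
    omega

/-- the bound for the generator multipliers -/
theorem gen_bound (T : X →ₗ[ℝ] Y) {R : ℝ} (L : List ℝ) (hL : ∀ t ∈ L, 0 < t) (r : ℝ) (hr : 0 ≤ r)
    (H : ∀ (f : (Fin L.length → ZMod 2) → X),
      (avg fun b : Fin L.length → ZMod 2 =>
        ‖avg fun a : Fin L.length → ZMod 2 => χ a b • T (f a)‖ ^ 2)
        ≤ R ^ 2 * avg (fun a => ‖f a‖ ^ 2))
    (f : (ι → ZMod 2) → X) :
    sq (Mm (fun S => gen r L S.card) (fun ε => T (f ε))) ≤ R ^ 2 * sq f := by
  have h1 := mixed T H f L hL [] (by simp)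
  simp only [List.map_nil, List.prod_nil, mul_one] at h1
  have h2 : Mm (fun S => gen r L S.card) (fun ε => T (f ε)) =
      fun ε => ∑ A : Finset ι, wt r A •
        PA A (Mm (fun S => (L.map fun t => (1/4 - 3/4 * Real.exp (-(t * S.card)))).prod)
          (fun ε => T (f ε))) ε := by
    funext ε
    simp only [PA_eq, Mm_Mm]
    rw [← Mm_sum]
    congr 1
    funext S
    unfold gen
    rw [← sum_wt_dj r S, Finset.sum_mul]
    refine Finset.sum_congr rfl (fun A _ => ?_)
    ring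
  rw [h2]
  refine sq_sum_le (wt r) (wt_nonneg hr) (sum_wt r) _ (fun A => ?_)
  exact (sq_PA_le A _).trans h1

end Cube3

end Crest.Agent.R118.Endgame827
end

-- ▼ part R118/Endgame_827
section

set_option linter.unusedSectionVars false

open Finset
open Crest.Agent.R118.Base324
open Crest.AnalysisR

namespace Crest.Agent.R118.Endgame827

section Cube4

variable {ι : Type} [Fintype ι] [DecidableEq ι]
variable {X Y : Type*} [NormedAddCommGroup X] [NormedSpace ℝ X] [NormedAddCommGroup Y]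
  [NormedSpace ℝ Y]

theorem norm_toLp_sq {A : Type} [Fintype A] [Nonempty A] (F : A → Y) :
    ‖(WithLp.toLp 2 F : PiLp 2 fun _ : A => Y)‖ ^ 2 = Fintype.card A * sq F := by
  rw [PiLp.norm_sq_eq_of_L2]
  unfold sq avg
  rw [smul_eq_mul, ← mul_assoc, mul_inv_cancel₀, one_mul]
  exact_mod_cast Fintype.card_ne_zero

/-- level-one projection -/
theorem endgame_level (T : X →ₗ[ℝ] Y) {q : ℝ} (hq0 : 0 < q) (hq1 : q < 1) {S0 : ℝ} (hS0 : 0 ≤ S0)
    (H : ∀ (j : ℕ) (f : (Fin j → ZMod 2) → X),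
      (avg fun b : Fin j → ZMod 2 => ‖avg fun a : Fin j → ZMod 2 => χ a b • T (f a)‖ ^ 2)
        ≤ (S0 * q ^ j) ^ 2 * avg (fun a => ‖f a‖ ^ 2))
    (f : (ι → ZMod 2) → X) :
    sq (Mm (fun S => if S.card = 1 then 1 else 0) (fun ε => T (f ε))) ≤
      (2 * Real.exp (s0 q) * S0) ^ 2 * sq f := by
  classical
  set c : ℝ := ((Fintype.card (ι → ZMod 2) : ℕ) : ℝ) with hc
  have hcpos : 0 < c := by rw [hc]; exact_mod_cast Fintype.card_pos
  set TF : (ι → ZMod 2) → Y := fun ε => T (f ε) with hTF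
  set G : (ι → ZMod 2) → Y := Mm (fun S => if S.card = 1 then 1 else 0) TF with hG
  obtain ⟨φ, hφ1, hφ2⟩ := exists_dual_vector'' ℝ (WithLp.toLp 2 G : PiLp 2 fun _ : ι → ZMod 2 => Y)
  set N : ℝ := ‖(WithLp.toLp 2 f : PiLp 2 fun _ : ι → ZMod 2 => X)‖ with hN
  have hN2 : N ^ 2 = c * sq f := norm_toLp_sq f
  -- the sequence
  set a : ℕ → ℝ := fun k => φ (WithLp.toLp 2 (Mm (fun S => if S.card = k then 1 else 0) TF)) with ha
  have ha1 : a 1 = ‖(WithLp.toLp 2 G : PiLp 2 fun _ : ι → ZMod 2 => Y)‖ := by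
    rw [ha]
    simpa using hφ2
  have key : |a 1| ≤ 2 * Real.exp (s0 q) * (S0 * N) := by
    refine scalar_endgame hq0 hq1 (Fintype.card ι + 1) (by omega) a (S0 * N) ?_
    intro r L hr hL
    have e1 : ∑ k ∈ range (Fintype.card ι + 1 + 1), gen r L k * a k =
        φ (WithLp.toLp 2 (Mm (fun S => gen r L S.card) TF)) := by
      have e2 : Mm (fun S : Finset ι => gen r L S.card) TF =
          fun ε => ∑ k ∈ range (Fintype.card ι + 1 + 1),
            gen r L k • Mm (fun S : Finset ι => if S.card = k then 1 else 0) TF ε := by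
        funext ε
        rw [← Mm_sum]
        congr 1
        funext S
        rw [Finset.sum_eq_single S.card]
        · simp
        · intro k _ hk
          rw [if_neg (Ne.symm hk), mul_zero]
        · intro h
          exfalso
          apply h
          rw [Finset.mem_range]
          have := Finset.card_le_univ S
          omega
      rw [e2]
      have e3 : (WithLp.toLp 2 (fun ε => ∑ k ∈ range (Fintype.card ι + 1 + 1),
            gen r L k • Mm (fun S : Finset ι => if S.card = k then 1 else 0) TF ε) :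
              PiLp 2 fun _ : ι → ZMod 2 => Y) =
          ∑ k ∈ range (Fintype.card ι + 1 + 1), gen r L k •
            WithLp.toLp 2 (Mm (fun S : Finset ι => if S.card = k then 1 else 0) TF) := by
        ext ε
        simp [Finset.sum_apply]
      rw [e3, map_sum]
      refine Finset.sum_congr rfl (fun k _ => ?_)
      rw [map_smul, smul_eq_mul]
    rw [e1]
    have h1 := gen_bound T L hL r hr (H L.length) f
    have h2 : ‖(WithLp.toLp 2 (Mm (fun S => gen r L S.card) TF) :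
        PiLp 2 fun _ : ι → ZMod 2 => Y)‖ ≤ q ^ L.length * (S0 * N) := by
      have hR : 0 ≤ q ^ L.length * (S0 * N) := by positivity
      refine le_of_sq_le_sq ?_ hR
      rw [norm_toLp_sq]
      calc c * sq (Mm (fun S => gen r L S.card) TF)
          ≤ c * ((S0 * q ^ L.length) ^ 2 * sq f) := by gcongr
        _ = (q ^ L.length * (S0 * N)) ^ 2 := by
          rw [mul_pow, mul_pow, mul_pow, hN2]; ring
    calc |φ (WithLp.toLp 2 (Mm (fun S => gen r L S.card) TF))|
        = ‖φ (WithLp.toLp 2 (Mm (fun S => gen r L S.card) TF))‖ := (Real.norm_eq_abs _).symm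
      _ ≤ ‖φ‖ * ‖(WithLp.toLp 2 (Mm (fun S => gen r L S.card) TF) :
        PiLp 2 fun _ : ι → ZMod 2 => Y)‖ := φ.le_opNorm _
      _ ≤ 1 * ‖(WithLp.toLp 2 (Mm (fun S => gen r L S.card) TF) :
        PiLp 2 fun _ : ι → ZMod 2 => Y)‖ := by gcongr
      _ ≤ q ^ L.length * (S0 * N) := by rw [one_mul]; exact h2
  rw [ha1, abs_of_nonneg (norm_nonneg _)] at key
  have h3 : c * sq G ≤ c * ((2 * Real.exp (s0 q) * S0) ^ 2 * sq f) := by
    rw [← norm_toLp_sq]
    calc ‖(WithLp.toLp 2 G : PiLp 2 fun _ : ι → ZMod 2 => Y)‖ ^ 2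
        ≤ (2 * Real.exp (s0 q) * (S0 * N)) ^ 2 := by gcongr
      _ = (2 * Real.exp (s0 q) * S0) ^ 2 * N ^ 2 := by ring
      _ = _ := by rw [hN2]; ring
  exact le_of_mul_le_mul_left h3 hcpos

theorem Mm_level_one (F : (ι → ZMod 2) → Y) (ε : ι → ZMod 2) :
    Mm (fun S => if S.card = 1 then 1 else 0) F ε =
      ∑ i, sg (ε i) • avg fun η => sg (η i) • F η := by
  unfold Mm
  have h1 : ∀ S : Finset ι, ((if S.card = 1 then (1:ℝ) else 0) * w S ε) • co S F =
      if S ∈ Finset.powersetCard 1 (Finset.univ : Finset ι) then w S ε • co S F else 0 := by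
    intro S
    by_cases h : S.card = 1
    · rw [if_pos h, if_pos, one_mul]
      rw [Finset.mem_powersetCard]
      exact ⟨Finset.subset_univ _, h⟩
    · rw [if_neg h, if_neg, zero_mul, zero_smul]
      rw [Finset.mem_powersetCard]
      exact fun h' => h h'.2
  simp only [h1]
  rw [Finset.sum_ite_mem, Finset.univ_inter, Finset.powersetCard_one, Finset.sum_map]
  refine Finset.sum_congr rfl (fun i _ => ?_)
  simp [w, co]

/-- Endgame in `ZMod 2` form. -/
theorem endgame_zmod (T : X →ₗ[ℝ] Y) {q : ℝ} (hq0 : 0 < q) (hq1 : q < 1) {S0 : ℝ} (hS0 : 0 ≤ S0)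
    (H : ∀ (j : ℕ) (f : (Fin j → ZMod 2) → X),
      (avg fun b : Fin j → ZMod 2 => ‖avg fun a : Fin j → ZMod 2 => χ a b • T (f a)‖ ^ 2)
        ≤ (S0 * q ^ j) ^ 2 * avg (fun a => ‖f a‖ ^ 2))
    (f : (ι → ZMod 2) → X) :
    (avg fun ε : ι → ZMod 2 => ‖∑ i, sg (ε i) • avg fun η : ι → ZMod 2 => sg (η i) • T (f η)‖ ^ 2)
      ≤ (2 * Real.exp (s0 q) * S0) ^ 2 * avg fun ε => ‖f ε‖ ^ 2 := by
  have h := endgame_level T hq0 hq1 hS0 H f
  unfold sq at h
  simp only [Mm_level_one] at h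
  exact h

end Cube4

/-- the bijection of sign codings -/
def cod : ZMod 2 ≃ Bool where
  toFun x := if x = 0 then true else false
  invFun b := if b then 0 else 1
  left_inv := by intro x; revert x; decide
  right_inv := by intro b; revert b; decide

theorem signVal_cod (x : ZMod 2) : signVal (cod x) = sg x := by
  unfold signVal sg cod
  rcases zmod2_cases x with h | h <;> subst h <;> simp

theorem signAverage_eq {s : ℕ} (g : (Fin s → Bool) → ℝ) :
    signAverage g = avg fun ε : Fin s → ZMod 2 => g (fun i => cod (ε i)) := by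
  unfold signAverage avg
  rw [smul_eq_mul]
  congr 1
  · simp [ZMod.card]
  · exact (Equiv.sum_comp (Equiv.piCongrRight fun _ : Fin s => cod) g).symm

theorem sum_bool_eq {s : ℕ} {E : Type*} [AddCommGroup E] [Module ℝ E] (g : (Fin s → Bool) → E) :
    ((2 : ℝ) ^ s)⁻¹ • ∑ η : Fin s → Bool, g η =
      avg fun ε : Fin s → ZMod 2 => g (fun i => cod (ε i)) := by
  unfold avg
  congr 1
  · simp [ZMod.card]
  · exact (Equiv.sum_comp (Equiv.piCongrRight fun _ : Fin s => cod) g).symm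

/-- Endgame in the form of `IsKConvex`. -/
theorem endgame_bool {X Y : Type*} [NormedAddCommGroup X] [NormedSpace ℝ X]
    [NormedAddCommGroup Y] [NormedSpace ℝ Y]
    (T : X →ₗ[ℝ] Y) {q : ℝ} (hq0 : 0 < q) (hq1 : q < 1) {S0 : ℝ} (hS0 : 0 ≤ S0)
    (H : ∀ (j : ℕ) (f : (Fin j → ZMod 2) → X),
      (avg fun b : Fin j → ZMod 2 => ‖avg fun a : Fin j → ZMod 2 => χ a b • T (f a)‖ ^ 2)
        ≤ (S0 * q ^ j) ^ 2 * avg (fun a => ‖f a‖ ^ 2))
    (s : ℕ) (f : (Fin s → Bool) → X) :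
    (signAverage fun ε : Fin s → Bool =>
        ‖∑ i : Fin s, signVal (ε i) •
            (((2 : ℝ) ^ s)⁻¹ • ∑ η : Fin s → Bool, signVal (η i) • T (f η))‖ ^ (2 : ℝ)) ≤
      (2 * Real.exp (s0 q) * S0) ^ 2 * signAverage fun ε : Fin s → Bool => ‖f ε‖ ^ (2 : ℝ) := by
  have h := endgame_zmod T hq0 hq1 hS0 H (fun ε : Fin s → ZMod 2 => f (fun i => cod (ε i)))
  rw [signAverage_eq, signAverage_eq]
  simp only [sum_bool_eq, signVal_cod, Real.rpow_ofNat]
  exact h


end Crest.Agent.R118.Endgame827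
end

-- ▼ part R118/EndAdapt_827
section

/-!
Row 118 (S0158): the endgame in the exact shape of the hypothesis `hEnd` of `Glue324.glue`.
-/

set_option autoImplicit false

open Finset
open Crest.Agent.R118.Base324
open Crest.AnalysisR

namespace Crest.Agent.R118.Endgame827

universe u

open Crest.Agent.R118.Glue324 in
theorem walshZ_of_walshB {X Y : Type*} [NormedAddCommGroup X] [NormedSpace ℝ X]
    [NormedAddCommGroup Y] [NormedSpace ℝ Y] (T : X →ₗ[ℝ] Y) (S β : ℝ) (h : WalshB T S β) :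
    WalshZ T S β := by
  intro j f
  let e : (Fin j → Bool) ≃ (Fin j → ZMod 2) := Equiv.arrowCongr (Equiv.refl _) bz
  have h1 := h j (fun v => f (e v))
  rw [signAverage_eq_avg, signAverage_eq_avg] at h1
  rw [← avg_equiv e, ← avg_equiv e (fun v => ‖f v‖ ^ 2)]
  have h2 : ∀ a : Fin j → Bool, (avg fun v : Fin j → ZMod 2 => χ v (e a) • T (f v))
      = ((2 : ℝ) ^ j)⁻¹ • ∑ b : Fin j → Bool,
        (∏ i, if a i && b i then (-1 : ℝ) else 1) • T (f (e b)) := by
    intro a
    rw [← avg_equiv e]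
    have h3 : ∀ b : Fin j → Bool, χ (e b) (e a) = ∏ i, if a i && b i then (-1 : ℝ) else 1 := by
      intro b
      rw [χ_pi]
      apply Finset.prod_congr rfl
      intro i _
      rw [χ_zmod2]
      have ha : e a i = bz (a i) := rfl
      have hb : e b i = bz (b i) := rfl
      rw [ha, hb]
      cases a i <;> cases b i <;> simp [bz]
    simp only [h3, avg]
    simp
  simpa [h2] using h1

theorem hEnd : ∀ (S0 β : ℝ), 0 < β → β < 1 → 0 ≤ S0 → ∃ k : ℝ, ∀ (Z : Type u) (X : Type u)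
      [NormedAddCommGroup Z] [NormedSpace ℝ Z] [NormedAddCommGroup X] [NormedSpace ℝ X]
      (T : Z →ₗ[ℝ] X), Glue324.WalshB T S0 β → ∀ (s : ℕ) (g : (Fin s → Bool) → Z),
        signAverage (fun ε : Fin s → Bool =>
          ‖∑ i : Fin s, signVal (ε i) •
            (((2 : ℝ) ^ s)⁻¹ • ∑ η : Fin s → Bool, signVal (η i) • T (g η))‖ ^ 2)
          ≤ k ^ 2 * signAverage fun ε => ‖g ε‖ ^ 2 := by
  intro S0 β hβ0 hβ1 hS0
  refine ⟨2 * Real.exp (s0 β) * S0, ?_⟩
  intro Z X _ _ _ _ T hT s g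
  have h := endgame_bool T hβ0 hβ1 hS0 (walshZ_of_walshB T S0 β hT) s g
  simpa only [Real.rpow_ofNat] using h

end Crest.Agent.R118.Endgame827
end

-- ▼ part R118/APRed_485
section

/-!
Row 118 (S0158). Theorem C: reduction of the K-convexity of a Banach space with the approximation
property to finite rank operators `T : Z → X`, where `Z` has the fixed-size quadratic lifting
property.
-/

set_option autoImplicit false
open scoped BigOperators
open Crest.AnalysisR

namespace Crest.Agent.R118.APRed485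

open Lift361

universe u

/-! ### finite polytopes approximate the unit ball -/

theorem exists_polytope (V : Type*) [NormedAddCommGroup V] [NormedSpace ℝ V]
    [FiniteDimensional ℝ V] (δ : ℝ) (hδ : 0 < δ) :
    ∃ P : Finset V, (∀ p ∈ P, ‖p‖ ≤ 1) ∧
      ∀ v : V, ‖v‖ ≤ 1 → (1 + δ)⁻¹ • v ∈ convexHull ℝ (P : Set V) := by
  classical
  have : ProperSpace V := FiniteDimensional.proper ℝ V
  have hc : IsCompact (Metric.closedBall (0 : V) 1) := isCompact_closedBall _ _
  set ε : ℝ := δ / (1 + δ) with hε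
  have h1δ : 0 < 1 + δ := by linarith
  have hε0 : 0 < ε := by positivity
  have hε1 : 1 - ε = (1 + δ)⁻¹ := by
    rw [hε]; field_simp; ring
  obtain ⟨t, hts, htf, htc⟩ := hc.finite_cover_balls hε0
  refine ⟨htf.toFinset, ?_, ?_⟩
  · intro p hp
    have := hts (htf.mem_toFinset.1 hp)
    simpa using this
  · intro v hv
    rw [Set.Finite.coe_toFinset]
    by_contra hcon
    have hclosed : IsClosed (convexHull ℝ t) := (htf.isCompact_convexHull (𝕜 := ℝ)).isClosed
    obtain ⟨f, u, hf1, hf2⟩ :=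
      geometric_hahn_banach_closed_point (convex_convexHull ℝ t) hclosed hcon
    have hball : ∀ b : V, ‖b‖ ≤ 1 → f b ≤ u + ‖f‖ * ε := by
      intro b hb
      have hb' : b ∈ Metric.closedBall (0 : V) 1 := by simpa using hb
      have := htc hb'
      simp only [Set.mem_iUnion, Metric.mem_ball, exists_prop] at this
      obtain ⟨n, hn, hbn⟩ := this
      have h1 : f n < u := hf1 n (subset_convexHull ℝ t hn)
      have h2 : f (b - n) ≤ ‖f‖ * ε := by
        calc f (b - n) ≤ ‖f (b - n)‖ := le_abs_self _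
          _ ≤ ‖f‖ * ‖b - n‖ := f.le_opNorm _
          _ ≤ ‖f‖ * ε := by
              apply mul_le_mul_of_nonneg_left _ (norm_nonneg _)
              rw [← dist_eq_norm]; exact hbn.le
      have h3 : f b = f n + f (b - n) := by rw [← map_add]; congr 1; abel
      linarith
    have hC0 : 0 ≤ u + ‖f‖ * ε := by
      have := hball 0 (by simp)
      simpa using this
    have hn : ‖f‖ ≤ u + ‖f‖ * ε := by
      apply ContinuousLinearMap.opNorm_le_of_unit_norm hC0
      intro x hx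
      rw [Real.norm_eq_abs, abs_le]
      constructor
      · have := hball (-x) (by rw [norm_neg, hx])
        rw [map_neg] at this
        linarith
      · exact hball x hx.le
    have h4 : f ((1 + δ)⁻¹ • v) ≤ (1 + δ)⁻¹ * ‖f‖ := by
      rw [map_smul, smul_eq_mul]
      apply mul_le_mul_of_nonneg_left _ (by positivity)
      calc f v ≤ ‖f v‖ := le_abs_self _
        _ ≤ ‖f‖ * ‖v‖ := f.le_opNorm _
        _ ≤ ‖f‖ * 1 := by gcongr
        _ = ‖f‖ := mul_one _
    have h5 : (1 + δ)⁻¹ * ‖f‖ = ‖f‖ - ‖f‖ * ε := by rw [← hε1]; ring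
    linarith

/-- Jensen for the squared norm of a convex combination. -/
theorem norm_sum_sq_le {ι V : Type*} [NormedAddCommGroup V] [NormedSpace ℝ V] (s : Finset ι)
    (w : ι → ℝ) (x : ι → V) (hw : ∀ i ∈ s, 0 ≤ w i) (hw1 : ∑ i ∈ s, w i = 1) :
    ‖∑ i ∈ s, w i • x i‖ ^ 2 ≤ ∑ i ∈ s, w i * ‖x i‖ ^ 2 := by
  have h1 : ‖∑ i ∈ s, w i • x i‖ ≤ ∑ i ∈ s, w i * ‖x i‖ := by
    refine (norm_sum_le _ _).trans (Finset.sum_le_sum fun i hi => ?_)
    rw [norm_smul, Real.norm_of_nonneg (hw i hi)]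
  have h2 := (Even.convexOn_pow (𝕜 := ℝ) even_two).map_sum_le (t := s) (w := w)
    (p := fun i => ‖x i‖) hw hw1 (fun _ _ => Set.mem_univ _)
  simp only [smul_eq_mul] at h2
  exact (pow_le_pow_left₀ (norm_nonneg _) h1 2).trans h2

theorem coef_sum {X : Type*} [NormedAddCommGroup X] [NormedSpace ℝ X] {s : ℕ} {ι : Type*}
    (i : Fin s) (t : Finset ι) (c : ι → ℝ) (f : ι → (Fin s → Bool) → X) :
    coef i (fun η => ∑ k ∈ t, c k • f k η) = ∑ k ∈ t, c k • coef i (f k) := by
  simp only [coef, Finset.smul_sum]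
  rw [Finset.sum_comm]
  refine Finset.sum_congr rfl fun k _ => Finset.sum_congr rfl fun η _ => ?_
  rw [smul_comm (signVal (η i)) (c k), smul_comm ((2 : ℝ) ^ s)⁻¹ (c k)]

/-- Lifts of `M`-tuples of a finite dimensional subspace can be taken in a finite dimensional
subspace, at the cost of an arbitrarily small increase of the constant. -/
theorem lift_fd {X : Type*} [NormedAddCommGroup X] [NormedSpace ℝ X] {M : ℕ} {B B' : ℝ}
    (hB : 0 ≤ B) (hBB : B < B') (hL : HasLift X M B)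
    (F : Submodule ℝ X) (hF : FiniteDimensional ℝ F) :
    ∃ G : Submodule ℝ X, FiniteDimensional ℝ G ∧ ∀ z : Fin M → F,
      ∃ H : (Fin M → Bool) → G, (∀ i, coef i (fun η => (H η : X)) = (z i : X)) ∧
        ((2 : ℝ) ^ M)⁻¹ * ∑ η, ‖H η‖ ^ 2 ≤ B' ^ 2 * ((M : ℝ)⁻¹ * ∑ j, ‖z j‖ ^ 2) := by
  classical
  let V := PiLp 2 (fun _ : Fin M => F)
  have hVfd : FiniteDimensional ℝ V := inferInstance
  obtain ⟨δ, hδ, hδB⟩ : ∃ δ : ℝ, 0 < δ ∧ (1 + δ) * B ≤ B' := by
    refine ⟨(B' - B) / (B + 1), by apply div_pos <;> linarith, ?_⟩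
    have h1 : 0 < B + 1 := by linarith
    have h2 : (B' - B) / (B + 1) * B ≤ B' - B := by
      rw [div_mul_eq_mul_div, div_le_iff₀ h1]
      nlinarith
    linarith [h2, add_mul 1 ((B' - B) / (B + 1)) B]
  obtain ⟨P, hP1, hP2⟩ := exists_polytope V δ hδ
  have hch : ∀ p : V, ∃ Fp : (Fin M → Bool) → X, (∀ i, coef i Fp = (p i : X)) ∧
      ((2 : ℝ) ^ M)⁻¹ * ∑ η, ‖Fp η‖ ^ 2 ≤ B ^ 2 * ((M : ℝ)⁻¹ * ∑ j, ‖(p j : X)‖ ^ 2) :=
    fun p => hL (fun j => (p j : X))
  choose L hL1 hL2 using hch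
  let gens : Set X := Set.range (fun x : P × (Fin M → Bool) => L x.1 x.2)
  have hgf : gens.Finite := Set.finite_range _
  let G : Submodule ℝ X := Submodule.span ℝ gens
  have hG : FiniteDimensional ℝ G := FiniteDimensional.span_of_finite ℝ hgf
  have hmem : ∀ p ∈ P, ∀ η, L p η ∈ G := fun p hp η =>
    Submodule.subset_span ⟨(⟨p, hp⟩, η), rfl⟩
  refine ⟨G, hG, fun z => ?_⟩
  let v : V := WithLp.toLp 2 z
  have hvz : ∀ j, v j = z j := fun j => rfl
  have hvn : ‖v‖ ^ 2 = ∑ j, ‖z j‖ ^ 2 := by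
    rw [PiLp.norm_sq_eq_of_L2]
  by_cases hv0 : v = 0
  · have hz : ∀ j, z j = 0 := fun j => by rw [← hvz, hv0]; rfl
    refine ⟨fun _ => 0, fun i => ?_, ?_⟩
    · rw [hz i]; simp [coef]
    · simp [hz]
  · have hvpos : 0 < ‖v‖ := norm_pos_iff.2 hv0
    have hmemv := hP2 (‖v‖⁻¹ • v) (by
      rw [norm_smul, norm_inv, norm_norm, inv_mul_cancel₀ hvpos.ne'])
    rw [Finset.mem_convexHull] at hmemv
    obtain ⟨w, hw0, hw1, hwc⟩ := hmemv
    rw [Finset.centerMass_eq_of_sum_1 _ _ hw1] at hwc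
    simp only [id] at hwc
    set c : ℝ := (1 + δ) * ‖v‖ with hc
    have hc0 : 0 < c := by positivity
    have hval : ∑ p ∈ P, (c * w p) • p = v := by
      have : ∑ p ∈ P, (c * w p) • p = c • ∑ p ∈ P, w p • p := by
        rw [Finset.smul_sum]
        exact Finset.sum_congr rfl fun p _ => mul_smul _ _ _
      rw [this, hwc, smul_smul, smul_smul]
      have : c * (1 + δ)⁻¹ * ‖v‖⁻¹ = 1 := by
        rw [hc]; field_simp
      rw [this, one_smul]
    have hHmem : ∀ η, (∑ p ∈ P, (c * w p) • L p η) ∈ G := fun η =>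
      Submodule.sum_mem _ fun p hp => Submodule.smul_mem _ _ (hmem p hp η)
    refine ⟨fun η => ⟨_, hHmem η⟩, fun i => ?_, ?_⟩
    · simp only
      rw [coef_sum]
      have h1 : ∑ p ∈ P, (c * w p) • coef i (L p) = ∑ p ∈ P, (c * w p) • (p i : X) :=
        Finset.sum_congr rfl fun p _ => by rw [hL1 p i]
      rw [h1]
      have h2 : (∑ p ∈ P, (c * w p) • p) i = z i := by rw [hval]
      have h3 : ((∑ p ∈ P, (c * w p) • p : V) i : X) = ∑ p ∈ P, (c * w p) • (p i : X) := by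
        have : (∑ p ∈ P, (c * w p) • p : V) i = ∑ p ∈ P, (c * w p) • (p i) := by
          rw [WithLp.ofLp_sum, Finset.sum_apply]
          rfl
        rw [this]
        simp
      rw [← h3, h2]
    · have hb : ∀ η, ‖(⟨_, hHmem η⟩ : G)‖ ^ 2 ≤ c ^ 2 * ∑ p ∈ P, w p * ‖L p η‖ ^ 2 := by
        intro η
        have e1 : ‖(⟨_, hHmem η⟩ : G)‖ = ‖∑ p ∈ P, (c * w p) • L p η‖ := rfl
        have e2 : ∑ p ∈ P, (c * w p) • L p η = c • ∑ p ∈ P, w p • L p η := by
          rw [Finset.smul_sum]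
          exact Finset.sum_congr rfl fun p _ => mul_smul _ _ _
        rw [e1, e2, norm_smul, mul_pow, Real.norm_of_nonneg hc0.le]
        exact mul_le_mul_of_nonneg_left (norm_sum_sq_le P w (fun p => L p η) hw0 hw1)
          (by positivity)
      have hM0 : (0 : ℝ) ≤ (M : ℝ)⁻¹ := by positivity
      calc ((2 : ℝ) ^ M)⁻¹ * ∑ η, ‖(⟨_, hHmem η⟩ : G)‖ ^ 2
          ≤ ((2 : ℝ) ^ M)⁻¹ * ∑ η, c ^ 2 * ∑ p ∈ P, w p * ‖L p η‖ ^ 2 := by
            apply mul_le_mul_of_nonneg_left (Finset.sum_le_sum fun η _ => hb η) (by positivity)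
        _ = c ^ 2 * ∑ p ∈ P, w p * (((2 : ℝ) ^ M)⁻¹ * ∑ η, ‖L p η‖ ^ 2) := by
            rw [← Finset.mul_sum, Finset.sum_comm, ← mul_assoc, mul_comm (((2 : ℝ) ^ M)⁻¹) (c ^ 2),
              mul_assoc, Finset.mul_sum]
            congr 1
            refine Finset.sum_congr rfl fun p _ => ?_
            rw [← Finset.mul_sum]
            ring
        _ ≤ c ^ 2 * ∑ p ∈ P, w p * (B ^ 2 * ((M : ℝ)⁻¹ * 1)) := by
            apply mul_le_mul_of_nonneg_left _ (by positivity)
            refine Finset.sum_le_sum fun p hp => mul_le_mul_of_nonneg_left ?_ (hw0 p hp)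
            refine (hL2 p).trans ?_
            apply mul_le_mul_of_nonneg_left _ (by positivity)
            apply mul_le_mul_of_nonneg_left _ hM0
            have h1 : ∑ j, ‖(p j : X)‖ ^ 2 = ‖p‖ ^ 2 := by
              rw [PiLp.norm_sq_eq_of_L2]
              rfl
            rw [h1]
            have := hP1 p hp
            have h0 := norm_nonneg p
            nlinarith
        _ = c ^ 2 * (B ^ 2 * (M : ℝ)⁻¹) := by
            rw [← Finset.sum_mul, hw1]; ring
        _ = ((1 + δ) * B) ^ 2 * ((M : ℝ)⁻¹ * ‖v‖ ^ 2) := by rw [hc]; ring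
        _ ≤ B' ^ 2 * ((M : ℝ)⁻¹ * ∑ j, ‖z j‖ ^ 2) := by
            rw [← hvn]
            apply mul_le_mul_of_nonneg_right _ (by positivity)
            apply pow_le_pow_left₀ (by positivity) hδB


theorem exists_sum_op {R X : Type*} [NormedAddCommGroup R] [NormedSpace ℝ R]
    [NormedAddCommGroup X] [NormedSpace ℝ X] [CompleteSpace X] (t : ℕ → R →L[ℝ] X)
    (h : ∀ m, ‖t m‖ ≤ (1 / 2 : ℝ) ^ m) :
    ∃ L : R →L[ℝ] X, (∀ c, HasSum (fun m => t m c) (L c)) ∧ ‖L‖ ≤ 2 ∧
      ((∀ m, IsCompactOperator (t m)) → IsCompactOperator L) := by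
  have hs : Summable t := Summable.of_norm_bounded summable_geometric_two h
  refine ⟨∑' m, t m, fun c => ?_, ?_, fun hc => ?_⟩
  · exact hs.hasSum.mapL (ContinuousLinearMap.apply ℝ X c)
  · exact tsum_of_norm_bounded hasSum_geometric_two h
  · refine isCompactOperator_of_tendsto hs.hasSum.tendsto_sum_nat
      (Filter.Eventually.of_forall fun n => ?_)
    have key : ∀ n : ℕ, IsCompactOperator (∑ i ∈ Finset.range n, t i : R →L[ℝ] X) := by
      intro n
      induction n with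
      | zero =>
        simp only [Finset.range_zero, Finset.sum_empty]
        exact isCompactOperator_zero
      | succ n ih =>
        rw [Finset.sum_range_succ]
        exact ih.add (hc n)
    exact key n

/-! ### the space `Z` -/

section Space

variable {X : Type u} [NormedAddCommGroup X] [NormedSpace ℝ X] [CompleteSpace X]
variable (Fs : ℕ → Submodule ℝ X)

/-- `ℓ₂`-sum of the subspaces. -/
abbrev RS : Type u := lp (fun m => (Fs m : Type u)) 2

/-- evaluation composed with the inclusion -/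
noncomputable def ev (m : ℕ) : RS Fs →L[ℝ] X :=
  (Fs m).subtypeL.comp (lp.evalCLM ℝ (fun m => (Fs m : Type u)) 2 m)


theorem norm_coord_le (m : ℕ) (c : RS Fs) : ‖c m‖ ≤ ‖c‖ :=
  lp.norm_apply_le_norm (by norm_num) c m


/-- weighted evaluation -/
noncomputable def tm (m : ℕ) : RS Fs →L[ℝ] X := ((1 / 2 : ℝ) ^ m) • ev Fs m

theorem tm_apply (m : ℕ) (c : RS Fs) : tm Fs m c = ((1 / 2 : ℝ) ^ m) • (c m : X) := rfl

theorem norm_tm_le (m : ℕ) : ‖tm Fs m‖ ≤ (1 / 2 : ℝ) ^ m := by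
  apply ContinuousLinearMap.opNorm_le_bound _ (by positivity)
  intro c
  rw [tm_apply, norm_smul, Real.norm_of_nonneg (by positivity)]
  exact mul_le_mul_of_nonneg_left (norm_coord_le Fs m c) (by positivity)

theorem tm_compact (hfd : ∀ m, FiniteDimensional ℝ (Fs m)) (n : ℕ) :
    IsCompactOperator (tm Fs n) := by
  have hfdn := hfd n
  have : ProperSpace (Fs n) := FiniteDimensional.proper ℝ (Fs n)
  have h0 : IsCompactOperator (lp.evalCLM ℝ (fun m => (Fs m : Type u)) 2 n) :=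
    isCompactOperator_of_locallyCompactSpace_dom _
  have h1 := h0.clm_comp ((Fs n).subtypeL)
  exact h1.smul ((1 / 2 : ℝ) ^ n)

theorem exists_Lop : ∃ L : RS Fs →L[ℝ] X,
    (∀ c, HasSum (fun m => tm Fs m c) (L c)) ∧ ‖L‖ ≤ 2 ∧
      ((∀ m, IsCompactOperator (tm Fs m)) → IsCompactOperator L) :=
  exists_sum_op (tm Fs) (norm_tm_le Fs)

/-- The map `L c = ∑ 2^{-m} c_m`. -/
noncomputable def Lop : RS Fs →L[ℝ] X := (exists_Lop Fs).choose

theorem hasSum_Lop (c : RS Fs) :
    HasSum (fun m : ℕ => ((1 / 2 : ℝ) ^ m) • (c m : X)) (Lop Fs c) :=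
  (exists_Lop Fs).choose_spec.1 c

theorem norm_Lop_le : ‖Lop Fs‖ ≤ 2 := (exists_Lop Fs).choose_spec.2.1

theorem isCompactOperator_Lop (hfd : ∀ m, FiniteDimensional ℝ (Fs m)) :
    IsCompactOperator (Lop Fs) :=
  (exists_Lop Fs).choose_spec.2.2 (tm_compact Fs hfd)

instance isClosed_ker_Lop : IsClosed ((LinearMap.ker (Lop Fs).toLinearMap : Submodule ℝ (RS Fs)) : Set (RS Fs)) :=
  (Lop Fs).isClosed_ker

/-- The space `Z`. -/
abbrev ZS : Type u := RS Fs ⧸ (LinearMap.ker (Lop Fs).toLinearMap : Submodule ℝ (RS Fs))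

noncomputable example : NormedAddCommGroup (ZS Fs) := inferInstance
noncomputable example : NormedSpace ℝ (ZS Fs) := inferInstance

/-- The canonical injection `Z → X` as a linear map. -/
noncomputable def jlin : ZS Fs →ₗ[ℝ] X :=
  (LinearMap.ker (Lop Fs).toLinearMap).liftQ (Lop Fs).toLinearMap le_rfl

theorem jlin_mk (c : RS Fs) : jlin Fs (Submodule.Quotient.mk c) = Lop Fs c := rfl

theorem jlin_injective : Function.Injective (jlin Fs) := by
  rw [← LinearMap.ker_eq_bot]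
  exact Submodule.ker_liftQ_eq_bot _ _ _ le_rfl

theorem norm_jlin_le (z : ZS Fs) : ‖jlin Fs z‖ ≤ 2 * ‖z‖ := by
  apply le_of_forall_pos_le_add
  intro ε hε
  obtain ⟨c, rfl, hc⟩ := Submodule.Quotient.norm_mk_lt z (half_pos hε)
  rw [jlin_mk]
  calc ‖Lop Fs c‖ ≤ ‖Lop Fs‖ * ‖c‖ := (Lop Fs).le_opNorm c
    _ ≤ 2 * ‖c‖ := by gcongr; exact norm_Lop_le Fs
    _ ≤ 2 * (‖(Submodule.Quotient.mk c : ZS Fs)‖ + ε / 2) := by gcongr
    _ = _ := by ring

/-- representation with norm control -/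
theorem exists_rep {ρ : ℝ} (hρ : 1 < ρ) (z : ZS Fs) :
    ∃ c : RS Fs, Submodule.Quotient.mk c = z ∧ ‖c‖ ≤ ρ * ‖z‖ := by
  by_cases hz : z = 0
  · refine ⟨0, ?_, ?_⟩
    · rw [hz]; rfl
    · simp [hz]
  · have hpos : 0 < ‖z‖ := norm_pos_iff.2 hz
    obtain ⟨c, hc, hc2⟩ := Submodule.Quotient.norm_mk_lt z (mul_pos (sub_pos.2 hρ) hpos)
    refine ⟨c, hc, ?_⟩
    have : ‖z‖ + (ρ - 1) * ‖z‖ = ρ * ‖z‖ := by ring
    linarith

theorem coef_map {V W : Type*} [NormedAddCommGroup V] [NormedSpace ℝ V] [NormedAddCommGroup W]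
    [NormedSpace ℝ W] (T : V →ₗ[ℝ] W) {s : ℕ} (i : Fin s) (f : (Fin s → Bool) → V) :
    T (coef i f) = coef i (fun η => T (f η)) := by
  simp [coef, map_sum]

theorem hasSum_norm_sq (c : RS Fs) : HasSum (fun m => ‖c m‖ ^ 2) (‖c‖ ^ 2) := by
  have h := lp.hasSum_norm (p := 2) (by norm_num) c
  simpa using h

/-- `Z` has the lifting property with twice the constant. -/
theorem hasLift_ZS {M : ℕ} {B B' : ℝ} (hB : 0 < B) (hBB : B < B')
    (hlift : ∀ m, ∀ z : Fin M → Fs m, ∃ H : (Fin M → Bool) → Fs (m + 1),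
      (∀ i, coef i (fun η => (H η : X)) = (z i : X)) ∧
        ((2 : ℝ) ^ M)⁻¹ * ∑ η, ‖H η‖ ^ 2 ≤ B ^ 2 * ((M : ℝ)⁻¹ * ∑ j, ‖z j‖ ^ 2)) :
    HasLift (ZS Fs) M (2 * B') := by
  intro z
  have hρ : 1 < B' / B := by rw [lt_div_iff₀ hB]; linarith
  choose c hc hcn using fun j => exists_rep Fs hρ (z j)
  choose H hH1 hH2 using fun m => hlift m (fun j => c j m)
  have h2M : (0 : ℝ) < 2 ^ M := by positivity
  -- pointwise bound
  have hpt : ∀ m η, ‖H m η‖ ^ 2 ≤ 2 ^ M * (B ^ 2 * ((M : ℝ)⁻¹ * ∑ j, ‖c j m‖ ^ 2)) := by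
    intro m η
    have h1 := hH2 m
    rw [inv_mul_le_iff₀ h2M] at h1
    refine le_trans ?_ h1
    exact Finset.single_le_sum (f := fun η => ‖H m η‖ ^ 2) (fun _ _ => by positivity)
      (Finset.mem_univ η)
  have hsumc : ∀ j, HasSum (fun m => ‖c j m‖ ^ 2) (‖c j‖ ^ 2) := fun j => hasSum_norm_sq Fs (c j)
  have hsumcc : HasSum (fun m => ∑ j, ‖c j m‖ ^ 2) (∑ j, ‖c j‖ ^ 2) :=
    hasSum_sum fun j _ => hsumc j
  let D : (Fin M → Bool) → (m : ℕ) → Fs m := fun η m =>
    match m with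
    | 0 => 0
    | m + 1 => (2 : ℝ) • H m η
  have hD0 : ∀ η, D η 0 = 0 := fun η => rfl
  have hD1 : ∀ η m, D η (m + 1) = (2 : ℝ) • H m η := fun η m => rfl
  have hDn : ∀ η m, ‖D η (m + 1)‖ ^ 2 = 4 * ‖H m η‖ ^ 2 := by
    intro η m
    rw [hD1, norm_smul, mul_pow]
    norm_num
  have hsumH : ∀ η, Summable fun m => ‖H m η‖ ^ 2 := by
    intro η
    refine Summable.of_nonneg_of_le (fun m => by positivity) (fun m => hpt m η) ?_
    exact ((hsumcc.summable.mul_left _).mul_left _).mul_left _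
  have hsumD : ∀ η, Summable fun m => ‖D η m‖ ^ 2 := by
    intro η
    rw [← summable_nat_add_iff 1]
    simp only [hDn]
    exact (hsumH η).mul_left 4
  have hmem : ∀ η, Memℓp (D η) 2 := by
    intro η
    apply memℓp_gen
    have := hsumD η
    simpa using this
  let C : (Fin M → Bool) → RS Fs := fun η => ⟨D η, hmem η⟩
  have hCap : ∀ η m, C η m = D η m := fun η m => rfl
  have hCn : ∀ η, ‖C η‖ ^ 2 = 4 * ∑' m, ‖H m η‖ ^ 2 := by
    intro η
    have h1 : HasSum (fun m => ‖D η m‖ ^ 2) (‖C η‖ ^ 2) := hasSum_norm_sq Fs (C η)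
    have h2 : HasSum (fun m => ‖D η (m + 1)‖ ^ 2) (4 * ∑' m, ‖H m η‖ ^ 2) := by
      simp only [hDn]
      exact (hsumH η).hasSum.mul_left 4
    have h3 := (hasSum_nat_add_iff' (f := fun m => ‖D η m‖ ^ 2) (g := ‖C η‖ ^ 2) 1).2 h1
    simp only [Finset.range_one, Finset.sum_singleton, hD0, norm_zero] at h3
    have h4 := h3.unique h2
    rw [← h4]; ring
  have hLC : ∀ η, HasSum (fun m : ℕ => ((1 / 2 : ℝ) ^ m) • (H m η : X)) (Lop Fs (C η)) := by
    intro η
    have h1 := hasSum_Lop Fs (C η)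
    have h3 := (hasSum_nat_add_iff' (f := fun m : ℕ => ((1 / 2 : ℝ) ^ m) • (D η m : X))
      (g := Lop Fs (C η)) 1).2 h1
    simp only [Finset.range_one, Finset.sum_singleton, hD0, ZeroMemClass.coe_zero, smul_zero,
      sub_zero] at h3
    have h4 : (fun m : ℕ => ((1 / 2 : ℝ) ^ (m + 1)) • (D η (m + 1) : X)) =
        fun m : ℕ => ((1 / 2 : ℝ) ^ m) • (H m η : X) := by
      funext m
      rw [hD1, Submodule.coe_smul, smul_smul]
      congr 1
      rw [pow_succ]; ring
    rwa [h4] at h3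
  refine ⟨fun η => Submodule.Quotient.mk (C η), fun i => ?_, ?_⟩
  · apply jlin_injective Fs
    rw [coef_map]
    have h1 : ∀ η, jlin Fs (Submodule.Quotient.mk (C η)) = Lop Fs (C η) := fun η => rfl
    have h2 : jlin Fs (z i) = Lop Fs (c i) := by rw [← hc i]; rfl
    rw [h2]
    have h3 : HasSum (fun m : ℕ => ((1 / 2 : ℝ) ^ m) • (c i m : X))
        (coef i (fun η => Lop Fs (C η))) := by
      have h4 : HasSum (fun m : ℕ => ((2 : ℝ) ^ M)⁻¹ • ∑ η : Fin M → Bool,
          signVal (η i) • (((1 / 2 : ℝ) ^ m) • (H m η : X)))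
          (coef i (fun η => Lop Fs (C η))) := by
        unfold coef
        refine HasSum.const_smul _ (hasSum_sum fun η _ => ?_)
        exact (hLC η).const_smul _
      have h5 : (fun m : ℕ => ((2 : ℝ) ^ M)⁻¹ • ∑ η : Fin M → Bool,
          signVal (η i) • (((1 / 2 : ℝ) ^ m) • (H m η : X))) =
          fun m : ℕ => ((1 / 2 : ℝ) ^ m) • (c i m : X) := by
        funext m
        rw [← hH1 m i, coef]
        rw [smul_comm ((1 / 2 : ℝ) ^ m), Finset.smul_sum (r := (1 / 2 : ℝ) ^ m)]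
        congr 1
        refine Finset.sum_congr rfl fun η _ => ?_
        rw [smul_comm]
      rwa [h5] at h4
    exact h3.unique (hasSum_Lop Fs (c i))
  · have hn : ∀ η, ‖(Submodule.Quotient.mk (C η) : ZS Fs)‖ ^ 2 ≤ ‖C η‖ ^ 2 := by
      intro η
      exact pow_le_pow_left₀ (norm_nonneg _) (Submodule.Quotient.norm_mk_le _ _) 2
    have hsumHH : HasSum (fun m => ((2 : ℝ) ^ M)⁻¹ * ∑ η, ‖H m η‖ ^ 2)
        (((2 : ℝ) ^ M)⁻¹ * ∑ η, ∑' m, ‖H m η‖ ^ 2) :=
      (hasSum_sum fun η _ => (hsumH η).hasSum).mul_left _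
    have hle : ((2 : ℝ) ^ M)⁻¹ * ∑ η, ∑' m, ‖H m η‖ ^ 2 ≤
        B ^ 2 * ((M : ℝ)⁻¹ * ∑ j, ‖c j‖ ^ 2) :=
      hasSum_le hH2 hsumHH ((hsumcc.mul_left _).mul_left _)
    calc ((2 : ℝ) ^ M)⁻¹ * ∑ η, ‖(Submodule.Quotient.mk (C η) : ZS Fs)‖ ^ 2
        ≤ ((2 : ℝ) ^ M)⁻¹ * ∑ η, ‖C η‖ ^ 2 := by
          apply mul_le_mul_of_nonneg_left (Finset.sum_le_sum fun η _ => hn η) (by positivity)
      _ = 4 * (((2 : ℝ) ^ M)⁻¹ * ∑ η, ∑' m, ‖H m η‖ ^ 2) := by
          simp only [hCn]
          rw [← Finset.mul_sum]; ring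
      _ ≤ 4 * (B ^ 2 * ((M : ℝ)⁻¹ * ∑ j, ‖c j‖ ^ 2)) := by gcongr
      _ ≤ 4 * (B ^ 2 * ((M : ℝ)⁻¹ * ∑ j, (B' / B * ‖z j‖) ^ 2)) := by
          gcongr with j
          exact hcn j
      _ = (2 * B') ^ 2 * ((M : ℝ)⁻¹ * ∑ j, ‖z j‖ ^ 2) := by
          have : ∑ j, (B' / B * ‖z j‖) ^ 2 = (B' / B) ^ 2 * ∑ j, ‖z j‖ ^ 2 := by
            rw [Finset.mul_sum]
            exact Finset.sum_congr rfl fun j _ => mul_pow _ _ _
          rw [this]
          field_simp
          ring

theorem isCompactOperator_cl (hfd : ∀ m, FiniteDimensional ℝ (Fs m)) :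
    IsCompact (closure (Lop Fs '' Metric.closedBall 0 2)) :=
  (isCompactOperator_Lop Fs hfd).isCompact_closure_image_closedBall 2

/-- finite rank approximations of the injection -/
theorem approx_j (hAP : HasApproximationProperty X) (hfd : ∀ m, FiniteDimensional ℝ (Fs m))
    (δ : ℝ) (hδ : 0 < δ) :
    ∃ S : X →L[ℝ] X, FiniteDimensional ℝ (LinearMap.range (S : X →ₗ[ℝ] X)) ∧
      ∀ z : ZS Fs, ‖S (jlin Fs z) - jlin Fs z‖ ≤ δ * ‖z‖ := by
  obtain ⟨S, hS1, hS2⟩ := hAP _ (isCompactOperator_cl Fs hfd) δ hδ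
  refine ⟨S, hS1, fun z => ?_⟩
  by_cases hz : z = 0
  · simp [hz]
  · have hpos : 0 < ‖z‖ := norm_pos_iff.2 hz
    obtain ⟨c, hc, hcn⟩ := exists_rep Fs (ρ := 2) (by norm_num) (‖z‖⁻¹ • z)
    have h1 : ‖(‖z‖⁻¹ • z)‖ = 1 := by
      rw [norm_smul, norm_inv, norm_norm, inv_mul_cancel₀ hpos.ne']
    rw [h1, mul_one] at hcn
    have hmem : Lop Fs c ∈ closure (Lop Fs '' Metric.closedBall 0 2) :=
      subset_closure ⟨c, by simpa using hcn, rfl⟩
    have h2 := (hS2 _ hmem).le
    have h3 : Lop Fs c = ‖z‖⁻¹ • jlin Fs z := by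
      rw [← jlin_mk, hc, map_smul]
    rw [h3, map_smul, ← smul_sub, norm_smul, norm_inv, norm_norm, inv_mul_le_iff₀ hpos] at h2
    linarith

end Space

/-- The quantity in the definition of K-convexity. -/
noncomputable def Phi {X : Type*} [NormedAddCommGroup X] [NormedSpace ℝ X] {s : ℕ}
    (f : (Fin s → Bool) → X) : ℝ :=
  signAverage fun ε : Fin s → Bool =>
    ‖∑ i : Fin s, signVal (ε i) •
      (((2 : ℝ) ^ s)⁻¹ • ∑ η : Fin s → Bool, signVal (η i) • f η)‖ ^ (2 : ℝ)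

theorem continuous_Phi {X : Type*} [NormedAddCommGroup X] [NormedSpace ℝ X] {s : ℕ} :
    Continuous (fun f : (Fin s → Bool) → X => Phi f) := by
  unfold Phi signAverage
  simp only [Real.rpow_two]
  fun_prop

theorem Phi_smul {X : Type*} [NormedAddCommGroup X] [NormedSpace ℝ X] {s : ℕ} (c : ℝ)
    (f : (Fin s → Bool) → X) : Phi (fun η => c • f η) = c ^ 2 * Phi f := by
  unfold Phi signAverage
  simp only [Real.rpow_two]
  have h : ∀ ε : Fin s → Bool, ∑ i : Fin s, signVal (ε i) •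
      (((2 : ℝ) ^ s)⁻¹ • ∑ η : Fin s → Bool, signVal (η i) • (c • f η)) =
      c • ∑ i : Fin s, signVal (ε i) •
      (((2 : ℝ) ^ s)⁻¹ • ∑ η : Fin s → Bool, signVal (η i) • f η) := by
    intro ε
    rw [Finset.smul_sum]
    refine Finset.sum_congr rfl fun i _ => ?_
    rw [smul_comm c, smul_comm c, Finset.smul_sum (r := c)]
    congr 2
    refine Finset.sum_congr rfl fun η _ => ?_
    rw [smul_comm]
  simp only [h, norm_smul, mul_pow, Real.norm_eq_abs, sq_abs]
  rw [← Finset.mul_sum]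
  ring

/-- **Theorem C** (reduction by the approximation property). -/
theorem ap_reduction {X : Type u} [NormedAddCommGroup X] [NormedSpace ℝ X] [CompleteSpace X]
    (hAP : HasApproximationProperty X) {M : ℕ} {B B' : ℝ} (hB : 0 ≤ B) (hBB : B < B')
    (hL : HasLift X M B) {k : ℝ}
    (hMain : ∀ (Z : Type u) [NormedAddCommGroup Z] [NormedSpace ℝ Z] (T : Z →L[ℝ] X),
      FiniteDimensional ℝ (LinearMap.range (T : Z →ₗ[ℝ] X)) → ‖T‖ ≤ 1 →
      HasLift Z M (2 * B') → ∀ (s : ℕ) (g : (Fin s → Bool) → Z),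
      Phi (fun η => T (g η)) ≤ k ^ 2 * signAverage fun ε => ‖g ε‖ ^ (2 : ℝ)) :
    IsKConvex X := by
  refine ⟨3 * k, fun s f => ?_⟩
  -- the sequence of subspaces
  obtain ⟨B₁, hB₁, hB₁'⟩ := exists_between hBB
  have hB₁0 : 0 < B₁ := lt_of_le_of_lt hB hB₁
  have hstep : ∀ F : {F : Submodule ℝ X // FiniteDimensional ℝ F},
      ∃ G : {F : Submodule ℝ X // FiniteDimensional ℝ F}, ∀ z : Fin M → F.1,
      ∃ H : (Fin M → Bool) → G.1, (∀ i, coef i (fun η => (H η : X)) = (z i : X)) ∧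
        ((2 : ℝ) ^ M)⁻¹ * ∑ η, ‖H η‖ ^ 2 ≤ B₁ ^ 2 * ((M : ℝ)⁻¹ * ∑ j, ‖z j‖ ^ 2) := by
    intro F
    obtain ⟨G, hG, h⟩ := lift_fd hB hB₁ hL F.1 F.2
    exact ⟨⟨G, hG⟩, h⟩
  choose step hst using hstep
  let F0 : {F : Submodule ℝ X // FiniteDimensional ℝ F} :=
    ⟨Submodule.span ℝ (Set.range f), FiniteDimensional.span_of_finite ℝ (Set.finite_range f)⟩
  let Fq : ℕ → {F : Submodule ℝ X // FiniteDimensional ℝ F} := fun m =>
    Nat.rec F0 (fun _ F => step F) m
  let Fs : ℕ → Submodule ℝ X := fun m => (Fq m).1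
  have hfd : ∀ m, FiniteDimensional ℝ (Fs m) := fun m => (Fq m).2
  have hlift : ∀ m, ∀ z : Fin M → Fs m, ∃ H : (Fin M → Bool) → Fs (m + 1),
      (∀ i, coef i (fun η => (H η : X)) = (z i : X)) ∧
        ((2 : ℝ) ^ M)⁻¹ * ∑ η, ‖H η‖ ^ 2 ≤ B₁ ^ 2 * ((M : ℝ)⁻¹ * ∑ j, ‖z j‖ ^ 2) :=
    fun m => hst (Fq m)
  have hZ : HasLift (ZS Fs) M (2 * B') := hasLift_ZS Fs hB₁0 hB₁' hlift
  -- the lift of f
  have hf0 : ∀ ε, f ε ∈ Fs 0 := fun ε => Submodule.subset_span ⟨ε, rfl⟩
  let c : (Fin s → Bool) → RS Fs := fun ε => lp.single 2 0 (⟨f ε, hf0 ε⟩ : Fs 0)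
  let g : (Fin s → Bool) → ZS Fs := fun ε => Submodule.Quotient.mk (c ε)
  have hgn : ∀ ε, ‖g ε‖ ≤ ‖f ε‖ := by
    intro ε
    refine (Submodule.Quotient.norm_mk_le _ _).trans ?_
    have : ‖c ε‖ = ‖(⟨f ε, hf0 ε⟩ : Fs 0)‖ := lp.norm_single (by norm_num) _ _
    rw [this]
    rfl
  have hjg : ∀ ε, jlin Fs (g ε) = f ε := by
    intro ε
    have h1 : jlin Fs (g ε) = Lop Fs (c ε) := rfl
    rw [h1]
    have h2 := hasSum_Lop Fs (c ε)
    have h3 : HasSum (fun m : ℕ => ((1 / 2 : ℝ) ^ m) • (c ε m : X))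
        (((1 / 2 : ℝ) ^ 0) • (c ε 0 : X)) := by
      apply hasSum_single 0
      intro m hm
      have : c ε m = 0 := lp.single_apply_ne 2 0 _ hm
      rw [this]
      simp
    have h4 : (c ε 0 : X) = f ε := by
      have : c ε 0 = (⟨f ε, hf0 ε⟩ : Fs 0) := lp.single_apply_self 2 0 _
      rw [this]
    rw [h2.unique h3, h4]
    simp
  -- the main estimate for the approximations
  have hkey : ∀ δ : ℝ, 0 < δ → δ ≤ 1 → ∃ h : (Fin s → Bool) → X,
      (∀ ε, ‖h ε - f ε‖ ≤ δ * ‖f ε‖) ∧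
      Phi h ≤ (3 * k) ^ 2 * signAverage fun ε => ‖f ε‖ ^ (2 : ℝ) := by
    intro δ hδ hδ1
    obtain ⟨S, hS1, hS2⟩ := approx_j Fs hAP hfd δ hδ
    refine ⟨fun ε => S (f ε), fun ε => ?_, ?_⟩
    · have := hS2 (g ε)
      rw [hjg] at this
      exact this.trans (mul_le_mul_of_nonneg_left (hgn ε) hδ.le)
    · let T0 : ZS Fs →ₗ[ℝ] X := (3 : ℝ)⁻¹ • ((S : X →ₗ[ℝ] X) ∘ₗ jlin Fs)
      have hT0 : ∀ z, T0 z = (3 : ℝ)⁻¹ • S (jlin Fs z) := fun z => rfl
      have hT0n : ∀ z, ‖T0 z‖ ≤ 1 * ‖z‖ := by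
        intro z
        rw [hT0, norm_smul, norm_inv, Real.norm_of_nonneg (by norm_num : (0:ℝ) ≤ 3)]
        have h1 := hS2 z
        have h2 := norm_jlin_le Fs z
        have h3 : ‖S (jlin Fs z)‖ ≤ ‖S (jlin Fs z) - jlin Fs z‖ + ‖jlin Fs z‖ := by
          calc ‖S (jlin Fs z)‖ = ‖(S (jlin Fs z) - jlin Fs z) + jlin Fs z‖ := by
                rw [sub_add_cancel]
            _ ≤ _ := norm_add_le _ _
        have h4 : δ * ‖z‖ ≤ 1 * ‖z‖ := mul_le_mul_of_nonneg_right hδ1 (norm_nonneg _)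
        rw [inv_mul_le_iff₀ (by norm_num)]
        linarith
      let T : ZS Fs →L[ℝ] X := T0.mkContinuous 1 hT0n
      have hT : ∀ z, T z = (3 : ℝ)⁻¹ • S (jlin Fs z) := fun z => rfl
      have hTn : ‖T‖ ≤ 1 := T0.mkContinuous_norm_le zero_le_one hT0n
      have hTr : FiniteDimensional ℝ (LinearMap.range (T : ZS Fs →ₗ[ℝ] X)) := by
        have hle : LinearMap.range (T : ZS Fs →ₗ[ℝ] X) ≤ LinearMap.range (S : X →ₗ[ℝ] X) := by
          rintro _ ⟨z, rfl⟩
          refine ⟨(3 : ℝ)⁻¹ • jlin Fs z, ?_⟩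
          change S ((3 : ℝ)⁻¹ • jlin Fs z) = T z
          rw [map_smul, hT]
        exact Submodule.finiteDimensional_of_le hle
      have h1 := hMain (ZS Fs) T hTr hTn hZ s g
      have h2 : (fun η => T (g η)) = fun η => (3 : ℝ)⁻¹ • S (f η) := by
        funext η
        rw [hT, hjg]
      rw [h2, Phi_smul] at h1
      have h3 : signAverage (fun ε => ‖g ε‖ ^ (2 : ℝ)) ≤ signAverage fun ε => ‖f ε‖ ^ (2 : ℝ) := by
        unfold signAverage
        simp only [Real.rpow_two]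
        gcongr with ε
        exact hgn ε
      have h4 : k ^ 2 * signAverage (fun ε => ‖g ε‖ ^ (2 : ℝ)) ≤
          k ^ 2 * signAverage fun ε => ‖f ε‖ ^ (2 : ℝ) :=
        mul_le_mul_of_nonneg_left h3 (by positivity)
      have h5 : ((3 : ℝ)⁻¹) ^ 2 * Phi (fun η => S (f η)) ≤
          k ^ 2 * signAverage fun ε => ‖f ε‖ ^ (2 : ℝ) := h1.trans h4
      have h6 : Phi (fun η => S (f η)) = 9 * (((3 : ℝ)⁻¹) ^ 2 * Phi (fun η => S (f η))) := by ring
      rw [h6]
      calc 9 * (((3 : ℝ)⁻¹) ^ 2 * Phi (fun η => S (f η)))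
          ≤ 9 * (k ^ 2 * signAverage fun ε => ‖f ε‖ ^ (2 : ℝ)) := by gcongr
        _ = _ := by ring
  -- passage to the limit
  choose h hh1 hh2 using fun n : ℕ => hkey (1 / ((n : ℝ) + 1)) (by positivity)
    (by rw [div_le_one (by positivity)]; linarith [(Nat.cast_nonneg n : (0:ℝ) ≤ n)])
  have htend : Filter.Tendsto h Filter.atTop (nhds f) := by
    rw [tendsto_pi_nhds]
    intro ε
    rw [tendsto_iff_norm_sub_tendsto_zero]
    have h0 : Filter.Tendsto (fun n : ℕ => 1 / ((n : ℝ) + 1) * ‖f ε‖) Filter.atTop (nhds 0) := by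
      have := (tendsto_one_div_add_atTop_nhds_zero_nat (𝕜 := ℝ)).mul_const ‖f ε‖
      simpa using this
    exact squeeze_zero (fun n => norm_nonneg _) (fun n => hh1 n ε) h0
  have hlim : Filter.Tendsto (fun n => Phi (h n)) Filter.atTop (nhds (Phi f)) :=
    (continuous_Phi.tendsto f).comp htend
  exact le_of_tendsto' hlim hh2

end Crest.Agent.R118.APRed485
end

-- ▼ part R118/RedAdapt_485

/-!
Row 118 (S0158): `ap_reduction` in the exact shape of the hypothesis `hRed` of `Glue_324.glue`.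
-/

set_option autoImplicit false
open Crest.AnalysisR

namespace Crest.Agent.R118.APRed485

open Lift361

universe u

theorem hRed : ∀ (X : Type u) [NormedAddCommGroup X] [NormedSpace ℝ X] [CompleteSpace X]
      (hAP : HasApproximationProperty X) (M : ℕ) (B B' : ℝ) (hM : 0 < M) (hB : 0 ≤ B)
      (hBB : B < B') (hL : HasLift X M B) (k : ℝ)
      (hMain : ∀ (Z : Type u) [NormedAddCommGroup Z] [NormedSpace ℝ Z] (T : Z →L[ℝ] X),
        FiniteDimensional ℝ (LinearMap.range (T : Z →ₗ[ℝ] X)) → ‖T‖ ≤ 1 →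
        HasLift Z M (2 * B') → ∀ (s : ℕ) (g : (Fin s → Bool) → Z),
          signAverage (fun ε : Fin s → Bool =>
            ‖∑ i : Fin s, signVal (ε i) •
              (((2 : ℝ) ^ s)⁻¹ • ∑ η : Fin s → Bool, signVal (η i) • T (g η))‖ ^ 2)
            ≤ k ^ 2 * signAverage fun ε => ‖g ε‖ ^ 2), IsKConvex X := by
  intro X _ _ _ hAP M B B' _ hB hBB hL k hMain
  refine ap_reduction hAP hB hBB hL (k := k) fun Z _ _ T h1 h2 h3 s g => ?_
  have h := hMain Z T h1 h2 h3 s g
  unfold Phi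
  simp only [Real.rpow_two]
  exact h

end Crest.Agent.R118.APRed485
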